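/-
R302 / NC package (sub-captain helper7).  Singular corner of a masa, without standard form.
Blueprint: header of NC/Defs.lean, Section 1.   All names carry the prefix `nc_`.

Conventions.
* `H` complex Hilbert space, operators are `H →L[ℂ] H`, `M : VonNeumannAlgebra H`, `A` a masa of `M`.
* test vectors are a finite FAMILY `ξ : ι → H` (`[Fintype ι]`); for `F : Finset H` use `fun v : F => (v : H)`.
* `nc_sq ξ z = ∑ k, ‖z (ξ k)‖ ^ 2`   ( = chi (z^* z) for chi the sum of the vector functionals ).
* everything is relative to a projection `h ∈ A` (`h * f = f` means `f ≤ h`).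

BLUEPRINT (former NC/Defs.lean header):

NOTES helper7 (board row302).  Sections checked line by line: Q/reductions, Q/kernels, P/general (+ both intros).
Status 02:50 UTC 14 Oct:  K1 = none in these sections.  Main output = a TOP-LEVEL DESIGN without standard form,
Haagerup L^p, Powers-Stormer, weights, Tomita-Takesaki.

=====================================================================================================
0. Verification log
=====================================================================================================
Q Lemma 2.1 (no-central): every display re-derived (block sum identity, two randomisations, pairwise independence of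
  the equal-colour indicators, Tr(xi h_psi^{1/2}) <= t, Jordan overlap (phi(1)+psi(1)-|phi-psi|)/2 <= t, 3 sqrt t,
  Markov).  Correct, but replaced below by an elementary proof.
Q Prop 2.2 (corner assembly), L 2.3 (E_A, pinching limit), L 2.4 (separable reduction): correct.
Q Sec 3: sigma_t(v) = v h_v^{it}; type I lemma 3.1; Prop 3.2 (atomless kernels): correct
  (checked: e = u*u in D = theta(A)' cap 1_T M 1_T is abelian in D; z(e) in A 1_T; v = u w normaliser; composition of kernels).
P Lemma 6.2, Cor 6.3, support decomposition, 3-corner assembly: correct.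
helper73's S5 (E_N by strong resolvent convergence of the symmetric Fourier sums) checked: correct.  Needed identities,
  all consequences of  psi = psi|_A o E_A  for A-central normal psi:
     phi(v* w v) = phi(h_v w) (w in vv* M vv*),  phi(y v) = phi(h_v v y),  R_v^* = R_{v* h_v},
     h_{v*} (v* h_v v) = v* v,   (E_A(x v*) v) Om = Q_v (x Om),  Q_v = projection onto closure(A v Om).

=====================================================================================================
1. Singular corner, elementary version
=====================================================================================================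
Notation: M on H, A masa, chi = sum_{xi in F'} om_xi (finite sum of vector functionals), Xi = (xi)_{xi in F'} in H^{F'},
S_P(z) = sum_{e in P} e z e for a finite partition P of 1 by projections of A.

(D) DECOMPOSITION.  theta := ultrafilter limit of chi o S_P on M along refinement.  theta >= 0, theta(1)=chi(1),
  theta(u z u*) = theta(z) for u in A unitary with finite spectrum.  GNS (K, pi, x0) of theta over the C*-algebra M.
  K0 := { eta in K : om_eta o pi <= C * (finite sum of vector functionals of H) on M_+ },  Kn := closure K0.
  K0 is a subspace (parallelogram), invariant under pi(M), pi(M)', and the unitaries W_u : pi(z) x0 -> pi(u z u*) x0.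
  zz := projection onto Kn, commutes with pi(M) and W_u.  theta_n := om_{zz x0} o pi, theta_s := theta - theta_n >= 0.
  theta_n is A-central and is a NORM LIMIT of functionals psi <= C sum om_{xi_i}; each such psi is WOT continuous:
  psi(x) = sum_i <x xi_i, (T Xi)_i> with T the bounded operator of the form psi(y* x) on closure{(x xi_i)_i}.
  So theta_n (and theta_n(y . ), theta_n( . y)) is WOT continuous on bounded subsets of M.
(E) e := support of theta_n (1 - sup of the projections killed by theta_n).  u e u* = e for all u, so e in A.  h := 1-e.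
(F) For every nonzero projection e' <= h of M there is a nonzero projection f0 <= e' in M with theta(f0)=0:
  pick zeta in e'H, psi = c om_zeta with psi(e') > theta(e').  Zorn on { e'' <= e' : psi(e'') <= theta(e'') } (chains: psi is
  normal, theta monotone) gives a maximal e0 != e'; f0 := e'-e0 satisfies theta <= psi on all projections of f0 M f0, hence
  (spectral theorem, norm continuity) on (f0 M f0)_+, so pi(f0) x0 in K0, so theta(f0)=theta_n(f0) <= theta_n(h) = 0.
  Maximal orthogonal family f_k <= h with theta(f_k)=0 has sum h.  Hence for al>0: projection f <= h in M, theta(f)=0,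
  chi(h-f) < al, and therefore a partition P with chi(S_P f) < al.
(S) g := S_P(f) (commutes with P), q1 := 1_[0,be](g) h, s := q1 f q1.  Then 0<=s<=h, S_R(s) <= be for EVERY R refining P
  (S_R = S_R S_P, S_R positive unital), chi(h-q1) <= chi(g)/be, chi(h-s) <= al + 2 sqrt(chi(1) al/be).
(L) Q LEMMA 2.1'.  x=x* in hMh, |x|<=1, r=ceil(4/eps).  T'(z) := s z s Xi.
  block sum:   sum_{e,e' in R} (s e z e' s)*(s e z e' s) = sum_{e'} s e' z* S_R(s^2) z e' s <= be |z|^2 s^2   (operator inequality)
  single:      |T'(e z e)|^2 <= be |z|^2 chi(s e s).
  b := WOT ultralimit of S_P'(x), P' refining P: b=b* in A, |b|<=1.  Hahn-Banach (T' is WOT-weak continuous): refinements P^1..P^d,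
  weights t_j with |sum t_j T'(S_{P^j} x) - T'(b)| < ka.  Random j_e (e in P) iid ~ t, R = union of P^{j_e} below e:
  E|T'(S_R x) - T'(b)|^2 <= ka^2 + be chi(1).  Random colouring of the pieces of R with r colours:
  S_col x = x/r + (1-1/r) S_R x + W,  E|T'(W)|^2 <= (2/r) be chi(1).  So y := S_col x - (1-1/r) b - x/r has |s y s Xi| =: t small, |y|<=2.
  cut: y' = s y s, q' = 1_[-e',e'](y') (chi(1-q') <= t^2/e'^2), k = q' s^2 q', q'' = 1_[c2,1](k) <= q', q := range projection of s q''.
  For zeta in q''H: |s zeta|^2 >= c2 |zeta|^2, <y s zeta, s zeta> = <y' zeta,zeta>, so |q y q| <= e'/c2.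
  |(h-q) Xi| <= |(h-s) Xi| + |(h-q'') Xi|;  q'-q'' <= (q'-k)/(1-c2);  chi(q'-k) = |(1-s^2)^{1/2} q' Xi|^2.
  With e'=eps/4, c2=1/2, a=(1-1/r) b:  |q (S_col x - a) q| <= eps/2 + 1/r <= 3 eps/4.
(P) P LEMMA 6.2'.  u = sum_{e in P} Z_e e, Z_e iid uniform m-th roots of 1: E chi(u^l f u^-l) = chi(S_P f) for l != 0 mod m.
  b_j := u^j f u^-j satisfy (gen:spectral-separation); V_j, s_j, s = (1/m) sum u^-j s_j u^j as in the paper: p_i s p_i <= p_i/m.

=====================================================================================================
2. Core interface and transport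
=====================================================================================================
Core(eps,R):  for all H, M, A masa in M, Om in H cyclic and separating for M, <a x Om,Om> = <x a Om,Om> (a in A, x in M):
   for x=x* in M, |x|<=1, rho>0 there are p : Fin R -> A (partition of 1), a=a* in A, |a|<=1, a projection q in M commuting with
   every p_i and with z := sum p_i x p_i - a, such that |(1-q) Om|^2 < rho and |z q| <= eps.
   (Q Prop 'expected': a = E_A x, q = 1_[-eps,eps](z).)
Transport: K1 := closure(pi(M) zz x0), pi1 := pi restricted to K1, Om := zz x0.  ker pi1 = M(1-e)+(1-e)M-part; pi1 is injective on eMe.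
   M1 := pi1(M)''.  pi1(eMe) = M1:  bicommutant theorem + Kaplansky + WOT compactness of the ball of eMe + WOT continuity of
   x -> <pi1(x) pi1(y) Om, pi1(y') Om> = theta_n(y'* x y) on bounded sets.
(AC) for de>0 there is rho>0: 0<=g<=e in M, theta_n(g)<rho => chi(g)<de  (WOT ultralimit of a counterexample sequence, faithfulness).
S0556: palettes R (on e), ceil(4/eps) (on h), one spare zero projection.  q = q_e + q_h.  Cross terms vanish under the pinching.
S0557: F' = F, xF, one almost norming vector.  y := x - z(1-q) - (hxh - s x s), s from (P) with m ~ 4/eps;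
   S_p(y) - a = z q + S_{p^h}(s x s), norm <= max(eps', 1/m); |y-x| <= 2|x|; rescale a by min(1,|y|/|a|).

=====================================================================================================
3. Sizes (Lean lines, my estimate after the shortcuts of helper73/100/165/203)
=====================================================================================================
toolkit (WOT ultralimits, sup/range/spectral projections, polar decomposition, finite spectrum density in A) 6-8k;
top level (D)-(P), transport (bicommutant, Kaplansky, corner algebra), assemblies 8-10k;  E_A, pinching, cp 3-4k;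
normalisers, h_v, right action, E_N 6-8k;  atomless kernels (algebraic form) 5-8k;  point realisation of (A, finitely many
normalisers) 10-15k;  MSS 10k;  Q Sec 4 10k;  Q Sec 5 15-20k;  Q Sec 6 30-40k;  transfer + completion 15-30k.   Total 120-170k.
-/
import Mathlib

set_option autoImplicit false

open scoped InnerProductSpace ComplexOrder

-- with `ComplexOrder` in scope this instance hijacks `Inner ℂ H` (then `⟪x, y⟫_ℂ` is not the usual inner product syntactically)
attribute [-instance] WithCStarModule.instCStarModuleComplex

namespace Claimed.Agent.R302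

variable {H : Type*} [NormedAddCommGroup H] [InnerProductSpace ℂ H] [CompleteSpace H]

/-- `A` is maximal abelian in `M` (same body as `IsMasaIn` of `Def_0484` and `Def_0485`). -/
def nc_Masa (M : VonNeumannAlgebra H) (A : StarSubalgebra ℂ (H →L[ℂ] H)) : Prop :=
  ∀ y : H →L[ℂ] H, y ∈ A ↔ (y ∈ M ∧ ∀ a ∈ A, Commute y a)

/-- `p` is a partition of the projection `h` into projections of `A`, indexed by a finite type (zero pieces allowed). -/
def nc_IsPart (A : StarSubalgebra ℂ (H →L[ℂ] H)) (h : H →L[ℂ] H) {κ : Type*} [Fintype κ]
    (p : κ → (H →L[ℂ] H)) : Prop :=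
  (∀ i, p i ∈ A ∧ IsStarProjection (p i)) ∧ (∀ i j, i ≠ j → p i * p j = 0) ∧ ∑ i, p i = h

/-- every piece of `Q` lies below a piece of `P`. -/
def nc_Refines {κ κ' : Type*} (Q : κ' → (H →L[ℂ] H)) (P : κ → (H →L[ℂ] H)) : Prop :=
  ∀ j, ∃ i, P i * Q j = Q j

/-- the pinching `z ↦ ∑ i, p i * z * p i`. -/
def nc_pinch {κ : Type*} [Fintype κ] (p : κ → (H →L[ℂ] H)) (z : H →L[ℂ] H) : H →L[ℂ] H :=
  ∑ i, p i * z * p i

/-- the "rotation" `∑ i, ω ^ (l * c i) • P i`, `ω = exp (2 π i / m)`, attached to a colouring `c` of the pieces of `P`. -/
noncomputable def nc_rot {κ : Type*} [Fintype κ] (P : κ → (H →L[ℂ] H)) {m : ℕ} (c : κ → Fin m) (l : ℤ) :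
    H →L[ℂ] H :=
  ∑ i, Complex.exp (2 * Real.pi * Complex.I * l * ((c i : ℕ) : ℂ) / m) • P i

/-- the colour classes of a colouring `c` of the pieces of `P`. -/
def nc_class {κ : Type*} [Fintype κ] (P : κ → (H →L[ℂ] H)) {m : ℕ} (c : κ → Fin m) (k : Fin m) :
    H →L[ℂ] H :=
  ∑ i, if c i = k then P i else 0

/-- `chi (z^* z)` for `chi = ∑ k, ⟨ · ξ k, ξ k⟩`. -/
def nc_sq {ι : Type*} [Fintype ι] (ξ : ι → H) (z : H →L[ℂ] H) : ℝ :=
  ∑ k, ‖z (ξ k)‖ ^ 2

/-- `chi z`. -/
def nc_chi {ι : Type*} [Fintype ι] (ξ : ι → H) (z : H →L[ℂ] H) : ℂ :=
  ∑ k, ⟪ξ k, z (ξ k)⟫_ℂ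

/-- `lam` restricted to `M` is a norm limit of WOT-continuous functionals (i.e. lies in the predual of `M`). -/
def nc_Normal (M : VonNeumannAlgebra H) (lam : (H →L[ℂ] H) → ℂ) : Prop :=
  ∀ ε : ℝ, 0 < ε → ∃ (n : ℕ) (ζ η : Fin n → H), ∀ x ∈ M,
    ‖lam x - ∑ i, ⟪η i, x (ζ i)⟫_ℂ‖ ≤ ε * ‖x‖

/-- The corner `h` is singular for the test family `ξ`: there are projections `f ≤ h` of `M` which are almost `h`
on `ξ` but whose diagonal `∑ i, P i * f * P i` along some finite partition of `h` in `A` is almost `0` on `ξ`. -/
def nc_Sing {ι : Type*} [Fintype ι] (M : VonNeumannAlgebra H) (A : StarSubalgebra ℂ (H →L[ℂ] H))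
    (h : H →L[ℂ] H) (ξ : ι → H) : Prop :=
  ∀ α : ℝ, 0 < α → ∃ f ∈ M, IsStarProjection f ∧ h * f = f ∧ nc_sq ξ (h - f) < α ∧
    ∃ (n : ℕ) (P : Fin n → (H →L[ℂ] H)), nc_IsPart A h P ∧ ∑ i, nc_sq ξ (f * P i) < α

end Claimed.Agent.R302
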