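/-
R302 / NC / L1 : algebra of partitions and pinchings.
-/
import Claimed.Agent.R302.NC.Defs

set_option autoImplicit false

open scoped InnerProductSpace ComplexOrder

-- with `ComplexOrder` in scope this instance hijacks `Inner ℂ H`
attribute [-instance] WithCStarModule.instCStarModuleComplex

namespace Claimed.Agent.R302

variable {H : Type*} [NormedAddCommGroup H] [InnerProductSpace ℂ H] [CompleteSpace H]

/-! ### Helpers -/

/-- the sum of an orthogonal family of projections is a projection. -/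
theorem nc_sum_isStarProjection {κ : Type*} [Fintype κ] (p : κ → (H →L[ℂ] H))
    (hp : ∀ i, IsStarProjection (p i)) (ho : ∀ i j, i ≠ j → p i * p j = 0) :
    IsStarProjection (∑ i, p i) where
  isSelfAdjoint := by
    rw [IsSelfAdjoint, star_sum]
    exact Finset.sum_congr rfl fun i _ => (hp i).isSelfAdjoint.star_eq
  isIdempotentElem := by
    rw [IsIdempotentElem, Finset.sum_mul_sum]
    refine Finset.sum_congr rfl fun i _ => ?_
    rw [Finset.sum_eq_single_of_mem i (Finset.mem_univ i) (fun j _ hne => ho i j hne.symm)]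
    exact (hp i).isIdempotentElem

theorem nc_part_isStarProjection (A : StarSubalgebra ℂ (H →L[ℂ] H)) (h : H →L[ℂ] H) {κ : Type*}
    [Fintype κ] (p : κ → (H →L[ℂ] H)) (hp : nc_IsPart A h p) : IsStarProjection h :=
  hp.2.2 ▸ nc_sum_isStarProjection p (fun i => (hp.1 i).2) hp.2.1

theorem nc_part_mem (A : StarSubalgebra ℂ (H →L[ℂ] H)) (h : H →L[ℂ] H) {κ : Type*}
    [Fintype κ] (p : κ → (H →L[ℂ] H)) (hp : nc_IsPart A h p) : h ∈ A :=
  hp.2.2 ▸ sum_mem fun i _ => (hp.1 i).1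

/-- `p i * h = p i`. -/
theorem nc_part_mul_right (A : StarSubalgebra ℂ (H →L[ℂ] H)) (h : H →L[ℂ] H) {κ : Type*}
    [Fintype κ] (p : κ → (H →L[ℂ] H)) (hp : nc_IsPart A h p) (i : κ) : p i * h = p i := by
  rw [← hp.2.2, Finset.mul_sum,
    Finset.sum_eq_single_of_mem i (Finset.mem_univ i) (fun j _ hne => hp.2.1 i j hne.symm)]
  exact (hp.1 i).2.isIdempotentElem

/-- `h * p i = p i`. -/
theorem nc_part_mul_left (A : StarSubalgebra ℂ (H →L[ℂ] H)) (h : H →L[ℂ] H) {κ : Type*}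
    [Fintype κ] (p : κ → (H →L[ℂ] H)) (hp : nc_IsPart A h p) (i : κ) : h * p i = p i := by
  rw [← hp.2.2, Finset.sum_mul,
    Finset.sum_eq_single_of_mem i (Finset.mem_univ i) (fun j _ hne => hp.2.1 j i hne)]
  exact (hp.1 i).2.isIdempotentElem

/-- a projection is a contraction. -/
theorem nc_proj_norm_apply_le {e : H →L[ℂ] H} (he : IsStarProjection e) (x : H) : ‖e x‖ ≤ ‖x‖ := by
  have h1 : ‖e x‖ ^ 2 = RCLike.re ⟪x, e x⟫_ℂ := by
    rw [norm_sq_eq_re_inner (𝕜 := ℂ), ← ContinuousLinearMap.adjoint_inner_right,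
      ← ContinuousLinearMap.star_eq_adjoint, he.isSelfAdjoint.star_eq,
      ← mul_apply_eq_comp, he.isIdempotentElem.eq]
  have h2 : RCLike.re ⟪x, e x⟫_ℂ ≤ ‖x‖ * ‖e x‖ := re_inner_le_norm _ _
  by_contra hcon
  have hlt : ‖x‖ < ‖e x‖ := not_le.1 hcon
  have hpos : 0 < ‖e x‖ := lt_of_le_of_lt (norm_nonneg _) hlt
  nlinarith

/-- Pythagoras for a family of pairwise orthogonal vectors. -/
theorem nc_norm_sq_sum_orth {κ : Type*} [Fintype κ] (v : κ → H)
    (ho : ∀ i j, i ≠ j → ⟪v i, v j⟫_ℂ = 0) : ‖∑ i, v i‖ ^ 2 = ∑ i, ‖v i‖ ^ 2 := by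
  rw [norm_sq_eq_re_inner (𝕜 := ℂ), sum_inner, map_sum]
  refine Finset.sum_congr rfl fun i _ => ?_
  rw [inner_sum, Finset.sum_eq_single_of_mem i (Finset.mem_univ i) (fun j _ hne => ho i j hne.symm),
    norm_sq_eq_re_inner (𝕜 := ℂ)]

/-- vectors in the ranges of orthogonal projections are orthogonal. -/
theorem nc_inner_proj_orth {e f : H →L[ℂ] H} (he : IsStarProjection e) (hef : e * f = 0) (x y : H) :
    ⟪e x, f y⟫_ℂ = 0 := by
  rw [← ContinuousLinearMap.adjoint_inner_right, ← ContinuousLinearMap.star_eq_adjoint,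
    he.isSelfAdjoint.star_eq, ← mul_apply_eq_comp, hef]
  simp

theorem nc_part_sq_sum (A : StarSubalgebra ℂ (H →L[ℂ] H)) (h : H →L[ℂ] H) {κ : Type*}
    [Fintype κ] (p : κ → (H →L[ℂ] H)) (hp : nc_IsPart A h p) (x : H) :
    ∑ i, ‖p i x‖ ^ 2 = ‖h x‖ ^ 2 := by
  rw [← hp.2.2, sum_apply, nc_norm_sq_sum_orth]
  intro i j hij
  exact nc_inner_proj_orth (hp.1 i).2 (hp.2.1 i j hij) x x

/-! ### The package -/

theorem nc_masa_le (M : VonNeumannAlgebra H) (A : StarSubalgebra ℂ (H →L[ℂ] H)) (hA : nc_Masa M A)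
    {a : H →L[ℂ] H} (ha : a ∈ A) : a ∈ M :=
  ((hA a).1 ha).1

theorem nc_masa_commute (M : VonNeumannAlgebra H) (A : StarSubalgebra ℂ (H →L[ℂ] H)) (hA : nc_Masa M A)
    {a b : H →L[ℂ] H} (ha : a ∈ A) (hb : b ∈ A) : Commute a b :=
  ((hA a).1 ha).2 b hb

theorem nc_pinch_mem (M : VonNeumannAlgebra H) {κ : Type*} [Fintype κ] (p : κ → (H →L[ℂ] H))
    (hp : ∀ i, p i ∈ M) {z : H →L[ℂ] H} (hz : z ∈ M) : nc_pinch p z ∈ M :=
  sum_mem fun i _ => mul_mem (mul_mem (hp i) hz) (hp i)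

theorem nc_pinch_isSelfAdjoint {κ : Type*} [Fintype κ] (p : κ → (H →L[ℂ] H))
    (hp : ∀ i, IsSelfAdjoint (p i)) {z : H →L[ℂ] H} (hz : IsSelfAdjoint z) :
    IsSelfAdjoint (nc_pinch p z) := by
  rw [IsSelfAdjoint, nc_pinch, star_sum]
  refine Finset.sum_congr rfl fun i _ => ?_
  rw [star_mul, star_mul, (hp i).star_eq, hz.star_eq, mul_assoc]

theorem nc_pinch_mono {κ : Type*} [Fintype κ] (p : κ → (H →L[ℂ] H))
    (hp : ∀ i, IsSelfAdjoint (p i)) {z w : H →L[ℂ] H} (hzw : z ≤ w) :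
    nc_pinch p z ≤ nc_pinch p w := by
  exact Finset.sum_le_sum fun i _ => (hp i).conjugate_le_conjugate hzw

theorem nc_pinch_norm_le (A : StarSubalgebra ℂ (H →L[ℂ] H)) (h : H →L[ℂ] H) {κ : Type*} [Fintype κ]
    (p : κ → (H →L[ℂ] H)) (hp : nc_IsPart A h p) (z : H →L[ℂ] H) : ‖nc_pinch p z‖ ≤ ‖z‖ := by
  refine ContinuousLinearMap.opNorm_le_bound _ (norm_nonneg _) fun x => ?_
  have hsq : ‖nc_pinch p z x‖ ^ 2 ≤ (‖z‖ * ‖x‖) ^ 2 := by
    have h1 : nc_pinch p z x = ∑ i, p i (z (p i x)) := by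
      simp [nc_pinch]
    rw [h1, nc_norm_sq_sum_orth]
    · calc ∑ i, ‖p i (z (p i x))‖ ^ 2 ≤ ∑ i, ‖z‖ ^ 2 * ‖p i x‖ ^ 2 := by
            refine Finset.sum_le_sum fun i _ => ?_
            have h2 : ‖p i (z (p i x))‖ ≤ ‖z‖ * ‖p i x‖ :=
              (nc_proj_norm_apply_le (hp.1 i).2 _).trans (z.le_opNorm _)
            calc ‖p i (z (p i x))‖ ^ 2 ≤ (‖z‖ * ‖p i x‖) ^ 2 := by gcongr
              _ = ‖z‖ ^ 2 * ‖p i x‖ ^ 2 := by ring
        _ = ‖z‖ ^ 2 * ‖h x‖ ^ 2 := by rw [← Finset.mul_sum, nc_part_sq_sum A h p hp]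
        _ ≤ ‖z‖ ^ 2 * ‖x‖ ^ 2 := by
            have := nc_proj_norm_apply_le (nc_part_isStarProjection A h p hp) x
            gcongr
        _ = (‖z‖ * ‖x‖) ^ 2 := by ring
    · intro i j hij
      exact nc_inner_proj_orth (hp.1 i).2 (hp.2.1 i j hij) _ _
  exact le_of_sq_le_sq hsq (by positivity)

theorem nc_pinch_one (A : StarSubalgebra ℂ (H →L[ℂ] H)) (h : H →L[ℂ] H) {κ : Type*} [Fintype κ]
    (p : κ → (H →L[ℂ] H)) (hp : nc_IsPart A h p) : nc_pinch p 1 = h := by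
  rw [nc_pinch, ← hp.2.2]
  refine Finset.sum_congr rfl fun i _ => ?_
  rw [mul_one]
  exact (hp.1 i).2.isIdempotentElem

theorem nc_pinch_self (A : StarSubalgebra ℂ (H →L[ℂ] H)) (h : H →L[ℂ] H) {κ : Type*} [Fintype κ]
    (p : κ → (H →L[ℂ] H)) (hp : nc_IsPart A h p) : nc_pinch p h = h := by
  have h1 : ∀ i, p i * h * p i = p i := fun i => by
    rw [nc_part_mul_right A h p hp i]
    exact (hp.1 i).2.isIdempotentElem
  rw [nc_pinch, Finset.sum_congr rfl fun i _ => h1 i]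
  exact hp.2.2

theorem nc_pinch_pinch (A : StarSubalgebra ℂ (H →L[ℂ] H)) (h : H →L[ℂ] H) {κ κ' : Type*} [Fintype κ]
    [Fintype κ'] (P : κ → (H →L[ℂ] H)) (Q : κ' → (H →L[ℂ] H)) (hP : nc_IsPart A h P)
    (hQ : nc_IsPart A h Q) (hQP : nc_Refines Q P) (z : H →L[ℂ] H) :
    nc_pinch Q (nc_pinch P z) = nc_pinch Q z := by
  unfold nc_pinch
  refine Finset.sum_congr rfl fun j _ => ?_
  obtain ⟨i₀, hi₀⟩ := hQP j
  have hi₀' : Q j * P i₀ = Q j := by
    have := congrArg star hi₀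
    rwa [star_mul, (hQ.1 j).2.isSelfAdjoint.star_eq, (hP.1 i₀).2.isSelfAdjoint.star_eq] at this
  have hz : ∀ i, i ≠ i₀ → P i * Q j = 0 := fun i hi => by
    rw [← hi₀, ← mul_assoc, hP.2.1 i i₀ hi, zero_mul]
  rw [Finset.mul_sum, Finset.sum_mul,
    Finset.sum_eq_single_of_mem i₀ (Finset.mem_univ i₀) (fun i _ hi => by
      rw [mul_assoc, mul_assoc, hz i hi, mul_zero, mul_zero])]
  calc Q j * (P i₀ * z * P i₀) * Q j = (Q j * P i₀) * z * (P i₀ * Q j) := by
        simp only [mul_assoc]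
    _ = Q j * z * Q j := by rw [hi₀, hi₀']

theorem nc_pinch_commute_piece (A : StarSubalgebra ℂ (H →L[ℂ] H)) (h : H →L[ℂ] H) {κ : Type*} [Fintype κ]
    (p : κ → (H →L[ℂ] H)) (hp : nc_IsPart A h p) (z : H →L[ℂ] H) (i : κ) :
    Commute (p i) (nc_pinch p z) := by
  unfold nc_pinch
  rw [Commute, SemiconjBy, Finset.mul_sum, Finset.sum_mul,
    Finset.sum_eq_single_of_mem i (Finset.mem_univ i) (fun j _ hj => by
      rw [← mul_assoc, ← mul_assoc, hp.2.1 i j hj.symm, zero_mul, zero_mul]),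
    Finset.sum_eq_single_of_mem i (Finset.mem_univ i) (fun j _ hj => by
      rw [mul_assoc, hp.2.1 j i hj, mul_zero])]
  rw [← mul_assoc, ← mul_assoc, (hp.1 i).2.isIdempotentElem.eq, mul_assoc (p i * z),
    (hp.1 i).2.isIdempotentElem.eq]

/-- bimodularity over operators commuting with the pieces. -/
theorem nc_pinch_mul_left {κ : Type*} [Fintype κ] (p : κ → (H →L[ℂ] H)) (a : H →L[ℂ] H)
    (ha : ∀ i, Commute a (p i)) (z : H →L[ℂ] H) : nc_pinch p (a * z) = a * nc_pinch p z := by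
  unfold nc_pinch
  rw [Finset.mul_sum]
  refine Finset.sum_congr rfl fun i _ => ?_
  rw [← mul_assoc, ← (ha i).eq]
  simp only [mul_assoc]

theorem nc_pinch_mul_right {κ : Type*} [Fintype κ] (p : κ → (H →L[ℂ] H)) (a : H →L[ℂ] H)
    (ha : ∀ i, Commute a (p i)) (z : H →L[ℂ] H) : nc_pinch p (z * a) = nc_pinch p z * a := by
  unfold nc_pinch
  rw [Finset.sum_mul]
  refine Finset.sum_congr rfl fun i _ => ?_
  rw [mul_assoc (p i * z) (p i) a, ← (ha i).eq]
  simp only [mul_assoc]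

/-- if every piece is below `e` or orthogonal to `e`, then `e` commutes with every pinched operator. -/
theorem nc_pinch_commute_of_split {κ : Type*} [Fintype κ] (p : κ → (H →L[ℂ] H)) (e : H →L[ℂ] H)
    (he : ∀ i, (e * p i = p i ∧ p i * e = p i) ∨ (e * p i = 0 ∧ p i * e = 0)) (z : H →L[ℂ] H) :
    Commute e (nc_pinch p z) := by
  unfold nc_pinch
  rw [Commute, SemiconjBy, Finset.mul_sum, Finset.sum_mul]
  refine Finset.sum_congr rfl fun i _ => ?_
  rcases he i with ⟨h1, h2⟩ | ⟨h1, h2⟩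
  · rw [← mul_assoc, ← mul_assoc, h1, mul_assoc (p i * z), h2]
  · rw [← mul_assoc, ← mul_assoc, h1, mul_assoc (p i * z), h2]
    simp

theorem nc_common_refinement (M : VonNeumannAlgebra H) (A : StarSubalgebra ℂ (H →L[ℂ] H))
    (hA : nc_Masa M A) (h : H →L[ℂ] H) {κ κ' : Type*} [Fintype κ] [Fintype κ']
    (P : κ → (H →L[ℂ] H)) (Q : κ' → (H →L[ℂ] H)) (hP : nc_IsPart A h P) (hQ : nc_IsPart A h Q) :
    nc_IsPart A h (fun ij : κ × κ' => P ij.1 * Q ij.2) ∧
      nc_Refines (fun ij : κ × κ' => P ij.1 * Q ij.2) P ∧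
      nc_Refines (fun ij : κ × κ' => P ij.1 * Q ij.2) Q := by
  have hc : ∀ i j, Commute (P i) (Q j) := fun i j => nc_masa_commute M A hA (hP.1 i).1 (hQ.1 j).1
  refine ⟨⟨fun ij => ⟨mul_mem (hP.1 ij.1).1 (hQ.1 ij.2).1,
    (hP.1 ij.1).2.mul (hQ.1 ij.2).2 (hc _ _)⟩, ?_, ?_⟩, ?_, ?_⟩
  · rintro ⟨i, j⟩ ⟨i', j'⟩ hne
    have h1 : P i * Q j * (P i' * Q j') = (P i * P i') * (Q j * Q j') := by
      rw [mul_assoc, ← mul_assoc (Q j), ← (hc i' j).eq]
      simp only [mul_assoc]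
    show P i * Q j * (P i' * Q j') = 0
    rw [h1]
    by_cases hi : i = i'
    · have hj : j ≠ j' := fun hj => hne (by rw [hi, hj])
      rw [hQ.2.1 j j' hj, mul_zero]
    · rw [hP.2.1 i i' hi, zero_mul]
  · rw [Fintype.sum_prod_type]
    simp only [← Finset.mul_sum, ← Finset.sum_mul, hP.2.2, hQ.2.2]
    exact (nc_part_isStarProjection A h P hP).isIdempotentElem
  · rintro ⟨i, j⟩
    refine ⟨i, ?_⟩
    show P i * (P i * Q j) = P i * Q j
    rw [← mul_assoc, (hP.1 i).2.isIdempotentElem.eq]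
  · rintro ⟨i, j⟩
    refine ⟨j, ?_⟩
    show Q j * (P i * Q j) = P i * Q j
    rw [← mul_assoc, ← (hc i j).eq, mul_assoc, (hQ.1 j).2.isIdempotentElem.eq]

/-- re-indexing by `Fin`. -/
theorem nc_part_reindex (A : StarSubalgebra ℂ (H →L[ℂ] H)) (h : H →L[ℂ] H) {κ : Type*} [Fintype κ]
    (P : κ → (H →L[ℂ] H)) (hP : nc_IsPart A h P) :
    ∃ (n : ℕ) (σ : Fin n ≃ κ), nc_IsPart A h (P ∘ σ) ∧ nc_Refines (P ∘ σ) P ∧
      ∀ z, nc_pinch (P ∘ σ) z = nc_pinch P z := by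
  classical
  refine ⟨Fintype.card κ, (Fintype.equivFin κ).symm, ⟨fun i => hP.1 _, fun i j hij => ?_, ?_⟩,
    fun j => ⟨(Fintype.equivFin κ).symm j, ?_⟩, fun z => ?_⟩
  · exact hP.2.1 _ _ (fun h => hij ((Fintype.equivFin κ).symm.injective h))
  · rw [← hP.2.2]
    exact (Fintype.equivFin κ).symm.sum_comp P
  · exact (hP.1 _).2.isIdempotentElem
  · exact (Fintype.equivFin κ).symm.sum_comp (fun i => P i * z * P i)

/-- cutting a partition of `1` by a projection `h ∈ A`. -/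
theorem nc_part_cut (M : VonNeumannAlgebra H) (A : StarSubalgebra ℂ (H →L[ℂ] H)) (hA : nc_Masa M A)
    (h : H →L[ℂ] H) (hh : h ∈ A) (hp : IsStarProjection h) {κ : Type*} [Fintype κ]
    (P : κ → (H →L[ℂ] H)) (hP : nc_IsPart A 1 P) : nc_IsPart A h (fun i => P i * h) := by
  have hc : ∀ i, Commute (P i) h := fun i => nc_masa_commute M A hA (hP.1 i).1 hh
  refine ⟨fun i => ⟨mul_mem (hP.1 i).1 hh, (hP.1 i).2.mul hp (hc i)⟩, fun i j hij => ?_, ?_⟩
  · show P i * h * (P j * h) = 0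
    rw [mul_assoc, ← mul_assoc h, ← (hc j).eq, mul_assoc, ← mul_assoc (P i), hP.2.1 i j hij, zero_mul]
  · rw [← Finset.sum_mul, hP.2.2, one_mul]

/-- the colour classes of a colouring of a partition form a partition, coarser than the given one. -/
theorem nc_class_isPart (A : StarSubalgebra ℂ (H →L[ℂ] H)) (h : H →L[ℂ] H) {κ : Type*} [Fintype κ]
    (P : κ → (H →L[ℂ] H)) (hP : nc_IsPart A h P) {m : ℕ} (c : κ → Fin m) :
    nc_IsPart A h (nc_class P c) ∧ nc_Refines P (nc_class P c) := by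
  refine ⟨⟨fun k => ⟨?_, ?_⟩, fun k k' hkk => ?_, ?_⟩, fun j => ⟨c j, ?_⟩⟩
  · refine sum_mem fun i _ => ?_
    split_ifs
    · exact (hP.1 i).1
    · exact zero_mem _
  · refine nc_sum_isStarProjection _ (fun i => ?_) (fun i j hij => ?_)
    · split_ifs
      · exact (hP.1 i).2
      · exact IsStarProjection.zero _
    · split_ifs <;> simp [hP.2.1 i j hij]
  · unfold nc_class
    rw [Finset.sum_mul_sum]
    refine Finset.sum_eq_zero fun i _ => Finset.sum_eq_zero fun j _ => ?_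
    split_ifs with h1 h2
    · have hij : i ≠ j := fun hij => hkk (by rw [← h1, ← h2, hij])
      exact hP.2.1 i j hij
    · simp
    · simp
    · simp
  · unfold nc_class
    rw [Finset.sum_comm, ← hP.2.2]
    refine Finset.sum_congr rfl fun i _ => ?_
    simp
  · unfold nc_class
    rw [Finset.sum_mul, Finset.sum_eq_single_of_mem j (Finset.mem_univ j) (fun i _ hi => by
      split_ifs
      · exact hP.2.1 i j hi
      · simp)]
    simp only [if_true]
    exact (hP.1 j).2.isIdempotentElem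

/-- pinching by colour classes in terms of the pieces. -/
theorem nc_pinch_class {κ : Type*} [Fintype κ] (P : κ → (H →L[ℂ] H)) {m : ℕ} (c : κ → Fin m)
    (z : H →L[ℂ] H) :
    nc_pinch (nc_class P c) z = ∑ i, ∑ j, if c i = c j then P i * z * P j else 0 := by
  unfold nc_pinch nc_class
  have h1 : ∀ k : Fin m, (∑ i, if c i = k then P i else 0) * z * (∑ j, if c j = k then P j else 0)
      = ∑ i, ∑ j, if c i = k then (if c j = k then P i * z * P j else 0) else 0 := by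
    intro k
    rw [Finset.sum_mul, Finset.sum_mul_sum]
    refine Finset.sum_congr rfl fun i _ => Finset.sum_congr rfl fun j _ => ?_
    split_ifs <;> simp
  simp only [h1]
  rw [Finset.sum_comm]
  refine Finset.sum_congr rfl fun i _ => ?_
  rw [Finset.sum_comm]
  refine Finset.sum_congr rfl fun j _ => ?_
  rw [Finset.sum_ite_eq]
  simp [eq_comm]

end Claimed.Agent.R302
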