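/-
R302 / NC / L7a, L7b, L8a : three averaging lemmas in a Hilbert space (no operator algebra).
`nc_select`: induction on the index set (method of conditional expectations):
   ∑ j, t j * ‖u + y j - ybar‖^2 = ‖u‖^2 + ∑ j, t j * ‖y j - ybar‖^2 ≤ ‖u‖^2 + ∑ j, t j * ‖y j‖^2.
`nc_colour`: average over all colourings; the centred indicators of {c e = c e'} of two different unordered pairs are uncorrelated.
`nc_rootavg`: average over all colourings of ω^(l (c e - c e')) is 0 for e ≠ e', l not divisible by m.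
-/
import Mathlib

set_option autoImplicit false

open scoped InnerProductSpace

namespace Claimed.Agent.R302

/-! ### Auxiliary lemmas -/

/-- A weighted mean is at least the minimum. -/
theorem nc_exists_le_of_wmean {J : Type*} [Fintype J] (t a : J → ℝ) (b : ℝ) (ht : ∀ j, 0 ≤ t j)
    (ht1 : ∑ j, t j = 1) (h : ∑ j, t j * a j ≤ b) : ∃ j, a j ≤ b := by
  by_contra hcon
  simp only [not_exists, not_le] at hcon
  have h0 : ∑ j, t j * (a j - b) ≤ 0 := by
    have : ∑ j, t j * (a j - b) = ∑ j, t j * a j - b := by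
      simp only [mul_sub, Finset.sum_sub_distrib, ← Finset.sum_mul, ht1, one_mul]
    linarith
  have hnn : ∀ j ∈ Finset.univ, 0 ≤ t j * (a j - b) := fun j _ =>
    mul_nonneg (ht j) (sub_nonneg.2 (hcon j).le)
  have hz : ∑ j, t j * (a j - b) = 0 := le_antisymm h0 (Finset.sum_nonneg hnn)
  have hall := (Finset.sum_eq_zero_iff_of_nonneg hnn).1 hz
  have ht0 : ∀ j, t j = 0 := fun j => by
    have := hall j (Finset.mem_univ j)
    rcases mul_eq_zero.1 this with h | h
    · exact h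
    · exact absurd h (sub_pos.2 (hcon j)).ne'
  simp [ht0] at ht1

/-- One step of the method of conditional expectations. -/
theorem nc_select_step {V : Type*} [NormedAddCommGroup V] [InnerProductSpace ℂ V] {J : Type*}
    [Fintype J] (u : V) (z : J → V) (t : J → ℝ) (ht1 : ∑ j, t j = 1) :
    ∑ j, t j * ‖u + (z j - ∑ i, (t i : ℂ) • z i)‖ ^ 2 ≤ ‖u‖ ^ 2 + ∑ j, t j * ‖z j‖ ^ 2 := by
  set zb : V := ∑ i, (t i : ℂ) • z i with hzb
  have hre : ∀ x : V, ∑ j, t j * RCLike.re ⟪x, z j⟫_ℂ = RCLike.re ⟪x, zb⟫_ℂ := by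
    intro x
    rw [hzb, inner_sum, map_sum]
    refine Finset.sum_congr rfl fun j _ => ?_
    rw [inner_smul_right]
    simp
  have hexp : ∀ j, ‖u + (z j - zb)‖ ^ 2 = ‖u‖ ^ 2 + 2 * RCLike.re ⟪u, z j⟫_ℂ
      - 2 * RCLike.re ⟪u, zb⟫_ℂ + (‖z j‖ ^ 2 - 2 * RCLike.re ⟪zb, z j⟫_ℂ + ‖zb‖ ^ 2) := by
    intro j
    rw [norm_add_sq (𝕜 := ℂ), norm_sub_sq (𝕜 := ℂ), inner_sub_right, map_sub]
    have : RCLike.re ⟪z j, zb⟫_ℂ = RCLike.re ⟪zb, z j⟫_ℂ := inner_re_symm (𝕜 := ℂ) _ _
    rw [this]; ring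
  have hsum : ∑ j, t j * ‖u + (z j - zb)‖ ^ 2
      = ‖u‖ ^ 2 + ∑ j, t j * ‖z j‖ ^ 2 - ‖zb‖ ^ 2 := by
    have h1 : ∀ j, t j * ‖u + (z j - zb)‖ ^ 2 = t j * (‖u‖ ^ 2 - 2 * RCLike.re ⟪u, zb⟫_ℂ + ‖zb‖ ^ 2)
        + 2 * (t j * RCLike.re ⟪u, z j⟫_ℂ) + t j * ‖z j‖ ^ 2
        - 2 * (t j * RCLike.re ⟪zb, z j⟫_ℂ) := by
      intro j; rw [hexp j]; ring
    simp only [h1, Finset.sum_add_distrib, Finset.sum_sub_distrib, ← Finset.sum_mul,
      ← Finset.mul_sum, ht1, hre, one_mul]
    have : RCLike.re ⟪zb, zb⟫_ℂ = ‖zb‖ ^ 2 := by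
      rw [inner_self_eq_norm_sq_to_K]; norm_cast
    rw [this]; ring
  rw [hsum]
  have := sq_nonneg ‖zb‖
  linarith

theorem nc_select {V : Type*} [NormedAddCommGroup V] [InnerProductSpace ℂ V] {I J : Type*} [Fintype I]
    [Fintype J] (y : I → J → V) (t : J → ℝ) (ht : ∀ j, 0 ≤ t j) (ht1 : ∑ j, t j = 1) :
    ∃ σ : I → J, ‖∑ e, y e (σ e) - ∑ e, ∑ j, (t j : ℂ) • y e j‖ ^ 2 ≤ ∑ e, ∑ j, t j * ‖y e j‖ ^ 2 := by
  classical
  have hJ : Nonempty J := by
    by_contra h
    rw [not_nonempty_iff] at h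
    simp at ht1
  have key : ∀ s : Finset I, ∃ σ : I → J,
      ‖∑ e ∈ s, (y e (σ e) - ∑ j, (t j : ℂ) • y e j)‖ ^ 2 ≤ ∑ e ∈ s, ∑ j, t j * ‖y e j‖ ^ 2 := by
    intro s
    induction s using Finset.induction_on with
    | empty => exact ⟨fun _ => Classical.arbitrary J, by simp⟩
    | insert a s ha ih =>
      obtain ⟨σ, hσ⟩ := ih
      set u : V := ∑ e ∈ s, (y e (σ e) - ∑ j, (t j : ℂ) • y e j) with hu
      obtain ⟨j, hj⟩ := nc_exists_le_of_wmean t
        (fun j => ‖u + (y a j - ∑ i, (t i : ℂ) • y a i)‖ ^ 2) _ ht ht1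
        (nc_select_step u (y a) t ht1)
      refine ⟨Function.update σ a j, ?_⟩
      rw [Finset.sum_insert ha, Finset.sum_insert ha]
      have h1 : ∑ e ∈ s, (y e (Function.update σ a j e) - ∑ j, (t j : ℂ) • y e j) = u := by
        rw [hu]
        refine Finset.sum_congr rfl fun e he => ?_
        have : e ≠ a := fun h => ha (h ▸ he)
        rw [Function.update_of_ne this]
      rw [h1, Function.update_self, add_comm _ u]
      linarith
  obtain ⟨σ, hσ⟩ := key Finset.univ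
  refine ⟨σ, ?_⟩
  rw [← Finset.sum_sub_distrib]
  exact hσ

/-! ### Averages over all colourings -/

/-- A factor with mean zero depending only on the coordinate `e`, times a factor that does not
depend on the coordinate `e`, has mean zero. -/
theorem nc_sum_indep {𝕜 R κ : Type*} [CommRing 𝕜] [Fintype R] [DecidableEq R] [Fintype κ]
    (e : R) (φ : κ → 𝕜) (hφ : ∑ a, φ a = 0) (G : (R → κ) → 𝕜)
    (hG : ∀ c a, G (Function.update c e a) = G c) : ∑ c : R → κ, φ (c e) * G c = 0 := by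
  rw [← (Equiv.funSplitAt e κ).symm.sum_comp, Fintype.sum_prod_type, Finset.sum_comm]
  refine Finset.sum_eq_zero fun c' _ => ?_
  have hval : ∀ a : κ, ((Equiv.funSplitAt e κ).symm (a, c')) e = a := by
    intro a; simp [Equiv.funSplitAt, Equiv.piSplitAt]
  have hupd : ∀ a b : κ, (Equiv.funSplitAt e κ).symm (a, c')
      = Function.update ((Equiv.funSplitAt e κ).symm (b, c')) e a := by
    intro a b
    funext j
    by_cases hj : j = e
    · subst hj; simp [Equiv.funSplitAt, Equiv.piSplitAt]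
    · simp [Equiv.funSplitAt, Equiv.piSplitAt, hj]
  rcases isEmpty_or_nonempty κ with hκ | ⟨⟨b⟩⟩
  · simp
  · have : ∀ a : κ, φ (((Equiv.funSplitAt e κ).symm (a, c')) e) * G ((Equiv.funSplitAt e κ).symm (a, c'))
        = φ a * G ((Equiv.funSplitAt e κ).symm (b, c')) := by
      intro a
      rw [hval, hupd a b, hG]
    simp only [this, ← Finset.sum_mul, hφ, zero_mul]

/-- Second moment of a random linear combination. -/
theorem nc_sum_norm_sq {V : Type*} [NormedAddCommGroup V] [InnerProductSpace ℂ V] {C P : Type*}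
    [Fintype C] [Fintype P] (a : C → P → ℂ) (w : P → V) :
    ∑ c, ‖∑ p, a c p • w p‖ ^ 2
      = RCLike.re (∑ p, ∑ p', (∑ c, (starRingEnd ℂ) (a c p) * a c p') * ⟪w p, w p'⟫_ℂ) := by
  have h : ∀ c, (‖∑ p, a c p • w p‖ ^ 2 : ℝ)
      = RCLike.re (∑ p, ∑ p', (starRingEnd ℂ) (a c p) * a c p' * ⟪w p, w p'⟫_ℂ) := by
    intro c
    rw [norm_sq_eq_re_inner (𝕜 := ℂ), sum_inner]
    congr 1
    refine Finset.sum_congr rfl fun p _ => ?_
    rw [inner_sum]
    refine Finset.sum_congr rfl fun p' _ => ?_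
    rw [inner_smul_left, inner_smul_right]; ring
  simp only [h]
  rw [← map_sum]
  congr 1
  rw [Finset.sum_comm]
  refine Finset.sum_congr rfl fun p _ => ?_
  rw [Finset.sum_comm]
  refine Finset.sum_congr rfl fun p' _ => ?_
  rw [Finset.sum_mul]

/-- Real coefficients. -/
theorem nc_sum_norm_sq_real {V : Type*} [NormedAddCommGroup V] [InnerProductSpace ℂ V]
    {C P : Type*} [Fintype C] [Fintype P] (a : C → P → ℝ) (w : P → V) :
    ∑ c, ‖∑ p, (a c p : ℂ) • w p‖ ^ 2
      = ∑ p, ∑ p', (∑ c, a c p * a c p') * RCLike.re ⟪w p, w p'⟫_ℂ := by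
  rw [nc_sum_norm_sq (fun c p => (a c p : ℂ)) w, map_sum]
  refine Finset.sum_congr rfl fun p _ => ?_
  rw [map_sum]
  refine Finset.sum_congr rfl fun p' _ => ?_
  have : (∑ c, (starRingEnd ℂ) (a c p : ℂ) * (a c p' : ℂ)) = ((∑ c, a c p * a c p' : ℝ) : ℂ) := by
    push_cast
    refine Finset.sum_congr rfl fun c _ => ?_
    rw [Complex.conj_ofReal]
  rw [this]
  simp

/-- Some value is at most the mean. -/
theorem nc_exists_le_of_sum_le {C : Type*} [Fintype C] [Nonempty C] (F : C → ℝ) (b : ℝ)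
    (h : ∑ c, F c ≤ (Fintype.card C : ℝ) * b) : ∃ c, F c ≤ b := by
  have : ∑ c, F c ≤ ∑ _c : C, b := by simpa using h
  obtain ⟨c, _, hc⟩ := Finset.exists_le_of_sum_le Finset.univ_nonempty this
  exact ⟨c, hc⟩

/-! ### Colourings: centred indicators of pairs -/

/-- Centred indicator of the colour `k`. -/
noncomputable def ncXi (r : ℕ) (k x : Fin r) : ℝ := (if x = k then 1 else 0) - 1 / (r : ℝ)

/-- Centred indicator of `c e = c e'` (zero on the diagonal). -/
noncomputable def ncCoef {R : Type*} [DecidableEq R] (r : ℕ) (c : R → Fin r) (p : R × R) : ℝ :=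
  if p.1 = p.2 then 0 else ((if c p.1 = c p.2 then 1 else 0) - 1 / (r : ℝ))

theorem ncXi_sum (r : ℕ) (hr : 0 < r) (k : Fin r) : ∑ x, ncXi r k x = 0 := by
  have hr' : (r : ℝ) ≠ 0 := by positivity
  unfold ncXi
  rw [Finset.sum_sub_distrib]
  simp [hr']

theorem ncXi_chaos (r : ℕ) (hr : 0 < r) (x y : Fin r) :
    (if x = y then (1 : ℝ) else 0) - 1 / (r : ℝ) = ∑ k, ncXi r k x * ncXi r k y := by
  have hr' : (r : ℝ) ≠ 0 := by positivity
  have h : ∀ k, ncXi r k x * ncXi r k y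
      = (if x = k then (if y = k then (1 : ℝ) else 0) else 0) - (1 / r) * (if x = k then 1 else 0)
        - (1 / r) * (if y = k then 1 else 0) + 1 / (r : ℝ) ^ 2 := by
    intro k; unfold ncXi; split_ifs <;> ring
  simp only [h, Finset.sum_add_distrib, Finset.sum_sub_distrib, ← Finset.mul_sum,
    Finset.sum_ite_eq, Finset.mem_univ, if_true, Finset.sum_const, Finset.card_univ,
    Fintype.card_fin, nsmul_eq_mul]
  by_cases hxy : x = y
  · subst hxy
    simp only [if_true]
    field_simp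
    ring
  · have hyx : ¬ y = x := fun h => hxy h.symm
    simp only [hxy, hyx, if_false]
    field_simp
    ring

theorem ncCoef_swap {R : Type*} [DecidableEq R] (r : ℕ) (c : R → Fin r) (p : R × R) :
    ncCoef r c p.swap = ncCoef r c p := by
  unfold ncCoef
  simp only [Prod.fst_swap, Prod.snd_swap, eq_comm]

theorem ncCoef_sum_mul_zero {R : Type*} [Fintype R] [DecidableEq R] (r : ℕ) (hr : 0 < r)
    (e e' : R) (h : e ≠ e') (A : (R → Fin r) → ℝ)
    (hA : ∀ c a, A (Function.update c e a) = A c) :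
    ∑ c : R → Fin r, ncCoef r c (e, e') * A c = 0 := by
  have h1 : ∀ c : R → Fin r, ncCoef r c (e, e') * A c
      = ∑ k, ncXi r k (c e) * (ncXi r k (c e') * A c) := by
    intro c
    unfold ncCoef
    simp only [h, if_false]
    rw [ncXi_chaos r hr, Finset.sum_mul]
    exact Finset.sum_congr rfl fun k _ => by ring
  simp only [h1]
  rw [Finset.sum_comm]
  refine Finset.sum_eq_zero fun k _ => ?_
  refine nc_sum_indep e (ncXi r k) (ncXi_sum r hr k) (fun c => ncXi r k (c e') * A c) ?_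
  intro c a
  simp only [hA, Function.update_of_ne (Ne.symm h)]

theorem ncCoef_cov_zero {R : Type*} [Fintype R] [DecidableEq R] (r : ℕ) (hr : 0 < r)
    (e e' f f' : R) (h : e ≠ e') (h1 : e ≠ f) (h2 : e ≠ f') :
    ∑ c : R → Fin r, ncCoef r c (e, e') * ncCoef r c (f, f') = 0 := by
  refine ncCoef_sum_mul_zero r hr e e' h (fun c => ncCoef r c (f, f')) ?_
  intro c a
  unfold ncCoef
  simp only [Function.update_of_ne (Ne.symm h1), Function.update_of_ne (Ne.symm h2)]

theorem ncCoef_var_le {R : Type*} [Fintype R] [DecidableEq R] (r : ℕ) (hr : 0 < r)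
    (e e' : R) (h : e ≠ e') :
    ∑ c : R → Fin r, ncCoef r c (e, e') * ncCoef r c (e, e')
      ≤ (Fintype.card (R → Fin r) : ℝ) * (1 / r) := by
  have hr' : (0 : ℝ) < r := by positivity
  have h1 : ∀ c : R → Fin r, ncCoef r c (e, e') * ncCoef r c (e, e')
      = (1 - 2 / r) * (ncCoef r c (e, e') * 1) + (1 / r) * (1 - 1 / r) := by
    intro c
    unfold ncCoef
    simp only [h, if_false]
    split_ifs
    · field_simp; ring
    · field_simp; ring
  simp only [h1, Finset.sum_add_distrib, ← Finset.mul_sum]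
  rw [ncCoef_sum_mul_zero r hr e e' h (fun _ => 1) (fun _ _ => rfl)]
  simp only [mul_zero, zero_add, Finset.sum_const, Finset.card_univ, nsmul_eq_mul]
  have h2 : (1 / (r : ℝ)) * (1 - 1 / r) ≤ 1 / r := by
    have : 0 ≤ 1 / (r : ℝ) := by positivity
    nlinarith
  have h3 : (0 : ℝ) ≤ (Fintype.card (R → Fin r) : ℝ) := by positivity
  calc 1 / (r : ℝ) * ((Fintype.card (R → Fin r) : ℝ) * (1 - 1 / r))
      = (Fintype.card (R → Fin r) : ℝ) * (1 / (r : ℝ) * (1 - 1 / r)) := by ring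
    _ ≤ (Fintype.card (R → Fin r) : ℝ) * (1 / r) := mul_le_mul_of_nonneg_left h2 h3

theorem nc_colour {V : Type*} [NormedAddCommGroup V] [InnerProductSpace ℂ V] {R : Type*} [Fintype R]
    [DecidableEq R] (w : R → R → V) (r : ℕ) (hr : 0 < r) :
    ∃ c : R → Fin r,
      ‖∑ e, ∑ e', (if e = e' then (0 : ℂ) else ((if c e = c e' then (1 : ℂ) else 0) - 1 / (r : ℂ))) • w e e'‖ ^ 2
        ≤ (2 / (r : ℝ)) * ∑ e, ∑ e', ‖w e e'‖ ^ 2 := by
  have : Nonempty (Fin r) := ⟨⟨0, hr⟩⟩
  have hr' : (0 : ℝ) < r := by positivity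
  set N : ℝ := (Fintype.card (R → Fin r) : ℝ) with hN
  have hN0 : 0 ≤ N := by positivity
  set W : R × R → V := fun p => w p.1 p.2 with hW
  -- rewrite the statement with a single index
  have hrew : ∀ c : R → Fin r,
      (∑ e, ∑ e', (if e = e' then (0 : ℂ) else ((if c e = c e' then (1 : ℂ) else 0) - 1 / (r : ℂ))) • w e e')
        = ∑ p, (ncCoef r c p : ℂ) • W p := by
    intro c
    rw [Fintype.sum_prod_type]
    refine Finset.sum_congr rfl fun e _ => Finset.sum_congr rfl fun e' _ => ?_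
    congr 1
    unfold ncCoef
    simp only
    split_ifs <;> push_cast <;> ring
  have hrew2 : (∑ e, ∑ e', ‖w e e'‖ ^ 2) = ∑ p, ‖W p‖ ^ 2 := by
    rw [Fintype.sum_prod_type]
  simp only [hrew, hrew2]
  apply nc_exists_le_of_sum_le
  rw [nc_sum_norm_sq_real (fun c p => ncCoef r c p) W, ← hN]
  -- row bound
  have hrow : ∀ p : R × R, ∑ p', (∑ c : R → Fin r, ncCoef r c p * ncCoef r c p') * RCLike.re ⟪W p, W p'⟫_ℂ
      ≤ N * (1 / r) * (3 / 2 * ‖W p‖ ^ 2 + 1 / 2 * ‖W p.swap‖ ^ 2) := by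
    rintro ⟨e, e'⟩
    by_cases hee : e = e'
    · have h0 : ∀ c : R → Fin r, ncCoef r c (e, e') = 0 := fun c => by simp [ncCoef, hee]
      simp only [h0, zero_mul, Finset.sum_const_zero]
      positivity
    · have hne : ((e, e') : R × R) ≠ (e, e').swap := by
        intro h
        simp only [Prod.swap_prod_mk, Prod.mk.injEq] at h
        exact hee h.1
      rw [Finset.sum_eq_add ((e, e') : R × R) (e, e').swap hne]
      · have hκ := ncCoef_var_le r hr e e' hee
        rw [← hN] at hκ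
        have hκ0 : 0 ≤ ∑ c : R → Fin r, ncCoef r c (e, e') * ncCoef r c (e, e') :=
          Finset.sum_nonneg fun c _ => mul_self_nonneg _
        simp only [ncCoef_swap]
        set κ := ∑ c : R → Fin r, ncCoef r c (e, e') * ncCoef r c (e, e') with hκdef
        have h1 : RCLike.re ⟪W (e, e'), W (e, e')⟫_ℂ = ‖W (e, e')‖ ^ 2 :=
          (norm_sq_eq_re_inner (𝕜 := ℂ) _).symm
        have h2 : RCLike.re ⟪W (e, e'), W (e, e').swap⟫_ℂ
            ≤ (‖W (e, e')‖ ^ 2 + ‖W (e, e').swap‖ ^ 2) / 2 := by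
          have := re_inner_le_norm (𝕜 := ℂ) (W (e, e')) (W (e, e').swap)
          nlinarith [sq_nonneg (‖W (e, e')‖ - ‖W (e, e').swap‖)]
        rw [h1]
        calc κ * ‖W (e, e')‖ ^ 2 + κ * RCLike.re ⟪W (e, e'), W (e, e').swap⟫_ℂ
            ≤ κ * ‖W (e, e')‖ ^ 2 + κ * ((‖W (e, e')‖ ^ 2 + ‖W (e, e').swap‖ ^ 2) / 2) := by
              gcongr
          _ = κ * (3 / 2 * ‖W (e, e')‖ ^ 2 + 1 / 2 * ‖W (e, e').swap‖ ^ 2) := by ring
          _ ≤ N * (1 / r) * (3 / 2 * ‖W (e, e')‖ ^ 2 + 1 / 2 * ‖W (e, e').swap‖ ^ 2) := by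
              gcongr
      · rintro ⟨f, f'⟩ _ ⟨hp1, hp2⟩
        have hK : ∑ c : R → Fin r, ncCoef r c (e, e') * ncCoef r c (f, f') = 0 := by
          by_cases hff : f = f'
          · have h0 : ∀ c : R → Fin r, ncCoef r c (f, f') = 0 := fun c => by simp [ncCoef, hff]
            simp [h0]
          · by_cases ha : e ≠ f ∧ e ≠ f'
            · exact ncCoef_cov_zero r hr e e' f f' hee ha.1 ha.2
            · by_cases hb : e' ≠ f ∧ e' ≠ f'
              · have := ncCoef_cov_zero r hr e' e f f' (Ne.symm hee) hb.1 hb.2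
                have hsw : ∀ c : R → Fin r, ncCoef r c (e', e) = ncCoef r c (e, e') :=
                  fun c => ncCoef_swap r c (e, e')
                simpa only [hsw] using this
              · exfalso
                simp only [Prod.swap_prod_mk, ne_eq, Prod.mk.injEq, not_and] at hp1 hp2
                simp only [ne_eq, not_and, not_not] at ha hb
                by_cases h1 : e = f
                · subst h1
                  by_cases h2 : e' = e
                  · exact hee h2.symm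
                  · exact hp1 rfl (hb h2).symm
                · have h3 := ha h1
                  subst h3
                  by_cases h2 : e' = f
                  · exact hp2 h2.symm rfl
                  · exact hee (hb h2).symm
        rw [hK, zero_mul]
      · intro h; exact absurd (Finset.mem_univ _) h
      · intro h; exact absurd (Finset.mem_univ _) h
  calc ∑ p, ∑ p', (∑ c : R → Fin r, ncCoef r c p * ncCoef r c p') * RCLike.re ⟪W p, W p'⟫_ℂ
      ≤ ∑ p, N * (1 / r) * (3 / 2 * ‖W p‖ ^ 2 + 1 / 2 * ‖W p.swap‖ ^ 2) :=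
        Finset.sum_le_sum fun p _ => hrow p
    _ = N * (2 / r * ∑ p, ‖W p‖ ^ 2) := by
        have hsw : ∑ p : R × R, ‖W p.swap‖ ^ 2 = ∑ p, ‖W p‖ ^ 2 :=
          (Equiv.prodComm R R).sum_comp (fun p => ‖W p‖ ^ 2)
        rw [← Finset.mul_sum, Finset.sum_add_distrib, ← Finset.mul_sum, ← Finset.mul_sum, hsw]
        ring

/-! ### Roots of unity -/

/-- The character `a ↦ exp (2 π i l a / m)` as a power of the standard primitive root. -/
theorem nc_char_eq (m l a : ℕ) :
    Complex.exp (2 * Real.pi * Complex.I * ((l : ℤ) : ℂ) * (a : ℂ) / m)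
      = (Complex.exp (2 * Real.pi * Complex.I / m) ^ l) ^ a := by
  rw [← pow_mul, ← Complex.exp_nat_mul]
  congr 1
  push_cast
  ring

theorem nc_char_sum (m l : ℕ) (hm : 0 < m) (hl : l ∈ Finset.Ico 1 m) :
    ∑ a : Fin m, Complex.exp (2 * Real.pi * Complex.I * ((l : ℤ) : ℂ) * ((a : ℕ) : ℂ) / m) = 0 := by
  have hprim := Complex.isPrimitiveRoot_exp m hm.ne'
  rw [Finset.mem_Ico] at hl
  set ζ := Complex.exp (2 * Real.pi * Complex.I / m) ^ l with hζ
  have h1 : ζ ≠ 1 := by
    rw [hζ, Ne, hprim.pow_eq_one_iff_dvd]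
    exact Nat.not_dvd_of_pos_of_lt (by omega) hl.2
  have h2 : ζ ^ m = 1 := by
    rw [hζ, pow_right_comm, hprim.pow_eq_one, one_pow]
  simp only [nc_char_eq]
  rw [Fin.sum_univ_eq_sum_range (fun a => ζ ^ a) m, geom_sum_eq h1, h2, sub_self, zero_div]

theorem nc_char_norm (m l a : ℕ) (hm : 0 < m) :
    (starRingEnd ℂ) (Complex.exp (2 * Real.pi * Complex.I * ((l : ℤ) : ℂ) * (a : ℂ) / m))
      * Complex.exp (2 * Real.pi * Complex.I * ((l : ℤ) : ℂ) * (a : ℂ) / m) = 1 := by
  have hprim := Complex.isPrimitiveRoot_exp m hm.ne'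
  have h2 : (Complex.exp (2 * Real.pi * Complex.I * ((l : ℤ) : ℂ) * (a : ℂ) / m)) ^ m = 1 := by
    rw [nc_char_eq, pow_right_comm, pow_right_comm _ l m, hprim.pow_eq_one, one_pow, one_pow]
  have h3 := Complex.norm_eq_one_of_pow_eq_one h2 hm.ne'
  rw [Complex.conj_mul', h3]
  simp

/-- there is a colouring for which all the nontrivial rotations of the family `v` are small in the mean. -/
theorem nc_rootavg {V : Type*} [NormedAddCommGroup V] [InnerProductSpace ℂ V] {R : Type*} [Fintype R]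
    (v : R → V) (m : ℕ) (hm : 0 < m) :
    ∃ c : R → Fin m, ∑ l ∈ Finset.Ico 1 m,
      ‖∑ e, Complex.exp (2 * Real.pi * Complex.I * ((l : ℤ) : ℂ) * ((c e : ℕ) : ℂ) / m) • v e‖ ^ 2
        ≤ ((m : ℝ) - 1) * ∑ e, ‖v e‖ ^ 2 := by
  classical
  have : Nonempty (Fin m) := ⟨⟨0, hm⟩⟩
  apply nc_exists_le_of_sum_le
  rw [Finset.sum_comm]
  have key : ∀ l ∈ Finset.Ico 1 m, ∑ c : R → Fin m,
      ‖∑ e, Complex.exp (2 * Real.pi * Complex.I * ((l : ℤ) : ℂ) * ((c e : ℕ) : ℂ) / m) • v e‖ ^ 2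
        = (Fintype.card (R → Fin m) : ℝ) * ∑ e, ‖v e‖ ^ 2 := by
    intro l hl
    rw [nc_sum_norm_sq (fun (c : R → Fin m) e =>
      Complex.exp (2 * Real.pi * Complex.I * ((l : ℤ) : ℂ) * ((c e : ℕ) : ℂ) / m)) v]
    have hK : ∀ e e' : R, (∑ c : R → Fin m,
        (starRingEnd ℂ) (Complex.exp (2 * Real.pi * Complex.I * ((l : ℤ) : ℂ) * ((c e : ℕ) : ℂ) / m))
          * Complex.exp (2 * Real.pi * Complex.I * ((l : ℤ) : ℂ) * ((c e' : ℕ) : ℂ) / m))
        = if e = e' then (Fintype.card (R → Fin m) : ℂ) else 0 := by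
      intro e e'
      split_ifs with h
      · subst h
        simp only [nc_char_norm m l _ hm]
        simp
      · refine nc_sum_indep e (fun a : Fin m => (starRingEnd ℂ)
          (Complex.exp (2 * Real.pi * Complex.I * ((l : ℤ) : ℂ) * ((a : ℕ) : ℂ) / m))) ?_
          (fun c => Complex.exp (2 * Real.pi * Complex.I * ((l : ℤ) : ℂ) * ((c e' : ℕ) : ℂ) / m)) ?_
        · rw [← map_sum, nc_char_sum m l hm hl, map_zero]
        · intro c a
          rw [Function.update_of_ne (Ne.symm h)]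
    simp only [hK, ite_mul, zero_mul, Finset.sum_ite_eq, Finset.mem_univ, if_true]
    rw [← Finset.mul_sum]
    have hs : (∑ i, ⟪v i, v i⟫_ℂ) = ((∑ e, ‖v e‖ ^ 2 : ℝ) : ℂ) := by
      push_cast
      exact Finset.sum_congr rfl fun i _ => inner_self_eq_norm_sq_to_K (𝕜 := ℂ) (v i)
    rw [hs, ← Complex.ofReal_natCast, ← Complex.ofReal_mul]
    exact Complex.ofReal_re _
  rw [Finset.sum_congr rfl key, Finset.sum_const, Nat.card_Ico, nsmul_eq_mul, Nat.cast_sub hm,
    Nat.cast_one]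
  apply le_of_eq; ring

end Claimed.Agent.R302
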