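/-
R302 / NC : the operator toolkit CONSUMED by the NC package, as thin wrappers of the VN toolkit (R302/VN, helper268).
NC leaf owners may of course use the `vn_*` lemmas directly.
-/
import Claimed.Agent.R302.NC.Defs
import Claimed.Agent.R302.VN.Masa

set_option autoImplicit false

open scoped InnerProductSpace ComplexOrder

-- with `ComplexOrder` in scope this instance hijacks `Inner ℂ H` (then `⟪x, y⟫_ℂ` is not the usual inner product syntactically)
attribute [-instance] WithCStarModule.instCStarModuleComplex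

namespace Claimed.Agent.R302

variable {H : Type*} [NormedAddCommGroup H] [InnerProductSpace ℂ H] [CompleteSpace H]

/-- TK1. WOT limit of a bounded family along an ultrafilter. -/
theorem nc_tk_ulim {I : Type*} (U : Ultrafilter I) (T : I → (H →L[ℂ] H)) (C : ℝ)
    (hT : ∀ i, ‖T i‖ ≤ C) :
    ∃ b : H →L[ℂ] H, ‖b‖ ≤ C ∧
      ∀ v w : H, Filter.Tendsto (fun i => ⟪w, T i v⟫_ℂ) U (nhds ⟪w, b v⟫_ℂ) := by
  obtain ⟨b, hb⟩ := vn_exists_wotTendsto U T (C := C) (Filter.Eventually.of_forall hT)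
  exact ⟨b, hb.norm_le (Filter.Eventually.of_forall hT), fun v w => hb v w⟩

/-- TK1'. a von Neumann algebra is closed under WOT limits along any nontrivial filter. -/
theorem nc_tk_mem_of_wot (M : VonNeumannAlgebra H) {I : Type*} (U : Filter I) [U.NeBot]
    (T : I → (H →L[ℂ] H)) (b : H →L[ℂ] H) (hT : ∀ i, T i ∈ M)
    (hb : ∀ v w : H, Filter.Tendsto (fun i => ⟪w, T i v⟫_ℂ) U (nhds ⟪w, b v⟫_ℂ)) : b ∈ M := by
  have hb' : WotTendsto U T b := fun v w => hb v w
  exact hb'.mem M (Filter.Eventually.of_forall hT)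

/-- TK2. spectral cut `g = 1_(-∞,t](z)`. -/
theorem nc_tk_spec (z : H →L[ℂ] H) (hz : IsSelfAdjoint z) (t : ℝ) :
    ∃ g : H →L[ℂ] H, IsStarProjection g ∧ (∀ c : H →L[ℂ] H, Commute c z → Commute c g) ∧
      z * g ≤ t • g ∧ t • (1 - g) ≤ z * (1 - g) := by
  refine ⟨1 - vn_specGt z t, (vn_specGt_isStarProjection z t).one_sub, ?_, ?_, ?_⟩
  · intro c hc
    exact (Commute.one_right c).sub_right (vn_commute_specGt hc t)
  · have h := vn_specGt_compl_nonpos hz t
    have h2 : (z - vn_sc t) * (1 - vn_specGt z t)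
        = z * (1 - vn_specGt z t) - t • (1 - vn_specGt z t) := by
      rw [sub_mul, vn_sc, smul_mul_assoc, one_mul]; rfl
    rw [h2] at h
    exact sub_nonpos.1 h
  · have h := vn_specGt_nonneg hz t
    have h2 : (z - vn_sc t) * vn_specGt z t = z * vn_specGt z t - t • vn_specGt z t := by
      rw [sub_mul, vn_sc, smul_mul_assoc, one_mul]; rfl
    rw [h2] at h
    simpa using sub_nonneg.1 h

/-- TK2'. an operator commuting with everything that commutes with `z ∈ M` lies in `M`. -/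
theorem nc_tk_mem_of_bicommute (M : VonNeumannAlgebra H) (z g : H →L[ℂ] H) (hz : z ∈ M)
    (hg : ∀ c : H →L[ℂ] H, Commute c z → Commute c g) : g ∈ M := by
  rw [← VonNeumannAlgebra.commutant_commutant M, VonNeumannAlgebra.mem_commutant_iff]
  intro c hc
  exact hg c (VonNeumannAlgebra.mem_commutant_iff.1 hc z hz).symm

/-- TK3. range projection of an element of `M`. -/
theorem nc_tk_range (M : VonNeumannAlgebra H) (y : H →L[ℂ] H) (hy : y ∈ M) :
    ∃ q ∈ M, IsStarProjection q ∧ q * y = y ∧ ∀ v : H, q v = v → v ∈ closure (Set.range y) := by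
  refine ⟨vn_rangeProj y, vn_rangeProj_mem M hy, vn_rangeProj_isStarProjection y,
    vn_rangeProj_mul_self y, ?_⟩
  intro v hv
  have h := (vn_projOn_apply_eq_iff (K := LinearMap.range (y : H →ₗ[ℂ] H)) (ξ := v)).1 hv
  have h2 : ((LinearMap.range (y : H →ₗ[ℂ] H)).topologicalClosure : Set H)
      = closure (Set.range y) := by
    rw [Submodule.topologicalClosure_coe]; rfl
  rw [← h2]; exact h

/-- TK4'. norm approximation of the elements of a masa by linear combinations of its projections. -/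
theorem nc_tk_step_approx (M : VonNeumannAlgebra H) (A : StarSubalgebra ℂ (H →L[ℂ] H))
    (hA : nc_Masa M A) (a : H →L[ℂ] H) (ha : a ∈ A) (ε : ℝ) (hε : 0 < ε) :
    ∃ (n : ℕ) (c : Fin n → ℂ) (e : Fin n → (H →L[ℂ] H)),
      (∀ i, e i ∈ A ∧ IsStarProjection (e i)) ∧ ‖a - ∑ i, c i • e i‖ ≤ ε := by
  have hre : (realPart a : H →L[ℂ] H) ∈ A := by
    rw [realPart_apply_coe]
    exact A.smul_mem (add_mem ha (star_mem ha)) _
  have him : (imaginaryPart a : H →L[ℂ] H) ∈ A := by
    rw [imaginaryPart_apply_coe]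
    exact A.smul_mem (A.smul_mem (sub_mem ha (star_mem ha)) _) _
  obtain ⟨n₁, e₁, c₁, he₁, -, -, -, h₁⟩ := vn_masa_exists_finite_spectrum_approx M A hA hre
    (realPart a).2 (ε := ε / 2) (by positivity)
  obtain ⟨n₂, e₂, c₂, he₂, -, -, -, h₂⟩ := vn_masa_exists_finite_spectrum_approx M A hA him
    (imaginaryPart a).2 (ε := ε / 2) (by positivity)
  refine ⟨n₁ + n₂, Fin.append (fun i => (c₁ i : ℂ)) (fun i => Complex.I * (c₂ i : ℂ)),
    Fin.append e₁ e₂, ?_, ?_⟩
  · intro i
    refine Fin.addCases (fun j => ?_) (fun j => ?_) i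
    · simpa using he₁ j
    · simpa using he₂ j
  · rw [Fin.sum_univ_add]
    simp only [Fin.append_left, Fin.append_right]
    have hdec : a = (realPart a : H →L[ℂ] H) + Complex.I • (imaginaryPart a : H →L[ℂ] H) :=
      (realPart_add_I_smul_imaginaryPart a).symm
    have h3 : a - (∑ i, (c₁ i : ℂ) • e₁ i + ∑ i, (Complex.I * (c₂ i : ℂ)) • e₂ i)
        = ((realPart a : H →L[ℂ] H) - ∑ i, (c₁ i : ℂ) • e₁ i)
          + Complex.I • ((imaginaryPart a : H →L[ℂ] H) - ∑ i, (c₂ i : ℂ) • e₂ i) := by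
      conv_lhs => rw [hdec]
      rw [smul_sub, Finset.smul_sum]
      simp only [mul_smul]
      abel
    rw [h3]
    calc _ ≤ ‖(realPart a : H →L[ℂ] H) - ∑ i, (c₁ i : ℂ) • e₁ i‖
          + ‖Complex.I • ((imaginaryPart a : H →L[ℂ] H) - ∑ i, (c₂ i : ℂ) • e₂ i)‖ := norm_add_le _ _
      _ ≤ ε / 2 + ε / 2 := by
          refine add_le_add h₁ ?_
          rw [norm_smul, Complex.norm_I, one_mul]; exact h₂
      _ = ε := by ring

/-- TK4. a masa is generated by its projections: commuting with the projections of `A` is enough. -/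
theorem nc_tk_commute_of_proj (M : VonNeumannAlgebra H) (A : StarSubalgebra ℂ (H →L[ℂ] H))
    (hA : nc_Masa M A) (c : H →L[ℂ] H)
    (hc : ∀ e ∈ A, IsStarProjection e → Commute c e) : ∀ a ∈ A, Commute c a := by
  intro a ha
  rw [commute_iff_eq, ← sub_eq_zero, ← norm_le_zero_iff]
  refine le_of_forall_pos_le_add fun ε hε => ?_
  obtain ⟨n, d, e, he, hn⟩ := nc_tk_step_approx M A hA a ha (ε / (2 * (‖c‖ + 1))) (by positivity)
  set b := ∑ i, d i • e i with hb
  have hcb : Commute c b := by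
    rw [hb]
    refine Commute.sum_right _ _ _ fun i _ => ?_
    exact (hc (e i) (he i).1 (he i).2).smul_right (d i)
  have h1 : c * a - a * c = c * (a - b) - (a - b) * c := by
    rw [mul_sub, sub_mul, hcb.eq]; abel
  rw [h1, zero_add]
  calc ‖c * (a - b) - (a - b) * c‖ ≤ ‖c * (a - b)‖ + ‖(a - b) * c‖ := norm_sub_le _ _
    _ ≤ ‖c‖ * ‖a - b‖ + ‖a - b‖ * ‖c‖ := add_le_add (norm_mul_le _ _) (norm_mul_le _ _)
    _ = 2 * ‖c‖ * ‖a - b‖ := by ring
    _ ≤ 2 * (‖c‖ + 1) * (ε / (2 * (‖c‖ + 1))) := by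
        have : 0 ≤ ‖c‖ := norm_nonneg _
        gcongr
        linarith
    _ = ε := by
        have : 0 < ‖c‖ + 1 := by positivity
        field_simp

end Claimed.Agent.R302
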