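/-
R302 / NC / L6 = (S) : a positive contraction `s ≤ h`, almost `h` on the test vectors, with uniformly small diagonal.
Proof: f, P from `nc_Sing` (parameter α'), g := nc_pinch P f, q1 := h * 1_(-∞,β](g) (`nc_tk_spec`; commutes with the pieces), s := q1 f q1.
nc_pinch P s = q1 g q1 ≤ β h;  β (h - q1) ≤ g gives nc_sq ξ (h - q1) ≤ (∑ i, nc_sq ξ (f * P i)) / β;
‖(h-s) v‖ ≤ ‖(h-f) v‖ + 2 ‖(h-q1) v‖.      (owner helper13; sorry-free)
-/
import Claimed.Agent.R302.NC.Tool
import Claimed.Agent.R302.NC.Pinch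

set_option autoImplicit false
set_option linter.unusedSectionVars false

open scoped InnerProductSpace ComplexOrder

-- with `ComplexOrder` in scope this instance hijacks `Inner ℂ H`
attribute [-instance] WithCStarModule.instCStarModuleComplex

namespace Claimed.Agent.R302

variable {H : Type*} [NormedAddCommGroup H] [InnerProductSpace ℂ H] [CompleteSpace H]

/-- `re ⟨v, e v⟩ = ‖e v‖²` for a projection. -/
theorem nc_sd_proj_re {e : H →L[ℂ] H} (he : IsStarProjection e) (v : H) :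
    (⟪v, e v⟫_ℂ).re = ‖e v‖ ^ 2 := by
  rw [vn_proj_inner_self he v]
  norm_cast

/-- `re ⟨v, (pinch P f) v⟩ = ∑ ‖f P_i v‖²` for a projection `f`. -/
theorem nc_sd_pinch_re (A : StarSubalgebra ℂ (H →L[ℂ] H)) (h : H →L[ℂ] H) {κ : Type*} [Fintype κ]
    (P : κ → (H →L[ℂ] H)) (hP : nc_IsPart A h P) {f : H →L[ℂ] H} (hf : IsStarProjection f) (v : H) :
    (⟪v, nc_pinch P f v⟫_ℂ).re = ∑ i, ‖(f * P i) v‖ ^ 2 := by
  unfold nc_pinch
  simp only [sum_apply, inner_sum, Complex.re_sum]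
  refine Finset.sum_congr rfl fun i _ => ?_
  have : (P i * f * P i) v = P i (f (P i v)) := rfl
  rw [this, vn_inner_sa (hP.1 i).2.isSelfAdjoint, nc_sd_proj_re hf]
  rfl

theorem nc_small_diag (M : VonNeumannAlgebra H) (A : StarSubalgebra ℂ (H →L[ℂ] H)) (hA : nc_Masa M A)
    (h : H →L[ℂ] H) (hh : h ∈ A) (hp : IsStarProjection h) {ι : Type*} [Fintype ι] (ξ : ι → H)
    (hs : nc_Sing M A h ξ) (α β : ℝ) (hα : 0 < α) (hβ : 0 < β) :
    ∃ (n : ℕ) (P : Fin n → (H →L[ℂ] H)), nc_IsPart A h P ∧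
      ∃ s ∈ M, 0 ≤ s ∧ s ≤ h ∧ nc_sq ξ (h - s) < α ∧ nc_pinch P s ≤ β • h := by
  set α' : ℝ := α / (8 / β + 3) with hα'
  have hα'pos : 0 < α' := by positivity
  obtain ⟨f, hfM, hfp, hhf, hf1, n, P, hP, hf2⟩ := hs α' hα'pos
  refine ⟨n, P, hP, ?_⟩
  have hPs : ∀ i, IsSelfAdjoint (P i) := fun i => (hP.1 i).2.isSelfAdjoint
  have hPM : ∀ i, P i ∈ M := fun i => nc_masa_le M A hA (hP.1 i).1
  have hhM : h ∈ M := nc_masa_le M A hA hh
  set g := nc_pinch P f with hg
  have hgM : g ∈ M := nc_pinch_mem M P hPM hfM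
  have hgs : IsSelfAdjoint g := nc_pinch_isSelfAdjoint P hPs hfp.isSelfAdjoint
  have hg0 : 0 ≤ g := by
    have := nc_pinch_mono P hPs hfp.nonneg
    have h0 : nc_pinch P (0 : H →L[ℂ] H) = 0 := by simp [nc_pinch]
    rwa [h0] at this
  obtain ⟨e0, he0p, he0c, he01, he02⟩ := nc_tk_spec g hgs β
  have he0M : e0 ∈ M := nc_tk_mem_of_bicommute M g e0 hgM he0c
  have hPg : ∀ i, Commute (P i) g := nc_pinch_commute_piece A h P hP f
  have hPe : ∀ i, Commute (P i) e0 := fun i => he0c _ (hPg i)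
  have hhg1 : h * g = g := by
    rw [hg, nc_pinch, Finset.mul_sum]
    refine Finset.sum_congr rfl fun i _ => ?_
    rw [← mul_assoc, ← mul_assoc, nc_part_mul_left A h P hP i]
  have hgh1 : g * h = g := by
    rw [hg, nc_pinch, Finset.sum_mul]
    refine Finset.sum_congr rfl fun i _ => ?_
    rw [mul_assoc, nc_part_mul_right A h P hP i]
  have hhe : Commute h e0 := he0c _ (by rw [Commute, SemiconjBy, hhg1, hgh1])
  have hge : Commute g e0 := he0c g (Commute.refl g)
  have hhh : h * h = h := hp.isIdempotentElem.eq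
  have hee : e0 * e0 = e0 := he0p.isIdempotentElem.eq
  have hsth : star h = h := hp.isSelfAdjoint.star_eq
  set q1 := h * e0 with hq1
  have hq1p : IsStarProjection q1 := hp.mul he0p hhe
  have hq1M : q1 ∈ M := M.mul_mem hhM he0M
  have hq1q1 : q1 * q1 = q1 := hq1p.isIdempotentElem.eq
  have hstq : star q1 = q1 := hq1p.isSelfAdjoint.star_eq
  have hhPi : ∀ i, Commute h (P i) := fun i => by
    rw [Commute, SemiconjBy, nc_part_mul_left A h P hP i, nc_part_mul_right A h P hP i]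
  have hqP : ∀ i, Commute q1 (P i) := fun i => (hhPi i).mul_left (hPe i).symm
  have hheh : h * e0 * h = q1 := by rw [mul_assoc, ← hhe.eq, ← mul_assoc, hhh]
  have hq1h : q1 * h = q1 := hheh
  have hhq1 : h * q1 = q1 := by rw [hq1, ← mul_assoc, hhh]
  have hq1le : q1 ≤ h := by
    have := star_left_conjugate_le_conjugate he0p.le_one h
    rw [hsth, hheh, mul_one, hhh] at this
    exact this
  -- `g e0`
  have hgq : g * q1 = g * e0 := by rw [hq1, ← mul_assoc, hgh1]
  have hqg : q1 * g = g * e0 := by rw [hq1, mul_assoc, ← hge.eq, ← mul_assoc, hhg1]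
  have hge0h : h * (g * e0) * h = g * e0 := by
    rw [← mul_assoc, hhg1, mul_assoc, ← hhe.eq, ← mul_assoc, hgh1]
  have hge0 : 0 ≤ g * e0 := by
    have := star_left_conjugate_nonneg hg0 e0
    rw [he0p.isSelfAdjoint.star_eq, ← hge.eq, mul_assoc, hee] at this
    exact this
  set s := q1 * f * q1 with hsdef
  have hsM : s ∈ M := M.mul_mem (M.mul_mem hq1M hfM) hq1M
  have hs0 : 0 ≤ s := by
    have := star_left_conjugate_nonneg hfp.nonneg q1
    rwa [hstq] at this
  have hsq : s ≤ q1 := by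
    have := star_left_conjugate_le_conjugate hfp.le_one q1
    rwa [hstq, mul_one, hq1q1] at this
  have hpinch : nc_pinch P s = g * e0 := by
    rw [hsdef, mul_assoc, nc_pinch_mul_left P q1 hqP, nc_pinch_mul_right P q1 hqP, ← hg,
      ← mul_assoc, hqg, mul_assoc, hq1, ← mul_assoc e0, ← hhe.eq, mul_assoc h, hee, ← mul_assoc,
      hgh1]
  have hpin : nc_pinch P s ≤ β • h := by
    rw [hpinch]
    have h1 := star_left_conjugate_le_conjugate he01 h
    rw [hsth, hge0h, mul_smul_comm, smul_mul_assoc, hheh] at h1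
    refine le_trans h1 ?_
    exact smul_le_smul_of_nonneg_left hq1le hβ.le
  -- `β (h - q1) ≤ g`
  have hlow : β • (h - q1) ≤ g := by
    have h1 := star_left_conjugate_le_conjugate he02 h
    have e1 : h * (β • (1 - e0)) * h = β • (h - q1) := by
      rw [mul_smul_comm, smul_mul_assoc, mul_sub, mul_one, sub_mul, hhh, hheh]
    have e2 : h * (g * (1 - e0)) * h = g - g * e0 := by
      rw [mul_sub, mul_one, mul_sub, sub_mul, hge0h, hhg1, hgh1]
    rw [hsth, e1, e2] at h1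
    refine le_trans h1 ?_
    exact sub_le_self g hge0
  have hhq1p : IsStarProjection (h - q1) := hq1p.sub_of_mul_eq_left hp hq1h
  have hfh : f * h = f := by
    have := congrArg star hhf
    rwa [star_mul, hsth, hfp.isSelfAdjoint.star_eq] at this
  have hhfp : IsStarProjection (h - f) := hfp.sub_of_mul_eq_left hp hfh
  have hvec1 : ∀ v : H, β * ‖(h - q1) v‖ ^ 2 ≤ ∑ i, ‖(f * P i) v‖ ^ 2 := by
    intro v
    have h1 := vn_re_inner_le_of_le hlow v
    rw [nc_sd_pinch_re A h P hP hfp v, smul_apply, ← Complex.coe_smul, inner_smul_right] at h1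
    have h2 : ((β : ℂ) * ⟪v, (h - q1) v⟫_ℂ).re = β * ‖(h - q1) v‖ ^ 2 := by
      rw [← nc_sd_proj_re hhq1p v]
      simp
    rwa [h2] at h1
  have hsum1 : β * nc_sq ξ (h - q1) ≤ ∑ i, nc_sq ξ (f * P i) := by
    unfold nc_sq
    rw [Finset.mul_sum, Finset.sum_comm]
    exact Finset.sum_le_sum fun k _ => hvec1 (ξ k)
  have hvec2 : ∀ v : H, ‖(h - s) v‖ ^ 2 ≤ 8 * ‖(h - q1) v‖ ^ 2 + 2 * ‖(h - f) v‖ ^ 2 := by
    intro v
    have e1 : (h - s) v = (h - q1) v + q1 ((h - f) v - (h - f) ((h - q1) v)) := by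
      have e2 : h - s = (h - q1) + q1 * ((h - f) - (h - f) * (h - q1)) := by
        have e3 : (h - f) - (h - f) * (h - q1) = (h - f) * q1 := by
          rw [mul_sub (h - f), sub_mul h f h, hhh, hfh]
          abel
        rw [e3, ← mul_assoc, mul_sub, sub_mul, hq1h, hq1q1, hsdef]
        abel
      rw [e2]
      rfl
    have n1 := nc_proj_norm_apply_le hq1p ((h - f) v - (h - f) ((h - q1) v))
    have n2 := nc_proj_norm_apply_le hhfp ((h - q1) v)
    have n3 := norm_sub_le ((h - f) v) ((h - f) ((h - q1) v))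
    have n4 : ‖(h - s) v‖ ≤ 2 * ‖(h - q1) v‖ + ‖(h - f) v‖ := by
      rw [e1]
      refine le_trans (norm_add_le _ _) ?_
      linarith
    have n5 := norm_nonneg ((h - s) v)
    nlinarith [sq_nonneg (2 * ‖(h - q1) v‖ - ‖(h - f) v‖), norm_nonneg ((h - q1) v),
      norm_nonneg ((h - f) v)]
  have hsum2 : nc_sq ξ (h - s) ≤ 8 * nc_sq ξ (h - q1) + 2 * nc_sq ξ (h - f) := by
    unfold nc_sq
    rw [Finset.mul_sum, Finset.mul_sum, ← Finset.sum_add_distrib]
    exact Finset.sum_le_sum fun k _ => hvec2 (ξ k)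
  refine ⟨s, hsM, hs0, le_trans hsq hq1le, ?_, hpin⟩
  have h3 : nc_sq ξ (h - q1) < α' / β := by
    rw [lt_div_iff₀ hβ, mul_comm]
    exact lt_of_le_of_lt hsum1 hf2
  have h4 : α = (8 / β + 3) * α' := by
    rw [hα']
    field_simp
  have h5 : 8 * (α' / β) = 8 / β * α' := by ring
  nlinarith

/-- the bound passes to all refinements. -/
theorem nc_small_diag_refine (A : StarSubalgebra ℂ (H →L[ℂ] H)) (h : H →L[ℂ] H) {κ κ' : Type*} [Fintype κ]
    [Fintype κ'] (P : κ → (H →L[ℂ] H)) (Q : κ' → (H →L[ℂ] H)) (hP : nc_IsPart A h P)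
    (hQ : nc_IsPart A h Q) (hQP : nc_Refines Q P) (s : H →L[ℂ] H) (β : ℝ)
    (hβ : nc_pinch P s ≤ β • h) : nc_pinch Q s ≤ β • h := by
  have h1 := nc_pinch_mono Q (fun i => (hQ.1 i).2.isSelfAdjoint) hβ
  rw [nc_pinch_pinch A h P Q hP hQ hQP s] at h1
  have h2 : nc_pinch Q (β • h) = β • h := by
    have := nc_pinch_self A h Q hQ
    unfold nc_pinch at this ⊢
    simp only [mul_smul_comm, smul_mul_assoc]
    rw [← Finset.smul_sum, this]
  rwa [h2] at h1

end Claimed.Agent.R302
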