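/-
R302 / NC / L7c, L7d, L7e : block sums, the diagonal limit b, and the random colouring (Notes_helper7, (L)).
Owner helper13.  Sorry-free modulo the black boxes of NC/Tool, NC/Pinch, NC/SmallDiag, NC/Select.
Auxiliary lemmas carry the prefix `nc_bl_`:  vector forms of operator inequalities, the linear map
`nc_bl_T ξ s z = (s z s ξ_k)_k` into the Hilbert sum, the directed set `nc_bl_Idx` of partitions refining `P`,
`nc_bl_diag_exists` (WOT ultralimit of pinchings lies in `A`), `nc_bl_glue` (gluing partitions below the pieces).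
-/
import Claimed.Agent.R302.NC.Tool
import Claimed.Agent.R302.NC.Pinch
import Claimed.Agent.R302.NC.SmallDiag
import Claimed.Agent.R302.NC.Select

set_option autoImplicit false
set_option linter.unusedSectionVars false

open scoped InnerProductSpace ComplexOrder

attribute [-instance] WithCStarModule.instCStarModuleComplex

namespace Claimed.Agent.R302

variable {H : Type*} [NormedAddCommGroup H] [InnerProductSpace ℂ H] [CompleteSpace H]

/-! ### Basic vector inequalities -/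

theorem nc_bl_le_inner {a b : H →L[ℂ] H} (hab : a ≤ b) (v : H) :
    (⟪v, a v⟫_ℂ).re ≤ (⟪v, b v⟫_ℂ).re := by
  have h1 := ((ContinuousLinearMap.le_def a b).1 hab).re_inner_nonneg_right v
  simp only [sub_apply, inner_sub_right, map_sub] at h1
  simpa using h1

theorem nc_bl_sq_le {s h : H →L[ℂ] H} (hs0 : 0 ≤ s) (hsh : s ≤ h) (hp : IsStarProjection h) :
    s * s ≤ s := by
  have h1 : s ≤ 1 := le_trans hsh hp.le_one
  have := CStarAlgebra.pow_antitone hs0 h1 (show 1 ≤ 2 by norm_num)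
  simpa [pow_two] using this

theorem nc_bl_inner_sa {s : H →L[ℂ] H} (hs : IsSelfAdjoint s) (v w : H) :
    ⟪s v, w⟫_ℂ = ⟪v, s w⟫_ℂ := by
  have := ContinuousLinearMap.adjoint_inner_right s v w
  rw [← ContinuousLinearMap.star_eq_adjoint, hs.star_eq] at this
  exact this.symm

/-- `‖s v‖² ≤ ⟨v, s v⟩` for `0 ≤ s ≤ h`. -/
theorem nc_bl_norm_sq_le {s h : H →L[ℂ] H} (hs0 : 0 ≤ s) (hsh : s ≤ h) (hp : IsStarProjection h)
    (v : H) : ‖s v‖ ^ 2 ≤ (⟪v, s v⟫_ℂ).re := by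
  have hsa : IsSelfAdjoint s := IsSelfAdjoint.of_nonneg hs0
  have h1 := nc_bl_le_inner (nc_bl_sq_le hs0 hsh hp) v
  have h2 : (⟪v, (s * s) v⟫_ℂ).re = ‖s v‖ ^ 2 := by
    rw [mul_apply_eq_comp, ← nc_bl_inner_sa hsa, inner_self_eq_norm_sq_to_K]
    norm_cast
  rw [h2] at h1
  exact h1

/-- `‖e v‖² = ⟨v, e v⟩` for a projection. -/
theorem nc_bl_proj_norm_sq {e : H →L[ℂ] H} (he : IsStarProjection e) (v : H) :
    (⟪v, e v⟫_ℂ).re = ‖e v‖ ^ 2 := by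
  have h1 : e (e v) = e v := by
    have := he.isIdempotentElem.eq
    exact congrArg (fun T : H →L[ℂ] H => T v) this
  have h2 : ⟪e v, e v⟫_ℂ = ⟪v, e v⟫_ℂ := by
    rw [nc_bl_inner_sa he.isSelfAdjoint, h1]
  rw [← h2, inner_self_eq_norm_sq_to_K]
  norm_cast

theorem nc_bl_proj_norm_le {e : H →L[ℂ] H} (he : IsStarProjection e) (v : H) : ‖e v‖ ≤ ‖v‖ := by
  have h1 := nc_bl_proj_norm_sq he v
  have h2 : (⟪v, e v⟫_ℂ).re ≤ ‖v‖ * ‖e v‖ :=
    le_trans (Complex.re_le_norm _) (norm_inner_le_norm _ _)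
  rw [h1] at h2
  by_cases h0 : ‖e v‖ = 0
  · rw [h0]; exact norm_nonneg _
  · have hpos : 0 < ‖e v‖ := lt_of_le_of_ne (norm_nonneg _) (Ne.symm h0)
    nlinarith

/-- Pythagoras for a partition. -/
theorem nc_bl_part_norm_sq (A : StarSubalgebra ℂ (H →L[ℂ] H)) (h : H →L[ℂ] H) {κ : Type*} [Fintype κ]
    (R : κ → (H →L[ℂ] H)) (hR : nc_IsPart A h R) (hp : IsStarProjection h) (v : H) :
    ∑ i, ‖R i v‖ ^ 2 = ‖h v‖ ^ 2 := by
  rw [← nc_bl_proj_norm_sq hp v, ← hR.2.2]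
  simp only [sum_apply, inner_sum, Complex.re_sum]
  exact Finset.sum_congr rfl fun i _ => (nc_bl_proj_norm_sq (hR.1 i).2 v).symm

/-- the pinching inequality tested on a vector. -/
theorem nc_bl_pinch_vec (A : StarSubalgebra ℂ (H →L[ℂ] H)) (h : H →L[ℂ] H) {κ : Type*} [Fintype κ]
    (R : κ → (H →L[ℂ] H)) (hR : nc_IsPart A h R) (s : H →L[ℂ] H)
    (hp : IsStarProjection h) (β : ℝ) (hβ : nc_pinch R s ≤ β • h) (w : H) :
    ∑ i, (⟪R i w, s (R i w)⟫_ℂ).re ≤ β * ‖h w‖ ^ 2 := by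
  have h1 := nc_bl_le_inner hβ w
  have h2 : (⟪w, (β • h) w⟫_ℂ).re = β * ‖h w‖ ^ 2 := by
    rw [← nc_bl_proj_norm_sq hp w, smul_apply, ← Complex.coe_smul,
      inner_smul_right]
    simp
  have h3 : (⟪w, (nc_pinch R s) w⟫_ℂ).re = ∑ i, (⟪R i w, s (R i w)⟫_ℂ).re := by
    unfold nc_pinch
    simp only [sum_apply, inner_sum, Complex.re_sum,
      mul_apply_eq_comp]
    refine Finset.sum_congr rfl fun i _ => ?_
    rw [nc_bl_inner_sa (hR.1 i).2.isSelfAdjoint]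
  rw [h2, h3] at h1
  exact h1

theorem nc_bl_nonneg_inner {s : H →L[ℂ] H} (hs0 : 0 ≤ s) (v : H) : 0 ≤ (⟪v, s v⟫_ℂ).re := by
  have := nc_bl_le_inner hs0 v
  simpa using this

/-- either `β ≥ 0` or everything is trivial. -/
theorem nc_bl_beta (A : StarSubalgebra ℂ (H →L[ℂ] H)) (h : H →L[ℂ] H) {κ : Type*} [Fintype κ]
    (R : κ → (H →L[ℂ] H)) (hR : nc_IsPart A h R) (s : H →L[ℂ] H) (hs0 : 0 ≤ s) (hsh : s ≤ h)
    (hp : IsStarProjection h) (β : ℝ) (hβ : nc_pinch R s ≤ β • h) : 0 ≤ β ∨ s = 0 := by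
  by_cases hb : 0 ≤ β
  · exact Or.inl hb
  right
  have hb' : β < 0 := not_le.1 hb
  have hh : h = 0 := by
    ext w
    have h1 := nc_bl_pinch_vec A h R hR s hp β hβ w
    have h2 : 0 ≤ ∑ i, (⟪R i w, s (R i w)⟫_ℂ).re :=
      Finset.sum_nonneg fun i _ => nc_bl_nonneg_inner hs0 _
    have h3 : ‖h w‖ ^ 2 ≤ 0 := by nlinarith [sq_nonneg ‖h w‖]
    have h4 : ‖h w‖ = 0 := by nlinarith [norm_nonneg (h w)]
    simpa using norm_eq_zero.1 h4
  rw [hh] at hsh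
  exact le_antisymm hsh hs0


/-! ### Block sums -/

theorem nc_bl_sum_comm3 {α β γ : Type*} [Fintype α] [Fintype β] [Fintype γ] (f : α → β → γ → ℝ) :
    ∑ i, ∑ j, ∑ k, f i j k = ∑ k, ∑ j, ∑ i, f i j k := by
  calc ∑ i, ∑ j, ∑ k, f i j k = ∑ i, ∑ k, ∑ j, f i j k :=
        Finset.sum_congr rfl fun i _ => Finset.sum_comm
    _ = ∑ k, ∑ i, ∑ j, f i j k := Finset.sum_comm
    _ = ∑ k, ∑ j, ∑ i, f i j k := Finset.sum_congr rfl fun k _ => Finset.sum_comm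

theorem nc_bl_block_vec (A : StarSubalgebra ℂ (H →L[ℂ] H)) (h : H →L[ℂ] H) {κ : Type*} [Fintype κ]
    (R : κ → (H →L[ℂ] H)) (hR : nc_IsPart A h R) (s : H →L[ℂ] H) (hs0 : 0 ≤ s) (hsh : s ≤ h)
    (hp : IsStarProjection h) (β : ℝ) (hβ0 : 0 ≤ β) (hβ : nc_pinch R s ≤ β • h) (w : H) :
    ∑ i, ‖s (R i w)‖ ^ 2 ≤ β * ‖w‖ ^ 2 := by
  calc ∑ i, ‖s (R i w)‖ ^ 2 ≤ ∑ i, (⟪R i w, s (R i w)⟫_ℂ).re :=
        Finset.sum_le_sum fun i _ => nc_bl_norm_sq_le hs0 hsh hp _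
    _ ≤ β * ‖h w‖ ^ 2 := nc_bl_pinch_vec A h R hR s hp β hβ w
    _ ≤ β * ‖w‖ ^ 2 := by
        have := nc_bl_proj_norm_le hp w
        gcongr

/-- L7c.  ∑_{i,j} chi(|s R_i z R_j s|^2) ≤ β ‖z‖^2 chi(s^2). -/
theorem nc_block_sum (A : StarSubalgebra ℂ (H →L[ℂ] H)) (h : H →L[ℂ] H) {κ : Type*} [Fintype κ]
    (R : κ → (H →L[ℂ] H)) (hR : nc_IsPart A h R) (s : H →L[ℂ] H) (hs0 : 0 ≤ s) (hsh : s ≤ h)
    (hp : IsStarProjection h) (β : ℝ) (hβ : nc_pinch R s ≤ β • h) (z : H →L[ℂ] H)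
    {ι : Type*} [Fintype ι] (ξ : ι → H) :
    ∑ i, ∑ j, nc_sq ξ (s * R i * z * R j * s) ≤ β * ‖z‖ ^ 2 * nc_sq ξ s := by
  rcases nc_bl_beta A h R hR s hs0 hsh hp β hβ with hβ0 | rfl
  swap
  · simp [nc_sq]
  have hhs : h * s = s := (hp.mul_right_and_mul_left_of_nonneg_of_le hs0 hsh).2
  unfold nc_sq
  have key : ∀ k, ∑ j, ∑ i, ‖(s * R i * z * R j * s) (ξ k)‖ ^ 2 ≤ β * ‖z‖ ^ 2 * ‖s (ξ k)‖ ^ 2 := by
    intro k
    calc ∑ j, ∑ i, ‖(s * R i * z * R j * s) (ξ k)‖ ^ 2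
        ≤ ∑ j, β * ‖z (R j (s (ξ k)))‖ ^ 2 :=
          Finset.sum_le_sum fun j _ =>
            nc_bl_block_vec A h R hR s hs0 hsh hp β hβ0 hβ (z (R j (s (ξ k))))
      _ ≤ ∑ j, β * (‖z‖ ^ 2 * ‖R j (s (ξ k))‖ ^ 2) := by
          refine Finset.sum_le_sum fun j _ => ?_
          have := z.le_opNorm (R j (s (ξ k)))
          rw [← mul_pow]
          gcongr
      _ = β * ‖z‖ ^ 2 * ∑ j, ‖R j (s (ξ k))‖ ^ 2 := by
          rw [Finset.mul_sum]
          exact Finset.sum_congr rfl fun j _ => by ring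
      _ = β * ‖z‖ ^ 2 * ‖s (ξ k)‖ ^ 2 := by
          rw [nc_bl_part_norm_sq A h R hR hp]
          have : h (s (ξ k)) = s (ξ k) := congrArg (fun T : H →L[ℂ] H => T (ξ k)) hhs
          rw [this]
  calc ∑ i, ∑ j, ∑ k, ‖(s * R i * z * R j * s) (ξ k)‖ ^ 2
      = ∑ k, ∑ j, ∑ i, ‖(s * R i * z * R j * s) (ξ k)‖ ^ 2 := by
        exact nc_bl_sum_comm3 _
    _ ≤ ∑ k, β * ‖z‖ ^ 2 * ‖s (ξ k)‖ ^ 2 := Finset.sum_le_sum fun k _ => key k
    _ = β * ‖z‖ ^ 2 * ∑ k, ‖s (ξ k)‖ ^ 2 := by rw [Finset.mul_sum]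


/-- L7c'.  the diagonal blocks, with block-dependent operators. -/
theorem nc_block_diag (A : StarSubalgebra ℂ (H →L[ℂ] H)) (h : H →L[ℂ] H) {κ : Type*} [Fintype κ]
    (R : κ → (H →L[ℂ] H)) (hR : nc_IsPart A h R) (s : H →L[ℂ] H) (hs0 : 0 ≤ s) (hsh : s ≤ h)
    (hp : IsStarProjection h) (β : ℝ) (hβ : nc_pinch R s ≤ β • h) (z : κ → (H →L[ℂ] H)) (C : ℝ)
    (hz : ∀ i, ‖z i‖ ≤ C) {ι : Type*} [Fintype ι] (ξ : ι → H) :
    ∑ i, nc_sq ξ (s * R i * z i * R i * s) ≤ β * C ^ 2 * nc_sq ξ s := by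
  rcases nc_bl_beta A h R hR s hs0 hsh hp β hβ with hβ0 | rfl
  swap
  · simp [nc_sq]
  have hhs : h * s = s := (hp.mul_right_and_mul_left_of_nonneg_of_le hs0 hsh).2
  unfold nc_sq
  have key : ∀ k, ∑ i, ‖(s * R i * z i * R i * s) (ξ k)‖ ^ 2 ≤ β * C ^ 2 * ‖s (ξ k)‖ ^ 2 := by
    intro k
    calc ∑ i, ‖(s * R i * z i * R i * s) (ξ k)‖ ^ 2
        ≤ ∑ i, β * ‖z i (R i (s (ξ k)))‖ ^ 2 := by
          refine Finset.sum_le_sum fun i _ => ?_
          refine le_trans ?_ (nc_bl_block_vec A h R hR s hs0 hsh hp β hβ0 hβ (z i (R i (s (ξ k)))))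
          exact Finset.single_le_sum (f := fun i' => ‖s (R i' (z i (R i (s (ξ k)))))‖ ^ 2)
            (fun _ _ => sq_nonneg _) (Finset.mem_univ i)
      _ ≤ ∑ i, β * (C ^ 2 * ‖R i (s (ξ k))‖ ^ 2) := by
          refine Finset.sum_le_sum fun i _ => ?_
          have h1 := (z i).le_opNorm (R i (s (ξ k)))
          have h2 : ‖z i‖ * ‖R i (s (ξ k))‖ ≤ C * ‖R i (s (ξ k))‖ :=
            mul_le_mul_of_nonneg_right (hz i) (norm_nonneg _)
          have h3 := le_trans h1 h2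
          rw [← mul_pow]
          gcongr
      _ = β * C ^ 2 * ∑ i, ‖R i (s (ξ k))‖ ^ 2 := by
          rw [Finset.mul_sum]
          exact Finset.sum_congr rfl fun j _ => by ring
      _ = β * C ^ 2 * ‖s (ξ k)‖ ^ 2 := by
          rw [nc_bl_part_norm_sq A h R hR hp]
          have : h (s (ξ k)) = s (ξ k) := congrArg (fun T : H →L[ℂ] H => T (ξ k)) hhs
          rw [this]
  calc ∑ i, ∑ k, ‖(s * R i * z i * R i * s) (ξ k)‖ ^ 2
      = ∑ k, ∑ i, ‖(s * R i * z i * R i * s) (ξ k)‖ ^ 2 := Finset.sum_comm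
    _ ≤ ∑ k, β * C ^ 2 * ‖s (ξ k)‖ ^ 2 := Finset.sum_le_sum fun k _ => key k
    _ = β * C ^ 2 * ∑ k, ‖s (ξ k)‖ ^ 2 := by rw [Finset.mul_sum]


/-! ### The map `z ↦ (s z s ξ_k)_k` -/

/-- `z ↦ (s z s ξ_k)_k` as a linear map into the Hilbert sum. -/
noncomputable def nc_bl_T {ι : Type*} [Fintype ι] (ξ : ι → H) (s : H →L[ℂ] H) :
    (H →L[ℂ] H) →ₗ[ℂ] PiLp 2 (fun _ : ι => H) where
  toFun z := WithLp.toLp 2 (fun k => (s * z * s) (ξ k))
  map_add' z w := by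
    ext k
    simp [mul_add, add_mul]
  map_smul' c z := by
    ext k
    simp

theorem nc_bl_T_apply {ι : Type*} [Fintype ι] (ξ : ι → H) (s z : H →L[ℂ] H) (k : ι) :
    nc_bl_T ξ s z k = (s * z * s) (ξ k) := rfl

theorem nc_bl_T_norm_sq {ι : Type*} [Fintype ι] (ξ : ι → H) (s z : H →L[ℂ] H) :
    ‖nc_bl_T ξ s z‖ ^ 2 = nc_sq ξ (s * z * s) := by
  rw [PiLp.norm_sq_eq_of_L2]
  rfl

theorem nc_bl_nc_sq_nonneg {ι : Type*} [Fintype ι] (ξ : ι → H) (z : H →L[ℂ] H) : 0 ≤ nc_sq ξ z :=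
  Finset.sum_nonneg fun _ _ => sq_nonneg _

/-- `T'(x) = ∑_{i,j} T'(R_i x R_j)`. -/
theorem nc_bl_T_expand (A : StarSubalgebra ℂ (H →L[ℂ] H)) (h : H →L[ℂ] H) {κ : Type*} [Fintype κ]
    (R : κ → (H →L[ℂ] H)) (hR : nc_IsPart A h R) (s : H →L[ℂ] H) (hs0 : 0 ≤ s) (hsh : s ≤ h)
    (hp : IsStarProjection h) {ι : Type*} [Fintype ι] (ξ : ι → H) (x : H →L[ℂ] H) :
    nc_bl_T ξ s x = ∑ i, ∑ j, nc_bl_T ξ s (R i * x * R j) := by
  obtain ⟨hsh', hhs⟩ := hp.mul_right_and_mul_left_of_nonneg_of_le hs0 hsh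
  have h1 : ∑ i, ∑ j, R i * x * R j = h * x * h := by
    rw [← hR.2.2, Finset.sum_mul, Finset.sum_mul]
    refine Finset.sum_congr rfl fun i _ => ?_
    rw [Finset.mul_sum]
  have h2 : nc_bl_T ξ s (h * x * h) = nc_bl_T ξ s x := by
    ext k
    rw [nc_bl_T_apply, nc_bl_T_apply]
    have : s * (h * x * h) * s = s * x * s := by
      calc s * (h * x * h) * s = (s * h) * x * (h * s) := by simp only [mul_assoc]
        _ = s * x * s := by rw [hsh', hhs]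
    rw [this]
  rw [← h2, ← h1, map_sum]
  refine Finset.sum_congr rfl fun i _ => ?_
  rw [map_sum]

/-- L7e''.  colouring the pieces of `R`. -/
theorem nc_colour_partition (A : StarSubalgebra ℂ (H →L[ℂ] H)) (h : H →L[ℂ] H) (hp : IsStarProjection h)
    {ι : Type*} [Fintype ι] (ξ : ι → H) (s : H →L[ℂ] H) (hs0 : 0 ≤ s) (hsh : s ≤ h)
    (x : H →L[ℂ] H) (hx1 : ‖x‖ ≤ 1) {k : ℕ} (R : Fin k → (H →L[ℂ] H)) (hR : nc_IsPart A h R)
    (β : ℝ) (hβ : nc_pinch R s ≤ β • h) (r : ℕ) (hr : 0 < r) :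
    ∃ c : Fin k → Fin r,
      nc_sq ξ (s * (nc_pinch (nc_class R c) x - (1 / (r : ℂ)) • x - (1 - 1 / (r : ℂ)) • nc_pinch R x) * s)
        ≤ (2 / (r : ℝ)) * β * nc_sq ξ s := by
  obtain ⟨c, hc⟩ := nc_colour (fun i j => nc_bl_T ξ s (R i * x * R j)) r hr
  refine ⟨c, ?_⟩
  rw [← nc_bl_T_norm_sq]
  have e1 : nc_bl_T ξ s (nc_pinch (nc_class R c) x - (1 / (r : ℂ)) • x
        - (1 - 1 / (r : ℂ)) • nc_pinch R x)
      = ∑ e, ∑ e', (if e = e' then (0 : ℂ) else ((if c e = c e' then (1 : ℂ) else 0) - 1 / (r : ℂ)))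
          • nc_bl_T ξ s (R e * x * R e') := by
    rw [map_sub, map_sub, map_smul, map_smul, nc_bl_T_expand A h R hR s hs0 hsh hp ξ x,
      nc_pinch_class, nc_pinch, map_sum, map_sum, Finset.smul_sum, Finset.smul_sum,
      ← Finset.sum_sub_distrib, ← Finset.sum_sub_distrib]
    refine Finset.sum_congr rfl fun i _ => ?_
    have h1 : nc_bl_T ξ s (R i * x * R i)
        = ∑ j, (if i = j then (1 : ℂ) else 0) • nc_bl_T ξ s (R i * x * R j) := by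
      simp
    rw [h1, map_sum, Finset.smul_sum, Finset.smul_sum, ← Finset.sum_sub_distrib,
      ← Finset.sum_sub_distrib]
    refine Finset.sum_congr rfl fun j _ => ?_
    by_cases hij : i = j
    · subst hij
      simp only [if_true]
      rw [one_smul, zero_smul, sub_smul, one_smul]
      abel
    · by_cases hcc : c i = c j
      · simp only [hij, hcc, if_true, if_false, zero_smul, smul_zero, sub_zero]
        rw [sub_smul, one_smul]
      · simp only [hij, hcc, if_false, zero_smul, smul_zero, sub_zero, map_zero]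
        rw [sub_smul, zero_smul]
  rw [e1]
  refine le_trans hc ?_
  have hbs := nc_block_sum A h R hR s hs0 hsh hp β hβ x ξ
  have e2 : ∑ e, ∑ e', ‖nc_bl_T ξ s (R e * x * R e')‖ ^ 2
      = ∑ i, ∑ j, nc_sq ξ (s * R i * x * R j * s) := by
    refine Finset.sum_congr rfl fun i _ => Finset.sum_congr rfl fun j _ => ?_
    rw [nc_bl_T_norm_sq]
    simp only [mul_assoc]
  rw [e2]
  have hX := nc_bl_nc_sq_nonneg ξ s
  have hβX : 0 ≤ β * nc_sq ξ s := by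
    rcases nc_bl_beta A h R hR s hs0 hsh hp β hβ with hβ0 | rfl
    · exact mul_nonneg hβ0 hX
    · simp [nc_sq]
  have hx2 : ‖x‖ ^ 2 ≤ 1 := by
    have := norm_nonneg x
    nlinarith
  have h3 : β * ‖x‖ ^ 2 * nc_sq ξ s ≤ β * nc_sq ξ s := by
    have : β * ‖x‖ ^ 2 * nc_sq ξ s = ‖x‖ ^ 2 * (β * nc_sq ξ s) := by ring
    rw [this]
    nlinarith
  have hr' : (0 : ℝ) ≤ 2 / (r : ℝ) := by positivity
  calc 2 / (r : ℝ) * ∑ i, ∑ j, nc_sq ξ (s * R i * x * R j * s)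
      ≤ 2 / (r : ℝ) * (β * nc_sq ξ s) := mul_le_mul_of_nonneg_left (le_trans hbs h3) hr'
    _ = _ := by ring


/-! ### The diagonal limit -/

theorem nc_bl_refines_refl (A : StarSubalgebra ℂ (H →L[ℂ] H)) (h : H →L[ℂ] H) {κ : Type*} [Fintype κ]
    (P : κ → (H →L[ℂ] H)) (hP : nc_IsPart A h P) : nc_Refines P P :=
  fun j => ⟨j, (hP.1 j).2.isIdempotentElem.eq⟩

theorem nc_bl_refines_trans {κ κ' κ'' : Type*} {P : κ → (H →L[ℂ] H)} {Q : κ' → (H →L[ℂ] H)}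
    {R : κ'' → (H →L[ℂ] H)} (hRQ : nc_Refines R Q) (hQP : nc_Refines Q P) : nc_Refines R P := by
  intro k
  obtain ⟨j, hj⟩ := hRQ k
  obtain ⟨i, hi⟩ := hQP j
  refine ⟨i, ?_⟩
  calc P i * R k = P i * (Q j * R k) := by rw [hj]
    _ = (P i * Q j) * R k := by rw [mul_assoc]
    _ = R k := by rw [hi, hj]

/-- The finite partitions of `h` in `A` refining `P`. -/
structure nc_bl_Idx (A : StarSubalgebra ℂ (H →L[ℂ] H)) (h : H →L[ℂ] H) {n : ℕ}
    (P : Fin n → (H →L[ℂ] H)) where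
  /-- number of pieces -/
  card : ℕ
  /-- the pieces -/
  Q : Fin card → (H →L[ℂ] H)
  part : nc_IsPart A h Q
  ref : nc_Refines Q P

instance nc_bl_Idx_preorder (A : StarSubalgebra ℂ (H →L[ℂ] H)) (h : H →L[ℂ] H) {n : ℕ}
    (P : Fin n → (H →L[ℂ] H)) : Preorder (nc_bl_Idx A h P) where
  le q q' := nc_Refines q'.Q q.Q
  le_refl q := nc_bl_refines_refl A h q.Q q.part
  le_trans _ _ _ h1 h2 := nc_bl_refines_trans h2 h1

theorem nc_bl_Idx_le_def (A : StarSubalgebra ℂ (H →L[ℂ] H)) (h : H →L[ℂ] H) {n : ℕ}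
    (P : Fin n → (H →L[ℂ] H)) (q q' : nc_bl_Idx A h P) : q ≤ q' ↔ nc_Refines q'.Q q.Q := Iff.rfl

/-- an index refining a given index and an arbitrary partition of `h`. -/
theorem nc_bl_Idx_refine (M : VonNeumannAlgebra H) (A : StarSubalgebra ℂ (H →L[ℂ] H))
    (hA : nc_Masa M A) (h : H →L[ℂ] H) {n : ℕ} (P : Fin n → (H →L[ℂ] H))
    (q : nc_bl_Idx A h P) {κ : Type*} [Fintype κ] (E : κ → (H →L[ℂ] H)) (hE : nc_IsPart A h E) :
    ∃ q' : nc_bl_Idx A h P, q ≤ q' ∧ nc_Refines q'.Q E := by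
  obtain ⟨h1, h2, h3⟩ := nc_common_refinement M A hA h q.Q E q.part hE
  obtain ⟨m, σ, h4, h5, _⟩ := nc_part_reindex A h _ h1
  exact ⟨⟨m, _, h4, nc_bl_refines_trans (nc_bl_refines_trans h5 h2) q.ref⟩,
    nc_bl_refines_trans h5 h2, nc_bl_refines_trans h5 h3⟩

theorem nc_bl_Idx_directed (M : VonNeumannAlgebra H) (A : StarSubalgebra ℂ (H →L[ℂ] H))
    (hA : nc_Masa M A) (h : H →L[ℂ] H) {n : ℕ} (P : Fin n → (H →L[ℂ] H)) :
    IsDirected (nc_bl_Idx A h P) (· ≤ ·) :=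
  ⟨fun q q' => by
    obtain ⟨q'', h1, h2⟩ := nc_bl_Idx_refine M A hA h P q q'.Q q'.part
    exact ⟨q'', h1, h2⟩⟩

/-- the two-piece partition of `h` cut by a projection `e ∈ A`. -/
theorem nc_bl_two_part (M : VonNeumannAlgebra H) (A : StarSubalgebra ℂ (H →L[ℂ] H))
    (hA : nc_Masa M A) (h : H →L[ℂ] H) (hh : h ∈ A) (hp : IsStarProjection h)
    (e : H →L[ℂ] H) (he : e ∈ A) (hep : IsStarProjection e) :
    nc_IsPart A h (fun i : Fin 2 => (![e, 1 - e] : Fin 2 → (H →L[ℂ] H)) i * h) := by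
  refine nc_part_cut M A hA h hh hp _ ⟨?_, ?_, ?_⟩
  · intro i
    fin_cases i
    · exact ⟨he, hep⟩
    · exact ⟨A.sub_mem A.one_mem he, hep.one_sub⟩
  · intro i j hij
    have h1 : e * (1 - e) = 0 := by rw [mul_sub, mul_one, hep.isIdempotentElem.eq, sub_self]
    have h2 : (1 - e) * e = 0 := by rw [sub_mul, one_mul, hep.isIdempotentElem.eq, sub_self]
    fin_cases i <;> fin_cases j <;> simp_all
  · simp

/-- a partition refining the cut by `e` splits along `e`. -/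
theorem nc_bl_split (M : VonNeumannAlgebra H) (A : StarSubalgebra ℂ (H →L[ℂ] H))
    (hA : nc_Masa M A) (h : H →L[ℂ] H) (e : H →L[ℂ] H) (he : e ∈ A) (hep : IsStarProjection e)
    {κ : Type*} [Fintype κ] (Q : κ → (H →L[ℂ] H)) (hQ : nc_IsPart A h Q)
    (hQE : nc_Refines Q (fun i : Fin 2 => (![e, 1 - e] : Fin 2 → (H →L[ℂ] H)) i * h)) (i : κ) :
    (e * Q i = Q i ∧ Q i * e = Q i) ∨ (e * Q i = 0 ∧ Q i * e = 0) := by
  have hcomm : Q i * e = e * Q i := (nc_masa_commute M A hA (hQ.1 i).1 he).eq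
  obtain ⟨j, hj⟩ := hQE i
  fin_cases j
  · left
    have h1 : e * h * Q i = Q i := by simpa using hj
    have h2 : e * Q i = Q i := by
      calc e * Q i = e * (e * h * Q i) := by rw [h1]
        _ = (e * e) * h * Q i := by simp only [mul_assoc]
        _ = Q i := by rw [hep.isIdempotentElem.eq, h1]
    exact ⟨h2, hcomm.trans h2⟩
  · right
    have h1 : (1 - e) * h * Q i = Q i := by simpa using hj
    have h2 : e * Q i = 0 := by
      calc e * Q i = e * ((1 - e) * h * Q i) := by rw [h1]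
        _ = (e * (1 - e)) * h * Q i := by simp only [mul_assoc]
        _ = 0 := by rw [mul_sub, mul_one, hep.isIdempotentElem.eq, sub_self, zero_mul, zero_mul]
    exact ⟨h2, hcomm.trans h2⟩


theorem nc_bl_piece_mul_h (A : StarSubalgebra ℂ (H →L[ℂ] H)) (h : H →L[ℂ] H) {κ : Type*} [Fintype κ]
    [DecidableEq κ] (Q : κ → (H →L[ℂ] H)) (hQ : nc_IsPart A h Q) (i : κ) : Q i * h = Q i := by
  rw [← hQ.2.2, Finset.mul_sum, Finset.sum_eq_single i]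
  · exact (hQ.1 i).2.isIdempotentElem.eq
  · intro j _ hji
    exact hQ.2.1 i j (Ne.symm hji)
  · intro hi
    exact absurd (Finset.mem_univ i) hi

theorem nc_bl_pinch_mul_h (A : StarSubalgebra ℂ (H →L[ℂ] H)) (h : H →L[ℂ] H) {κ : Type*} [Fintype κ]
    (Q : κ → (H →L[ℂ] H)) (hQ : nc_IsPart A h Q) (x : H →L[ℂ] H) :
    nc_pinch Q x * h = nc_pinch Q x := by
  classical
  unfold nc_pinch
  rw [Finset.sum_mul]
  refine Finset.sum_congr rfl fun i _ => ?_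
  rw [mul_assoc, nc_bl_piece_mul_h A h Q hQ i]

/-- existence of the diagonal `b` as a WOT ultralimit of pinchings. -/
theorem nc_bl_diag_exists (M : VonNeumannAlgebra H) (A : StarSubalgebra ℂ (H →L[ℂ] H))
    (hA : nc_Masa M A) (h : H →L[ℂ] H) (hh : h ∈ A) (hp : IsStarProjection h)
    (x : H →L[ℂ] H) (hx : x ∈ M) (hxs : IsSelfAdjoint x) (hx1 : ‖x‖ ≤ 1)
    {n : ℕ} (P : Fin n → (H →L[ℂ] H)) (hP : nc_IsPart A h P) :
    ∃ (U : Ultrafilter (nc_bl_Idx A h P)) (b : H →L[ℂ] H),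
      b ∈ A ∧ IsSelfAdjoint b ∧ ‖b‖ ≤ 1 ∧ b * h = b ∧
      ∀ v w : H, Filter.Tendsto (fun q : nc_bl_Idx A h P => ⟪w, nc_pinch q.Q x v⟫_ℂ) U
        (nhds ⟪w, b v⟫_ℂ) := by
  have : IsDirected (nc_bl_Idx A h P) (· ≤ ·) := nc_bl_Idx_directed M A hA h P
  have : Nonempty (nc_bl_Idx A h P) := ⟨⟨n, P, hP, nc_bl_refines_refl A h P hP⟩⟩
  set U : Ultrafilter (nc_bl_Idx A h P) := Ultrafilter.of Filter.atTop with hU
  have hUle : (U : Filter (nc_bl_Idx A h P)) ≤ Filter.atTop := Ultrafilter.of_le _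
  obtain ⟨b, hb1, hb⟩ := nc_tk_ulim U (fun q : nc_bl_Idx A h P => nc_pinch q.Q x) 1
    (fun q => le_trans (nc_pinch_norm_le A h q.Q q.part x) hx1)
  have hTM : ∀ q : nc_bl_Idx A h P, nc_pinch q.Q x ∈ M := fun q =>
    nc_pinch_mem M q.Q (fun i => nc_masa_le M A hA (q.part.1 i).1) hx
  have hbM : b ∈ M := nc_tk_mem_of_wot M (U : Filter (nc_bl_Idx A h P)) _ b hTM hb
  have hTs : ∀ q : nc_bl_Idx A h P, IsSelfAdjoint (nc_pinch q.Q x) := fun q =>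
    nc_pinch_isSelfAdjoint q.Q (fun i => (q.part.1 i).2.isSelfAdjoint) hxs
  -- self-adjointness
  have hbs : IsSelfAdjoint b := by
    rw [ContinuousLinearMap.isSelfAdjoint_iff_isSymmetric]
    intro v w
    have h1 := hb w v
    have h2 : Filter.Tendsto (fun q : nc_bl_Idx A h P => ⟪v, nc_pinch q.Q x w⟫_ℂ) U
        (nhds ⟪b v, w⟫_ℂ) := by
      have h3 := (Complex.continuous_conj.tendsto _).comp (hb v w)
      have e1 : (starRingEnd ℂ) ⟪w, b v⟫_ℂ = ⟪b v, w⟫_ℂ := inner_conj_symm _ _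
      rw [e1] at h3
      refine h3.congr fun q => ?_
      simp only [Function.comp]
      rw [inner_conj_symm, nc_bl_inner_sa (hTs q)]
    exact tendsto_nhds_unique h2 h1
  -- commutation with the projections of `A`
  have hcomm : ∀ e ∈ A, IsStarProjection e → Commute b e := by
    intro e he hep
    obtain ⟨q0, _, hq0⟩ := nc_bl_Idx_refine M A hA h P ⟨n, P, hP, nc_bl_refines_refl A h P hP⟩ _
      (nc_bl_two_part M A hA h hh hp e he hep)
    have hev : ∀ᶠ q in (U : Filter (nc_bl_Idx A h P)), Commute e (nc_pinch q.Q x) := by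
      refine hUle (Filter.eventually_atTop.2 ⟨q0, fun q hq => ?_⟩)
      refine nc_pinch_commute_of_split q.Q e (fun i => ?_) x
      exact nc_bl_split M A hA h e he hep q.Q q.part (nc_bl_refines_trans hq hq0) i
    show b * e = e * b
    refine ContinuousLinearMap.ext fun v => ext_inner_left ℂ fun w => ?_
    have h1 := hb (e v) w
    have h2 : Filter.Tendsto (fun q : nc_bl_Idx A h P => ⟪w, nc_pinch q.Q x (e v)⟫_ℂ) U
        (nhds ⟪w, e (b v)⟫_ℂ) := by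
      have h3 := hb v (e w)
      rw [nc_bl_inner_sa hep.isSelfAdjoint] at h3
      refine h3.congr' ?_
      filter_upwards [hev] with q hq
      rw [nc_bl_inner_sa hep.isSelfAdjoint]
      have := congrArg (fun T : H →L[ℂ] H => T v) hq.eq
      simp only [mul_apply_eq_comp] at this
      exact congrArg _ this
    exact tendsto_nhds_unique h1 h2
  have hbA : b ∈ A := (hA b).2 ⟨hbM, nc_tk_commute_of_proj M A hA b hcomm⟩
  have hbh : b * h = b := by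
    refine ContinuousLinearMap.ext fun v => ext_inner_left ℂ fun w => ?_
    have h1 := hb (h v) w
    have h2 := hb v w
    refine tendsto_nhds_unique h1 (h2.congr fun q => ?_)
    have := congrArg (fun T : H →L[ℂ] H => T v) (nc_bl_pinch_mul_h A h q.Q q.part x)
    simp only [mul_apply_eq_comp] at this
    rw [this]
  exact ⟨U, b, hbA, hbs, hb1, hbh, hb⟩


/-- `T'` is WOT-weak continuous along the ultrafilter. -/
theorem nc_bl_T_tendsto {ι : Type*} [Fintype ι] (ξ : ι → H) (s : H →L[ℂ] H) {I : Type*}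
    (U : Filter I) (T : I → (H →L[ℂ] H)) (b : H →L[ℂ] H)
    (hb : ∀ v w : H, Filter.Tendsto (fun q => ⟪w, T q v⟫_ℂ) U (nhds ⟪w, b v⟫_ℂ))
    (η : PiLp 2 (fun _ : ι => H)) :
    Filter.Tendsto (fun q => ⟪η, nc_bl_T ξ s (T q)⟫_ℂ) U (nhds ⟪η, nc_bl_T ξ s b⟫_ℂ) := by
  simp only [PiLp.inner_apply, nc_bl_T_apply]
  refine tendsto_finsetSum _ fun k _ => ?_
  have h1 := hb (s (ξ k)) (ContinuousLinearMap.adjoint s (η k))
  simp only [ContinuousLinearMap.adjoint_inner_left] at h1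
  exact h1

/-- L7d.  a diagonal `b ∈ A` of `x` and a convex combination of pinchings (refining `P`) close to it after `z ↦ s z s ξ`. -/
theorem nc_diag_limit (M : VonNeumannAlgebra H) (A : StarSubalgebra ℂ (H →L[ℂ] H)) (hA : nc_Masa M A)
    (h : H →L[ℂ] H) (hh : h ∈ A) (hp : IsStarProjection h) {ι : Type*} [Fintype ι] (ξ : ι → H)
    (s : H →L[ℂ] H) (x : H →L[ℂ] H) (hx : x ∈ M) (hxs : IsSelfAdjoint x) (hx1 : ‖x‖ ≤ 1)
    {n : ℕ} (P : Fin n → (H →L[ℂ] H)) (hP : nc_IsPart A h P) (κ : ℝ) (hκ : 0 < κ) :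
    ∃ b ∈ A, IsSelfAdjoint b ∧ ‖b‖ ≤ 1 ∧ b * h = b ∧
      ∃ (d : ℕ) (t : Fin d → ℝ) (nn : Fin d → ℕ) (Q : (j : Fin d) → Fin (nn j) → (H →L[ℂ] H)),
        (∀ j, 0 ≤ t j) ∧ ∑ j, t j = 1 ∧ (∀ j, nc_IsPart A h (Q j) ∧ nc_Refines (Q j) P) ∧
        nc_sq ξ (s * (∑ j, (t j : ℂ) • nc_pinch (Q j) x - b) * s) ≤ κ := by
  obtain ⟨U, b, hbA, hbs, hb1, hbh, hb⟩ := nc_bl_diag_exists M A hA h hh hp x hx hxs hx1 P hP
  refine ⟨b, hbA, hbs, hb1, hbh, ?_⟩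
  set S : Set (PiLp 2 (fun _ : ι => H)) :=
    Set.range (fun q : nc_bl_Idx A h P => nc_bl_T ξ s (nc_pinch q.Q x)) with hS
  have hmem : nc_bl_T ξ s b ∈ closure (convexHull ℝ S) := by
    by_contra hcon
    obtain ⟨f, u, hf1, hf2⟩ := RCLike.geometric_hahn_banach_closed_point (𝕜 := ℂ)
      (convex_convexHull ℝ S).closure isClosed_closure hcon
    set η := (InnerProductSpace.toDual ℂ (PiLp 2 (fun _ : ι => H))).symm f with hη
    have hfη : ∀ y, f y = ⟪η, y⟫_ℂ := fun y => (InnerProductSpace.toDual_symm_apply).symm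
    have ht := nc_bl_T_tendsto ξ s (U : Filter (nc_bl_Idx A h P))
      (fun q : nc_bl_Idx A h P => nc_pinch q.Q x) b hb η
    have ht' := (Complex.continuous_re.tendsto _).comp ht
    have hle : (⟪η, nc_bl_T ξ s b⟫_ℂ).re ≤ u := by
      refine le_of_tendsto ht' (Filter.Eventually.of_forall fun q => ?_)
      have := hf1 (nc_bl_T ξ s (nc_pinch q.Q x))
        (subset_closure (subset_convexHull ℝ S ⟨q, rfl⟩))
      rw [hfη] at this
      exact this.le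
    rw [hfη] at hf2
    exact absurd hf2 (not_lt.2 hle)
  obtain ⟨y, hy, hyd⟩ := Metric.mem_closure_iff.1 hmem (Real.sqrt κ) (Real.sqrt_pos.2 hκ)
  obtain ⟨J, _, w, z, hw0, hw1, hz, hsum⟩ := mem_convexHull_iff_exists_fintype.1 hy
  choose q hq using hz
  set σ := (Fintype.equivFin J).symm with hσ
  refine ⟨Fintype.card J, fun j => w (σ j), fun j => (q (σ j)).card, fun j => (q (σ j)).Q,
    fun j => hw0 _, ?_, fun j => ⟨(q (σ j)).part, (q (σ j)).ref⟩, ?_⟩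
  · rw [Equiv.sum_comp σ w, hw1]
  · rw [← nc_bl_T_norm_sq, map_sub, map_sum]
    have e1 : ∑ j, nc_bl_T ξ s ((w (σ j) : ℂ) • nc_pinch (q (σ j)).Q x) = y := by
      rw [← hsum, Equiv.sum_comp σ (fun j => nc_bl_T ξ s ((w j : ℂ) • nc_pinch (q j).Q x))]
      refine Finset.sum_congr rfl fun j _ => ?_
      rw [map_smul, Complex.coe_smul, ← hq j]
    rw [e1]
    have h1 : ‖y - nc_bl_T ξ s b‖ < Real.sqrt κ := by
      rw [← dist_eq_norm, dist_comm]; exact hyd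
    calc ‖y - nc_bl_T ξ s b‖ ^ 2 ≤ Real.sqrt κ ^ 2 := by
          have := norm_nonneg (y - nc_bl_T ξ s b)
          gcongr
      _ = κ := Real.sq_sqrt hκ.le


/-! ### One partition -/

theorem nc_bl_norm_add_sq_le {V : Type*} [SeminormedAddCommGroup V] (a b : V) :
    ‖a + b‖ ^ 2 ≤ 2 * ‖a‖ ^ 2 + 2 * ‖b‖ ^ 2 := by
  have h1 := norm_add_le a b
  have h2 := norm_nonneg (a + b)
  nlinarith [sq_nonneg (‖a‖ - ‖b‖)]

theorem nc_bl_mul4 {a b c d : H →L[ℂ] H} (hbc : Commute b c) :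
    a * b * (c * d) = (a * c) * (b * d) := by
  rw [mul_assoc, ← mul_assoc b, hbc.eq, mul_assoc c, ← mul_assoc]

theorem nc_bl_h_mul_piece (A : StarSubalgebra ℂ (H →L[ℂ] H)) (h : H →L[ℂ] H) {κ : Type*} [Fintype κ]
    [DecidableEq κ] (Q : κ → (H →L[ℂ] H)) (hQ : nc_IsPart A h Q) (i : κ) : h * Q i = Q i := by
  rw [← hQ.2.2, Finset.sum_mul, Finset.sum_eq_single i]
  · exact (hQ.1 i).2.isIdempotentElem.eq
  · intro j _ hji
    exact hQ.2.1 j i hji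
  · intro hi
    exact absurd (Finset.mem_univ i) hi

theorem nc_bl_h_mul_pinch (A : StarSubalgebra ℂ (H →L[ℂ] H)) (h : H →L[ℂ] H) {κ : Type*} [Fintype κ]
    (Q : κ → (H →L[ℂ] H)) (hQ : nc_IsPart A h Q) (x : H →L[ℂ] H) :
    h * nc_pinch Q x = nc_pinch Q x := by
  classical
  unfold nc_pinch
  rw [Finset.mul_sum]
  refine Finset.sum_congr rfl fun i _ => ?_
  rw [← mul_assoc, ← mul_assoc, nc_bl_h_mul_piece A h Q hQ i]

/-- pieces of the coarser partition commute with the finer pinching. -/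
theorem nc_bl_commute_pinch (M : VonNeumannAlgebra H) (A : StarSubalgebra ℂ (H →L[ℂ] H))
    (hA : nc_Masa M A) (h : H →L[ℂ] H) {κ κ' : Type*} [Fintype κ] [Fintype κ']
    (P : κ → (H →L[ℂ] H)) (Q : κ' → (H →L[ℂ] H)) (hP : nc_IsPart A h P) (hQ : nc_IsPart A h Q)
    (hQP : nc_Refines Q P) (x : H →L[ℂ] H) (e : κ) : Commute (P e) (nc_pinch Q x) := by
  classical
  refine nc_pinch_commute_of_split Q (P e) (fun i => ?_) x
  have hcomm : Q i * P e = P e * Q i := (nc_masa_commute M A hA (hQ.1 i).1 (hP.1 e).1).eq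
  obtain ⟨e0, he0⟩ := hQP i
  by_cases hee : e = e0
  · subst hee
    exact Or.inl ⟨he0, hcomm.trans he0⟩
  · right
    have h2 : P e * Q i = 0 := by
      rw [← he0, ← mul_assoc, hP.2.1 e e0 hee, zero_mul]
    exact ⟨h2, hcomm.trans h2⟩

/-- the coarser pinching does not change a finer pinched operator. -/
theorem nc_bl_pinch_of_pinch (M : VonNeumannAlgebra H) (A : StarSubalgebra ℂ (H →L[ℂ] H))
    (hA : nc_Masa M A) (h : H →L[ℂ] H) {κ κ' : Type*} [Fintype κ] [Fintype κ']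
    (P : κ → (H →L[ℂ] H)) (Q : κ' → (H →L[ℂ] H)) (hP : nc_IsPart A h P) (hQ : nc_IsPart A h Q)
    (hQP : nc_Refines Q P) (x : H →L[ℂ] H) :
    ∑ e, P e * nc_pinch Q x * P e = nc_pinch Q x := by
  have h1 : ∀ e, P e * nc_pinch Q x * P e = P e * nc_pinch Q x := by
    intro e
    rw [mul_assoc, ← (nc_bl_commute_pinch M A hA h P Q hP hQ hQP x e).eq, ← mul_assoc,
      (hP.1 e).2.isIdempotentElem.eq]
  rw [Finset.sum_congr rfl fun e _ => h1 e, ← Finset.sum_mul, hP.2.2,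
    nc_bl_h_mul_pinch A h Q hQ x]

/-- gluing: below each piece `P e` use the partition `Q e`. -/
theorem nc_bl_glue (M : VonNeumannAlgebra H) (A : StarSubalgebra ℂ (H →L[ℂ] H))
    (hA : nc_Masa M A) (h : H →L[ℂ] H) {n : ℕ} (P : Fin n → (H →L[ℂ] H)) (hP : nc_IsPart A h P)
    (nn : Fin n → ℕ) (Q : (e : Fin n) → Fin (nn e) → (H →L[ℂ] H))
    (hQ : ∀ e, nc_IsPart A h (Q e)) :
    nc_IsPart A h (fun ei : (Σ e : Fin n, Fin (nn e)) => P ei.1 * Q ei.1 ei.2) ∧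
    nc_Refines (fun ei : (Σ e : Fin n, Fin (nn e)) => P ei.1 * Q ei.1 ei.2) P ∧
    ∀ x, nc_pinch (fun ei : (Σ e : Fin n, Fin (nn e)) => P ei.1 * Q ei.1 ei.2) x
      = ∑ e, P e * nc_pinch (Q e) x * P e := by
  have hc : ∀ e e' i, Commute (P e) (Q e' i) := fun e e' i =>
    nc_masa_commute M A hA (hP.1 e).1 ((hQ e').1 i).1
  refine ⟨⟨?_, ?_, ?_⟩, ?_, ?_⟩
  · rintro ⟨e, i⟩
    exact ⟨A.mul_mem (hP.1 e).1 ((hQ e).1 i).1, (hP.1 e).2.mul ((hQ e).1 i).2 (hc e e i)⟩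
  · rintro ⟨e, i⟩ ⟨e', i'⟩ hne
    show P e * Q e i * (P e' * Q e' i') = 0
    rw [nc_bl_mul4 (hc e' e i).symm]
    by_cases hee : e = e'
    · subst hee
      have hii : i ≠ i' := fun hii => hne (by rw [hii])
      rw [(hQ e).2.1 i i' hii, mul_zero]
    · rw [hP.2.1 e e' hee, zero_mul]
  · rw [Fintype.sum_sigma]
    have : ∀ e, ∑ i, P e * Q e i = P e := by
      intro e
      rw [← Finset.mul_sum, (hQ e).2.2, nc_bl_piece_mul_h A h P hP e]
    rw [Finset.sum_congr rfl fun e _ => this e, hP.2.2]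
  · rintro ⟨e, i⟩
    refine ⟨e, ?_⟩
    show P e * (P e * Q e i) = P e * Q e i
    rw [← mul_assoc, (hP.1 e).2.isIdempotentElem.eq]
  · intro x
    unfold nc_pinch
    rw [Fintype.sum_sigma]
    refine Finset.sum_congr rfl fun e _ => ?_
    rw [Finset.mul_sum, Finset.sum_mul]
    refine Finset.sum_congr rfl fun i _ => ?_
    calc P e * Q e i * x * (P e * Q e i) = P e * Q e i * x * (Q e i * P e) := by
          congr 1
          exact (hc e e i).eq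
      _ = P e * (Q e i * x * Q e i) * P e := by simp only [mul_assoc]


/-- L7e'.  one partition `R` refining `P` whose pinching of `x` is close to `b`. -/
theorem nc_one_partition (M : VonNeumannAlgebra H) (A : StarSubalgebra ℂ (H →L[ℂ] H)) (hA : nc_Masa M A)
    (h : H →L[ℂ] H) (hh : h ∈ A) (hp : IsStarProjection h) {ι : Type*} [Fintype ι] (ξ : ι → H)
    (s : H →L[ℂ] H) (hsM : s ∈ M) (hs0 : 0 ≤ s) (hsh : s ≤ h)
    (x : H →L[ℂ] H) (hx : x ∈ M) (hxs : IsSelfAdjoint x) (hx1 : ‖x‖ ≤ 1)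
    {n : ℕ} (P : Fin n → (H →L[ℂ] H)) (hP : nc_IsPart A h P) (β : ℝ) (hβ : nc_pinch P s ≤ β • h)
    (κ : ℝ) (hκ : 0 < κ) :
    ∃ b ∈ A, IsSelfAdjoint b ∧ ‖b‖ ≤ 1 ∧ b * h = b ∧
      ∃ (k : ℕ) (R : Fin k → (H →L[ℂ] H)), nc_IsPart A h R ∧ nc_Refines R P ∧
        nc_sq ξ (s * (nc_pinch R x - b) * s) ≤ 2 * κ + 2 * β * nc_sq ξ s := by
  obtain ⟨b, hbA, hbs, hb1, hbh, d, t, nn, Q, ht0, ht1, hQ, hclose⟩ :=
    nc_diag_limit M A hA h hh hp ξ s x hx hxs hx1 P hP κ hκ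
  refine ⟨b, hbA, hbs, hb1, hbh, ?_⟩
  obtain ⟨σ, hσ⟩ := nc_select
    (fun (e : Fin n) (j : Fin d) => nc_bl_T ξ s (P e * nc_pinch (Q j) x * P e)) t ht0 ht1
  obtain ⟨g1, g2, g3⟩ := nc_bl_glue M A hA h P hP (fun e => nn (σ e)) (fun e => Q (σ e))
    (fun e => (hQ (σ e)).1)
  obtain ⟨k, τ, r1, r2, r3⟩ := nc_part_reindex A h _ g1
  refine ⟨k, _, r1, nc_bl_refines_trans r2 g2, ?_⟩
  rw [r3 x, g3 x, ← nc_bl_T_norm_sq]
  -- the averaged operator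
  have e1 : ∑ e, ∑ j, (t j : ℂ) • nc_bl_T ξ s (P e * nc_pinch (Q j) x * P e)
      = nc_bl_T ξ s (∑ j, (t j : ℂ) • nc_pinch (Q j) x) := by
    rw [Finset.sum_comm, map_sum]
    refine Finset.sum_congr rfl fun j _ => ?_
    rw [← Finset.smul_sum, ← map_sum, nc_bl_pinch_of_pinch M A hA h P (Q j) hP (hQ j).1 (hQ j).2 x,
      map_smul]
  have e2 : ∑ e, nc_bl_T ξ s (P e * nc_pinch (Q (σ e)) x * P e)
      = nc_bl_T ξ s (∑ e, P e * nc_pinch (Q (σ e)) x * P e) := by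
    rw [map_sum]
  rw [e1, e2] at hσ
  -- the variance bound
  have hvar : ∑ e, ∑ j, t j * ‖nc_bl_T ξ s (P e * nc_pinch (Q j) x * P e)‖ ^ 2
      ≤ β * nc_sq ξ s := by
    rw [Finset.sum_comm]
    have h1 : ∀ j, ∑ e, t j * ‖nc_bl_T ξ s (P e * nc_pinch (Q j) x * P e)‖ ^ 2
        ≤ t j * (β * nc_sq ξ s) := by
      intro j
      rw [← Finset.mul_sum]
      refine mul_le_mul_of_nonneg_left ?_ (ht0 j)
      have h2 := nc_block_diag A h P hP s hs0 hsh hp β hβ (fun _ => nc_pinch (Q j) x) 1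
        (fun _ => le_trans (nc_pinch_norm_le A h (Q j) (hQ j).1 x) hx1) ξ
      have h3 : ∑ e, ‖nc_bl_T ξ s (P e * nc_pinch (Q j) x * P e)‖ ^ 2
          = ∑ e, nc_sq ξ (s * P e * nc_pinch (Q j) x * P e * s) := by
        refine Finset.sum_congr rfl fun e _ => ?_
        rw [nc_bl_T_norm_sq]
        simp only [mul_assoc]
      rw [h3]
      simpa using h2
    calc ∑ j, ∑ e, t j * ‖nc_bl_T ξ s (P e * nc_pinch (Q j) x * P e)‖ ^ 2
        ≤ ∑ j, t j * (β * nc_sq ξ s) := Finset.sum_le_sum fun j _ => h1 j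
      _ = β * nc_sq ξ s := by rw [← Finset.sum_mul, ht1, one_mul]
  rw [← nc_bl_T_norm_sq] at hclose
  have e3 : nc_bl_T ξ s (∑ e, P e * nc_pinch (Q (σ e)) x * P e - b)
      = (nc_bl_T ξ s (∑ e, P e * nc_pinch (Q (σ e)) x * P e)
          - nc_bl_T ξ s (∑ j, (t j : ℂ) • nc_pinch (Q j) x))
        + nc_bl_T ξ s (∑ j, (t j : ℂ) • nc_pinch (Q j) x - b) := by
    rw [map_sub, map_sub]
    abel
  rw [e3]
  refine le_trans (nc_bl_norm_add_sq_le _ _) ?_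
  have := le_trans hσ hvar
  linarith

/-- `nc_sq ξ s ≤ ∑ ‖ξ_k‖²` for `0 ≤ s ≤ h`. -/
theorem nc_bl_sq_le_total {s h : H →L[ℂ] H} (hs0 : 0 ≤ s) (hsh : s ≤ h) (hp : IsStarProjection h)
    {ι : Type*} [Fintype ι] (ξ : ι → H) : nc_sq ξ s ≤ ∑ k, ‖ξ k‖ ^ 2 := by
  unfold nc_sq
  refine Finset.sum_le_sum fun k _ => ?_
  calc ‖s (ξ k)‖ ^ 2 ≤ (⟪ξ k, s (ξ k)⟫_ℂ).re := nc_bl_norm_sq_le hs0 hsh hp _
    _ ≤ (⟪ξ k, h (ξ k)⟫_ℂ).re := nc_bl_le_inner hsh _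
    _ = ‖h (ξ k)‖ ^ 2 := nc_bl_proj_norm_sq hp _
    _ ≤ ‖ξ k‖ ^ 2 := by
        have := nc_bl_proj_norm_le hp (ξ k)
        gcongr

/-- L7e.  For every tolerance `τ` there is `β` such that small diagonal `≤ β` allows an `r`-colouring. -/
theorem nc_color (M : VonNeumannAlgebra H) (A : StarSubalgebra ℂ (H →L[ℂ] H)) (hA : nc_Masa M A)
    (h : H →L[ℂ] H) (hh : h ∈ A) (hp : IsStarProjection h) {ι : Type*} [Fintype ι] (ξ : ι → H)
    (τ : ℝ) (hτ : 0 < τ) :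
    ∃ β : ℝ, 0 < β ∧ ∀ (n : ℕ) (P : Fin n → (H →L[ℂ] H)), nc_IsPart A h P →
      ∀ s ∈ M, 0 ≤ s → s ≤ h → nc_pinch P s ≤ β • h →
      ∀ x ∈ M, IsSelfAdjoint x → ‖x‖ ≤ 1 → ∀ r : ℕ, 0 < r →
        ∃ p : Fin r → (H →L[ℂ] H), nc_IsPart A h p ∧ ∃ b ∈ A, IsSelfAdjoint b ∧ ‖b‖ ≤ 1 ∧ b * h = b ∧
          nc_sq ξ (s * (nc_pinch p x - (1 - 1 / (r : ℂ)) • b - (1 / (r : ℂ)) • x) * s) ≤ τ := by
  set X0 : ℝ := ∑ k, ‖ξ k‖ ^ 2 with hX0
  have hX0nn : 0 ≤ X0 := Finset.sum_nonneg fun _ _ => sq_nonneg _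
  refine ⟨τ / (16 * (X0 + 1)), by positivity, ?_⟩
  intro n P hP s hsM hs0 hsh hβ x hx hxs hx1 r hr
  set β : ℝ := τ / (16 * (X0 + 1)) with hβdef
  have hβpos : 0 < β := by positivity
  obtain ⟨b, hbA, hbs, hb1, hbh, k, R, hR, hRP, hclose⟩ :=
    nc_one_partition M A hA h hh hp ξ s hsM hs0 hsh x hx hxs hx1 P hP β hβ (τ / 8) (by positivity)
  have hβR : nc_pinch R s ≤ β • h := nc_small_diag_refine A h P R hP hR hRP s β hβ
  obtain ⟨c, hc⟩ := nc_colour_partition A h hp ξ s hs0 hsh x hx1 R hR β hβR r hr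
  refine ⟨nc_class R c, (nc_class_isPart A h R hR c).1, b, hbA, hbs, hb1, hbh, ?_⟩
  rw [← nc_bl_T_norm_sq] at hclose hc ⊢
  have e1 : nc_bl_T ξ s (nc_pinch (nc_class R c) x - (1 - 1 / (r : ℂ)) • b - (1 / (r : ℂ)) • x)
      = nc_bl_T ξ s (nc_pinch (nc_class R c) x - (1 / (r : ℂ)) • x
          - (1 - 1 / (r : ℂ)) • nc_pinch R x)
        + (1 - 1 / (r : ℂ)) • nc_bl_T ξ s (nc_pinch R x - b) := by
    rw [← map_smul, ← map_add]
    congr 1
    rw [smul_sub]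
    abel
  rw [e1]
  refine le_trans (nc_bl_norm_add_sq_le _ _) ?_
  have hr1 : (1 : ℝ) ≤ r := by exact_mod_cast hr
  have hcoef : ‖(1 - 1 / (r : ℂ))‖ ≤ 1 := by
    have : (1 - 1 / (r : ℂ)) = ((1 - 1 / (r : ℝ) : ℝ) : ℂ) := by push_cast; ring
    rw [this, Complex.norm_real, Real.norm_eq_abs, abs_le]
    have h1 : 0 < 1 / (r : ℝ) := by positivity
    have h2 : 1 / (r : ℝ) ≤ 1 := by
      rw [div_le_one (by linarith)]; exact hr1
    constructor <;> linarith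
  have h2 : ‖(1 - 1 / (r : ℂ)) • nc_bl_T ξ s (nc_pinch R x - b)‖ ^ 2
      ≤ ‖nc_bl_T ξ s (nc_pinch R x - b)‖ ^ 2 := by
    rw [norm_smul]
    have h3 := norm_nonneg (nc_bl_T ξ s (nc_pinch R x - b))
    have h4 : ‖(1 - 1 / (r : ℂ))‖ * ‖nc_bl_T ξ s (nc_pinch R x - b)‖
        ≤ ‖nc_bl_T ξ s (nc_pinch R x - b)‖ := by
      nlinarith [norm_nonneg (1 - 1 / (r : ℂ))]
    have h5 : 0 ≤ ‖(1 - 1 / (r : ℂ))‖ * ‖nc_bl_T ξ s (nc_pinch R x - b)‖ := by positivity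
    gcongr
  have hX : nc_sq ξ s ≤ X0 := nc_bl_sq_le_total hs0 hsh hp ξ
  have hXnn := nc_bl_nc_sq_nonneg ξ s
  have h6 : 2 / (r : ℝ) * β * nc_sq ξ s ≤ 2 * β * X0 := by
    have h7 : 2 / (r : ℝ) ≤ 2 := by
      rw [div_le_iff₀ (by linarith)]; linarith
    have h8 : 2 / (r : ℝ) * β ≤ 2 * β := mul_le_mul_of_nonneg_right h7 hβpos.le
    calc 2 / (r : ℝ) * β * nc_sq ξ s ≤ 2 * β * nc_sq ξ s := mul_le_mul_of_nonneg_right h8 hXnn
      _ ≤ 2 * β * X0 := mul_le_mul_of_nonneg_left hX (by positivity)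
  have h9 : 2 * β * nc_sq ξ s ≤ 2 * β * X0 := mul_le_mul_of_nonneg_left hX (by positivity)
  have h10 : β * X0 ≤ τ / 16 := by
    rw [hβdef, div_mul_eq_mul_div, div_le_div_iff₀ (by positivity) (by norm_num)]
    nlinarith
  linarith

end Claimed.Agent.R302
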