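/-
R302 / NC / L2 : the ultrafilter limit `theta` of `chi ∘ pinch_P` along refinement of the finite partitions of `1` in `A`.
Proof: index type = Σ n, {P : Fin n → _ // nc_IsPart A 1 P}, preorder by `nc_Refines`, directed by `nc_common_refinement`;
U := an ultrafilter finer than `atTop`; theta z := limit along U of the bounded function P ↦ nc_chi ξ (nc_pinch P z).
Centrality: for P refining {e, 1-e}: pinch_P (e z) = e pinch_P z = pinch_P z e = pinch_P (z e).
-/
import Claimed.Agent.R302.NC.Pinch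

set_option autoImplicit false
set_option linter.unusedSectionVars false
set_option linter.style.haveILetI false

open scoped InnerProductSpace ComplexOrder

-- with `ComplexOrder` in scope this instance hijacks `Inner ℂ H`
attribute [-instance] WithCStarModule.instCStarModuleComplex

namespace Claimed.Agent.R302

variable {H : Type*} [NormedAddCommGroup H] [InnerProductSpace ℂ H] [CompleteSpace H]

/-- the index type of all finite partitions of `1` in `A`. -/
def nc_PartIdx (A : StarSubalgebra ℂ (H →L[ℂ] H)) : Type _ :=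
  Σ n : ℕ, {P : Fin n → (H →L[ℂ] H) // nc_IsPart A 1 P}

theorem nc_refines_refl (A : StarSubalgebra ℂ (H →L[ℂ] H)) (h : H →L[ℂ] H) {κ : Type*} [Fintype κ]
    (P : κ → (H →L[ℂ] H)) (hP : nc_IsPart A h P) : nc_Refines P P :=
  fun j => ⟨j, (hP.1 j).2.isIdempotentElem.eq⟩

theorem nc_refines_trans {κ κ' κ'' : Type*} {P : κ → (H →L[ℂ] H)} {Q : κ' → (H →L[ℂ] H)}
    {R : κ'' → (H →L[ℂ] H)} (hRQ : nc_Refines R Q) (hQP : nc_Refines Q P) : nc_Refines R P := by
  intro k
  obtain ⟨j, hj⟩ := hRQ k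
  obtain ⟨i, hi⟩ := hQP j
  exact ⟨i, by rw [← hj, ← mul_assoc, hi]⟩

instance nc_PartIdx.instPreorder (A : StarSubalgebra ℂ (H →L[ℂ] H)) : Preorder (nc_PartIdx A) where
  le P Q := nc_Refines Q.2.1 P.2.1
  le_refl P := nc_refines_refl A 1 P.2.1 P.2.2
  le_trans _ _ _ h1 h2 := nc_refines_trans h2 h1

theorem nc_trivial_part (A : StarSubalgebra ℂ (H →L[ℂ] H)) :
    nc_IsPart A 1 (fun _ : Fin 1 => (1 : H →L[ℂ] H)) := by
  refine ⟨fun _ => ⟨one_mem A, IsStarProjection.one _⟩, fun i j hij => ?_, by simp⟩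
  exact absurd (Subsingleton.elim i j) hij

instance nc_PartIdx.instNonempty (A : StarSubalgebra ℂ (H →L[ℂ] H)) : Nonempty (nc_PartIdx A) :=
  ⟨⟨1, ⟨fun _ => 1, nc_trivial_part A⟩⟩⟩

theorem nc_PartIdx.directed (M : VonNeumannAlgebra H) (A : StarSubalgebra ℂ (H →L[ℂ] H))
    (hA : nc_Masa M A) : IsDirected (nc_PartIdx A) (· ≤ ·) := by
  refine ⟨fun P Q => ?_⟩
  obtain ⟨h1, h2, h3⟩ := nc_common_refinement M A hA 1 P.2.1 Q.2.1 P.2.2 Q.2.2
  obtain ⟨n, σ, h4, h5, -⟩ := nc_part_reindex A 1 _ h1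
  exact ⟨⟨n, ⟨_, h4⟩⟩, nc_refines_trans h5 h2, nc_refines_trans h5 h3⟩

theorem nc_chi_add {ι : Type*} [Fintype ι] (ξ : ι → H) (z w : H →L[ℂ] H) :
    nc_chi ξ (z + w) = nc_chi ξ z + nc_chi ξ w := by
  simp [nc_chi, inner_add_right, Finset.sum_add_distrib]

theorem nc_chi_smul {ι : Type*} [Fintype ι] (ξ : ι → H) (c : ℂ) (z : H →L[ℂ] H) :
    nc_chi ξ (c • z) = c * nc_chi ξ z := by
  simp [nc_chi, inner_smul_right, Finset.mul_sum]

theorem nc_chi_norm_le {ι : Type*} [Fintype ι] (ξ : ι → H) (z : H →L[ℂ] H) :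
    ‖nc_chi ξ z‖ ≤ ‖z‖ * ∑ k, ‖ξ k‖ ^ 2 := by
  rw [nc_chi, Finset.mul_sum]
  refine (norm_sum_le _ _).trans (Finset.sum_le_sum fun k _ => ?_)
  calc ‖⟪ξ k, z (ξ k)⟫_ℂ‖ ≤ ‖ξ k‖ * ‖z (ξ k)‖ := norm_inner_le_norm _ _
    _ ≤ ‖ξ k‖ * (‖z‖ * ‖ξ k‖) := by gcongr; exact z.le_opNorm _
    _ = ‖z‖ * ‖ξ k‖ ^ 2 := by ring

theorem nc_chi_nonneg {ι : Type*} [Fintype ι] (ξ : ι → H) {z : H →L[ℂ] H} (hz : 0 ≤ z) :
    0 ≤ nc_chi ξ z := by
  rw [nc_chi]
  refine Finset.sum_nonneg fun k _ => ?_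
  have hpos : z.IsPositive := (ContinuousLinearMap.nonneg_iff_isPositive z).1 hz
  exact hpos.inner_nonneg_right (ξ k)

theorem nc_pinch_add {κ : Type*} [Fintype κ] (p : κ → (H →L[ℂ] H)) (z w : H →L[ℂ] H) :
    nc_pinch p (z + w) = nc_pinch p z + nc_pinch p w := by
  simp [nc_pinch, mul_add, add_mul, Finset.sum_add_distrib]

theorem nc_pinch_smul {κ : Type*} [Fintype κ] (p : κ → (H →L[ℂ] H)) (c : ℂ) (z : H →L[ℂ] H) :
    nc_pinch p (c • z) = c • nc_pinch p z := by
  simp [nc_pinch, Finset.smul_sum]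

theorem nc_pinch_nonneg {κ : Type*} [Fintype κ] (p : κ → (H →L[ℂ] H))
    (hp : ∀ i, IsSelfAdjoint (p i)) {z : H →L[ℂ] H} (hz : 0 ≤ z) : 0 ≤ nc_pinch p z := by
  have := nc_pinch_mono p hp hz
  simpa [nc_pinch] using this

theorem nc_theta_exists (M : VonNeumannAlgebra H) (A : StarSubalgebra ℂ (H →L[ℂ] H)) (hA : nc_Masa M A)
    {ι : Type*} [Fintype ι] (ξ : ι → H) :
    ∃ θ : (H →L[ℂ] H) →ₚ[ℂ] ℂ,
      (∀ e ∈ A, IsStarProjection e → ∀ z, θ (e * z) = θ (z * e)) ∧
      (∀ (z : H →L[ℂ] H) (α : ℝ), 0 < α → ∃ (n : ℕ) (P : Fin n → (H →L[ℂ] H)), nc_IsPart A 1 P ∧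
        ‖nc_chi ξ (nc_pinch P z) - θ z‖ < α) := by
  classical
  haveI := nc_PartIdx.directed M A hA
  let U : Ultrafilter (nc_PartIdx A) := Ultrafilter.of Filter.atTop
  have hU : (U : Filter (nc_PartIdx A)) ≤ Filter.atTop := Ultrafilter.of_le _
  let f : (H →L[ℂ] H) → nc_PartIdx A → ℂ := fun z P => nc_chi ξ (nc_pinch P.2.1 z)
  have hbd : ∀ z P, ‖f z P‖ ≤ ‖z‖ * ∑ k, ‖ξ k‖ ^ 2 := fun z P =>
    (nc_chi_norm_le ξ _).trans (mul_le_mul_of_nonneg_right (nc_pinch_norm_le A 1 P.2.1 P.2.2 z)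
      (Finset.sum_nonneg fun k _ => by positivity))
  have hex : ∀ z, ∃ c, Filter.Tendsto (f z) U (nhds c) := by
    intro z
    have hc : IsCompact (Metric.closedBall (0 : ℂ) (‖z‖ * ∑ k, ‖ξ k‖ ^ 2)) :=
      isCompact_closedBall _ _
    have hmem : (U.map (f z) : Filter ℂ) ≤ Filter.principal
        (Metric.closedBall (0 : ℂ) (‖z‖ * ∑ k, ‖ξ k‖ ^ 2)) := by
      rw [Filter.le_principal_iff, Ultrafilter.coe_map, Filter.mem_map]
      refine Filter.Eventually.of_forall fun P => ?_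
      simpa using hbd z P
    obtain ⟨c, -, hc'⟩ := hc.ultrafilter_le_nhds (U.map (f z)) hmem
    exact ⟨c, hc'⟩
  choose t ht using hex
  let θl : (H →L[ℂ] H) →ₗ[ℂ] ℂ :=
    { toFun := t
      map_add' := fun z w => by
        refine tendsto_nhds_unique (ht (z + w)) ?_
        have : f (z + w) = fun P => f z P + f w P := by
          funext P; simp only [f, nc_pinch_add, nc_chi_add]
        rw [this]; exact (ht z).add (ht w)
      map_smul' := fun c z => by
        refine tendsto_nhds_unique (ht (c • z)) ?_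
        have : f (c • z) = fun P => c * f z P := by
          funext P; simp only [f, nc_pinch_smul, nc_chi_smul]
        rw [this]; exact (ht z).const_mul c }
  have hpos : ∀ z : H →L[ℂ] H, 0 ≤ z → 0 ≤ θl z := by
    intro z hz
    refine ge_of_tendsto' (ht z) fun P => ?_
    exact nc_chi_nonneg ξ (nc_pinch_nonneg _ (fun i => (P.2.2.1 i).2.isSelfAdjoint) hz)
  refine ⟨PositiveLinearMap.mk₀ θl hpos, ?_, ?_⟩
  · intro e he hep z
    change t (e * z) = t (z * e)
    refine tendsto_nhds_unique (ht (e * z)) ?_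
    refine (ht (z * e)).congr' ?_
    -- the two-piece partition
    have h2 : nc_IsPart A 1 (fun i : Fin 2 => if i = 0 then e else 1 - e) := by
      refine ⟨fun i => ?_, fun i j hij => ?_, ?_⟩
      · by_cases hi : i = 0
        · simpa [hi] using And.intro he hep
        · simpa [hi] using And.intro (sub_mem (one_mem A) he) hep.one_sub
      · fin_cases i <;> fin_cases j <;> simp_all [hep.mul_one_sub_self, hep.one_sub_mul_self]
      · simp [Fin.sum_univ_two]
    let P₀ : nc_PartIdx A := ⟨2, ⟨_, h2⟩⟩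
    have hev : ∀ᶠ P in (U : Filter (nc_PartIdx A)), P₀ ≤ P := hU (Filter.eventually_ge_atTop P₀)
    filter_upwards [hev] with P hP
    have hcomm : ∀ i, Commute e (P.2.1 i) := fun i => nc_masa_commute M A hA he (P.2.2.1 i).1
    have hsplit : ∀ i, (e * P.2.1 i = P.2.1 i ∧ P.2.1 i * e = P.2.1 i) ∨
        (e * P.2.1 i = 0 ∧ P.2.1 i * e = 0) := by
      intro i
      obtain ⟨j, hj⟩ := hP i
      by_cases hj0 : j = 0
      · left
        have h3 : e * P.2.1 i = P.2.1 i := by simpa [P₀, hj0] using hj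
        exact ⟨h3, by rw [← (hcomm i).eq, h3]⟩
      · right
        have h3 : (1 - e) * P.2.1 i = P.2.1 i := by simpa [P₀, hj0] using hj
        have h4 : e * P.2.1 i = 0 := by
          rw [sub_mul, one_mul] at h3
          simpa using h3
        exact ⟨h4, by rw [← (hcomm i).eq, h4]⟩
    simp only [f]
    rw [nc_pinch_mul_right _ e hcomm, nc_pinch_mul_left _ e hcomm,
      (nc_pinch_commute_of_split _ e hsplit z).eq]
  · intro z α hα
    have hev : ∀ᶠ P in (U : Filter (nc_PartIdx A)), ‖f z P - t z‖ < α := by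
      have := (ht z).eventually (Metric.ball_mem_nhds (t z) hα)
      simpa [Metric.mem_ball, dist_eq_norm] using this
    obtain ⟨P, hP⟩ := hev.exists
    exact ⟨P.1, P.2.1, P.2.2, hP⟩

end Claimed.Agent.R302
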