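/-
R302 / NC : API for `nc_chi` and `nc_sq` (owner helper7).  More basic facts are in NC/Theta.lean
(`nc_chi_add`, `nc_chi_smul`, `nc_chi_norm_le`, `nc_chi_nonneg`, `nc_pinch_add`, `nc_pinch_smul`, `nc_pinch_nonneg`).
-/
import Claimed.Agent.R302.NC.Theta
import Claimed.Agent.R302.NC.Tool

set_option autoImplicit false
set_option linter.unusedSectionVars false

open scoped InnerProductSpace ComplexOrder

-- with `ComplexOrder` in scope this instance hijacks `Inner ℂ H`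
attribute [-instance] WithCStarModule.instCStarModuleComplex

namespace Claimed.Agent.R302

variable {H : Type*} [NormedAddCommGroup H] [InnerProductSpace ℂ H] [CompleteSpace H]
variable {ι : Type*} [Fintype ι] (ξ : ι → H)

theorem nc_chi_zero : nc_chi ξ 0 = 0 := by simp [nc_chi]

theorem nc_chi_neg (z : H →L[ℂ] H) : nc_chi ξ (-z) = - nc_chi ξ z := by
  simp [nc_chi]

theorem nc_chi_sub (z w : H →L[ℂ] H) : nc_chi ξ (z - w) = nc_chi ξ z - nc_chi ξ w := by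
  rw [sub_eq_add_neg, nc_chi_add, nc_chi_neg, sub_eq_add_neg]

theorem nc_chi_sum {κ : Type*} (s : Finset κ) (z : κ → (H →L[ℂ] H)) :
    nc_chi ξ (∑ i ∈ s, z i) = ∑ i ∈ s, nc_chi ξ (z i) := by
  classical
  induction s using Finset.induction_on with
  | empty => simp [nc_chi_zero]
  | insert a s ha ih => rw [Finset.sum_insert ha, Finset.sum_insert ha, nc_chi_add, ih]

theorem nc_chi_real_smul (c : ℝ) (z : H →L[ℂ] H) : nc_chi ξ (c • z) = (c : ℂ) * nc_chi ξ z := by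
  have : c • z = (c : ℂ) • z := (Complex.coe_smul c z).symm
  rw [this, nc_chi_smul]

theorem nc_chi_mono {z w : H →L[ℂ] H} (h : z ≤ w) : nc_chi ξ z ≤ nc_chi ξ w := by
  have := nc_chi_nonneg ξ (sub_nonneg.2 h)
  rw [nc_chi_sub] at this
  exact sub_nonneg.1 this

theorem nc_chi_mono_re {z w : H →L[ℂ] H} (h : z ≤ w) : (nc_chi ξ z).re ≤ (nc_chi ξ w).re :=
  (Complex.le_def.1 (nc_chi_mono ξ h)).1

theorem nc_chi_star_mul_self (T : H →L[ℂ] H) : nc_chi ξ (star T * T) = (nc_sq ξ T : ℂ) := by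
  simp only [nc_chi, nc_sq, Complex.ofReal_sum]
  refine Finset.sum_congr rfl fun k _ => ?_
  have h1 : (star T * T) (ξ k) = (ContinuousLinearMap.adjoint T) (T (ξ k)) := rfl
  rw [h1, ContinuousLinearMap.adjoint_inner_right, inner_self_eq_norm_sq_to_K]
  norm_cast

theorem nc_chi_proj {p : H →L[ℂ] H} (hp : IsStarProjection p) : nc_chi ξ p = (nc_sq ξ p : ℂ) := by
  rw [← nc_chi_star_mul_self, hp.isSelfAdjoint.star_eq, hp.isIdempotentElem.eq]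

theorem nc_sq_nonneg (T : H →L[ℂ] H) : 0 ≤ nc_sq ξ T :=
  Finset.sum_nonneg fun _ _ => by positivity

theorem nc_sq_zero : nc_sq ξ 0 = 0 := by simp [nc_sq]

theorem nc_sq_neg (T : H →L[ℂ] H) : nc_sq ξ (-T) = nc_sq ξ T := by simp [nc_sq]

theorem nc_sq_comp (S T : H →L[ℂ] H) : nc_sq (fun k => T (ξ k)) S = nc_sq ξ (S * T) := rfl

theorem nc_sq_mul_le (a T : H →L[ℂ] H) : nc_sq ξ (a * T) ≤ ‖a‖ ^ 2 * nc_sq ξ T := by
  rw [nc_sq, nc_sq, Finset.mul_sum]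
  refine Finset.sum_le_sum fun k _ => ?_
  rw [← mul_pow]
  exact pow_le_pow_left₀ (norm_nonneg _) (a.le_opNorm _) 2

theorem nc_sq_mul_le_of_norm_le_one {a : H →L[ℂ] H} (ha : ‖a‖ ≤ 1) (T : H →L[ℂ] H) :
    nc_sq ξ (a * T) ≤ nc_sq ξ T := by
  refine (nc_sq_mul_le ξ a T).trans ?_
  have : ‖a‖ ^ 2 ≤ 1 := pow_le_one₀ (norm_nonneg _) ha
  nlinarith [nc_sq_nonneg ξ T]

theorem nc_sq_le_norm (T : H →L[ℂ] H) : nc_sq ξ T ≤ ‖T‖ ^ 2 * nc_sq ξ 1 := by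
  simpa using nc_sq_mul_le ξ T 1

theorem nc_sq_smul (c : ℂ) (T : H →L[ℂ] H) : nc_sq ξ (c • T) = ‖c‖ ^ 2 * nc_sq ξ T := by
  simp [nc_sq, norm_smul, mul_pow, Finset.mul_sum]

theorem nc_sq_add_le (S T : H →L[ℂ] H) : nc_sq ξ (S + T) ≤ 2 * nc_sq ξ S + 2 * nc_sq ξ T := by
  simp only [nc_sq, Finset.mul_sum, ← Finset.sum_add_distrib]
  refine Finset.sum_le_sum fun k _ => ?_
  have h1 : ‖(S + T) (ξ k)‖ ≤ ‖S (ξ k)‖ + ‖T (ξ k)‖ := by
    simpa using norm_add_le (S (ξ k)) (T (ξ k))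
  have h2 : ‖(S + T) (ξ k)‖ ^ 2 ≤ (‖S (ξ k)‖ + ‖T (ξ k)‖) ^ 2 :=
    pow_le_pow_left₀ (norm_nonneg _) h1 2
  nlinarith [sq_nonneg (‖S (ξ k)‖ - ‖T (ξ k)‖)]

theorem nc_sq_sub_le (S T : H →L[ℂ] H) : nc_sq ξ (S - T) ≤ 2 * nc_sq ξ S + 2 * nc_sq ξ T := by
  rw [sub_eq_add_neg]
  simpa [nc_sq_neg] using nc_sq_add_le ξ S (-T)

/-- Minkowski. -/
theorem nc_sqrt_sq_add_le (S T : H →L[ℂ] H) :
    Real.sqrt (nc_sq ξ (S + T)) ≤ Real.sqrt (nc_sq ξ S) + Real.sqrt (nc_sq ξ T) := by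
  have key : nc_sq ξ (S + T) ≤ (Real.sqrt (nc_sq ξ S) + Real.sqrt (nc_sq ξ T)) ^ 2 := by
    have hcs : ∑ k, ‖S (ξ k)‖ * ‖T (ξ k)‖ ≤ Real.sqrt (nc_sq ξ S) * Real.sqrt (nc_sq ξ T) :=
      Real.sum_mul_le_sqrt_mul_sqrt _ _ _
    have h1 : nc_sq ξ (S + T) ≤ nc_sq ξ S + 2 * ∑ k, ‖S (ξ k)‖ * ‖T (ξ k)‖ + nc_sq ξ T := by
      simp only [nc_sq, Finset.mul_sum, ← Finset.sum_add_distrib]
      refine Finset.sum_le_sum fun k _ => ?_
      have h1 : ‖(S + T) (ξ k)‖ ≤ ‖S (ξ k)‖ + ‖T (ξ k)‖ := by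
        simpa using norm_add_le (S (ξ k)) (T (ξ k))
      have h2 : ‖(S + T) (ξ k)‖ ^ 2 ≤ (‖S (ξ k)‖ + ‖T (ξ k)‖) ^ 2 :=
        pow_le_pow_left₀ (norm_nonneg _) h1 2
      nlinarith
    have h3 := Real.sq_sqrt (nc_sq_nonneg ξ S)
    have h4 := Real.sq_sqrt (nc_sq_nonneg ξ T)
    nlinarith
  exact Real.sqrt_le_iff.2 ⟨by positivity, key⟩

/-- for `0 ≤ T ≤ 1`: `chi (T^2) ≤ chi T`. -/
theorem nc_sq_le_chi {T : H →L[ℂ] H} (h0 : 0 ≤ T) (h1 : T ≤ 1) : nc_sq ξ T ≤ (nc_chi ξ T).re := by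
  have hsa : IsSelfAdjoint T := IsSelfAdjoint.of_nonneg h0
  have h2 : star T * T ≤ T := by
    rw [hsa.star_eq]
    have h3 : CFC.sqrt T * T * CFC.sqrt T ≤ CFC.sqrt T * 1 * CFC.sqrt T :=
      conjugate_le_conjugate_of_nonneg h1 (CFC.sqrt_nonneg T)
    have hc : Commute (CFC.sqrt T) T := by
      have h6 : CFC.sqrt T * CFC.sqrt T = T := CFC.sqrt_mul_sqrt_self T h0
      have h7 : Commute (CFC.sqrt T) (CFC.sqrt T * CFC.sqrt T) :=
        (Commute.refl _).mul_right (Commute.refl _)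
      rwa [h6] at h7
    have h4 : CFC.sqrt T * T * CFC.sqrt T = T * T := by
      rw [hc.eq, mul_assoc, CFC.sqrt_mul_sqrt_self T h0]
    rw [h4, mul_one, CFC.sqrt_mul_sqrt_self T h0] at h3
    exact h3
  have h5 := nc_chi_mono_re ξ h2
  rw [nc_chi_star_mul_self] at h5
  simpa using h5

theorem nc_chi_tendsto {I : Type*} {l : Filter I} {T : I → (H →L[ℂ] H)} {b : H →L[ℂ] H}
    (h : WotTendsto l T b) : Filter.Tendsto (fun i => nc_chi ξ (T i)) l (nhds (nc_chi ξ b)) := by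
  simp only [nc_chi]
  exact tendsto_finset_sum _ fun k _ => h (ξ k) (ξ k)

/-- `θ` of a positive linear functional is monotone, real part version. -/
theorem nc_plm_mono_re (θ : (H →L[ℂ] H) →ₚ[ℂ] ℂ) {z w : H →L[ℂ] H} (h : z ≤ w) :
    (θ z).re ≤ (θ w).re :=
  (Complex.le_def.1 (OrderHomClass.mono θ h)).1

theorem nc_plm_nonneg_re (θ : (H →L[ℂ] H) →ₚ[ℂ] ℂ) {z : H →L[ℂ] H} (h : 0 ≤ z) : 0 ≤ (θ z).re :=
  (Complex.le_def.1 (θ.map_nonneg h)).1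

end Claimed.Agent.R302
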