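/-
R302 / NC / L7f : from a small vector norm of `s y s` to a large projection `q` with `‖q y q‖ ≤ ε`  (NC/Defs.lean header, (L), "cut").
Owner helper7.  Sorry-free modulo NC/Tool (`nc_tk_spec`, `nc_tk_range`, `nc_tk_mem_of_bicommute`).
y' = s y s, q' = h * 1_[-ε/2,ε/2](y'), k = q' s^2 q', q'' = 1_(1/2,∞)(k) (≤ q'), q = range projection of s q''.
For v ∈ q''H: ‖s v‖^2 ≥ ‖v‖^2 / 2 and ⟪y s v, s v⟫ = ⟪y' v, v⟫, so ‖q y q‖ ≤ ε.
‖(h-q) v‖ ≤ ‖(h-s) v‖ + ‖(h-q'') v‖;  q'-q'' ≤ 2 (q'-k);  chi(q'-k) ≤ 2 chi(q'(h-s)q').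
-/
import Claimed.Agent.R302.NC.Chi
import Claimed.Agent.R302.NC.Block

set_option autoImplicit false
set_option linter.unusedSectionVars false

open scoped InnerProductSpace ComplexOrder

attribute [-instance] WithCStarModule.instCStarModuleComplex

namespace Claimed.Agent.R302

variable {H : Type*} [NormedAddCommGroup H] [InnerProductSpace ℂ H] [CompleteSpace H]

/-- a selfadjoint operator with small quadratic form has small norm. -/
theorem nc_cut_norm_le_of_quad {T : H →L[ℂ] H} (hT : IsSelfAdjoint T) {ε : ℝ} (hε : 0 ≤ ε)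
    (h : ∀ x : H, |(⟪T x, x⟫_ℂ).re| ≤ ε * ‖x‖ ^ 2) : ‖T‖ ≤ ε := by
  have hsym : (T : H →ₗ[ℂ] H).IsSymmetric := (ContinuousLinearMap.isSelfAdjoint_iff_isSymmetric).1 hT
  rw [ContinuousLinearMap.norm_eq_iSup_rayleighQuotient T hsym]
  refine ciSup_le fun x => ?_
  by_cases hx : 0 < ‖x‖ ^ 2
  · rw [ContinuousLinearMap.rayleighQuotient, abs_div, abs_sq, div_le_iff₀ hx]
    exact h x
  · have hx0 : x = 0 := by
      by_contra hne
      exact hx (by positivity)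
    simpa [hx0] using hε

theorem nc_cut_norm_sq_sa {z : H →L[ℂ] H} (hz : IsSelfAdjoint z) (v : H) :
    (⟪v, z (z v)⟫_ℂ).re = ‖z v‖ ^ 2 := by
  rw [← nc_bl_inner_sa hz, inner_self_eq_norm_sq_to_K]
  norm_cast

theorem nc_cut_inner_real_smul (t : ℝ) (g : H →L[ℂ] H) (v : H) :
    (⟪v, (t • g) v⟫_ℂ).re = t * (⟪v, g v⟫_ℂ).re := by
  rw [smul_apply, ← Complex.coe_smul, inner_smul_right]
  simp

/-- the spectral cut `g = 1_[-t,t](z)`, vector form. -/
theorem nc_cut_abs (z : H →L[ℂ] H) (hz : IsSelfAdjoint z) (t : ℝ) :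
    ∃ g : H →L[ℂ] H, IsStarProjection g ∧ (∀ c : H →L[ℂ] H, Commute c z → Commute c g) ∧
      (∀ v : H, ‖z (g v)‖ ^ 2 ≤ t ^ 2 * ‖g v‖ ^ 2) ∧
      (∀ v : H, t ^ 2 * ‖(1 - g) v‖ ^ 2 ≤ ‖z v‖ ^ 2) := by
  have hzz : IsSelfAdjoint (z * z) := by
    have := IsSelfAdjoint.star_mul_self z
    rwa [hz.star_eq] at this
  obtain ⟨g, hgp, hgc, h1, h2⟩ := nc_tk_spec (z * z) hzz (t ^ 2)
  have hgc' : ∀ c : H →L[ℂ] H, Commute c z → Commute c g := fun c hc => hgc c (hc.mul_right hc)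
  have hzg : Commute z g := hgc' z (Commute.refl z)
  refine ⟨g, hgp, hgc', ?_, ?_⟩
  · intro v
    have h3 := nc_bl_le_inner h1 (g v)
    have hgg : g (g v) = g v := congrArg (fun T : H →L[ℂ] H => T v) hgp.isIdempotentElem.eq
    rw [nc_cut_inner_real_smul, nc_bl_proj_norm_sq hgp, hgg] at h3
    have h4 : (z * z * g) (g v) = z (z (g v)) := by
      change z (z (g (g v))) = _
      rw [hgg]
    rw [h4, nc_cut_norm_sq_sa hz] at h3
    exact h3
  · intro v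
    have hp' : IsStarProjection (1 - g) := hgp.one_sub
    set w := (1 - g) v with hw
    have h3 := nc_bl_le_inner h2 w
    have hgg : (1 - g) w = w := congrArg (fun T : H →L[ℂ] H => T v) hp'.isIdempotentElem.eq
    rw [nc_cut_inner_real_smul, nc_bl_proj_norm_sq hp', hgg] at h3
    have h4 : (z * z * (1 - g)) w = z (z w) := by
      change z (z ((1 - g) w)) = _
      rw [hgg]
    rw [h4, nc_cut_norm_sq_sa hz] at h3
    refine h3.trans ?_
    have h5 : z w = (1 - g) (z v) := by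
      have hc : Commute z (1 - g) := (Commute.one_right z).sub_right hzg
      exact congrArg (fun T : H →L[ℂ] H => T v) hc.eq
    rw [h5]
    exact pow_le_pow_left₀ (norm_nonneg _) (nc_bl_proj_norm_le hp' _) 2


/-- the spectral cut `q2 = 1_(1/2,∞)(k)` of `0 ≤ k ≤ q1`. -/
theorem nc_cut_half (k q1 : H →L[ℂ] H) (hq1 : IsStarProjection q1) (hk0 : 0 ≤ k) (hk1 : k ≤ q1) :
    ∃ q2 : H →L[ℂ] H, IsStarProjection q2 ∧ (∀ c : H →L[ℂ] H, Commute c k → Commute c q2) ∧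
      q1 * q2 = q2 ∧ (∀ v : H, 1 / 2 * ‖q2 v‖ ^ 2 ≤ (⟪q2 v, k (q2 v)⟫_ℂ).re) ∧
      q1 - q2 ≤ (2 : ℝ) • (q1 - k) := by
  have hks : IsSelfAdjoint k := IsSelfAdjoint.of_nonneg hk0
  obtain ⟨hkq, hqk⟩ := hq1.mul_right_and_mul_left_of_nonneg_of_le hk0 hk1
  obtain ⟨g, hgp, hgc, h1, h2⟩ := nc_tk_spec k hks (1 / 2)
  have hp2 : IsStarProjection (1 - g) := hgp.one_sub
  have hc2 : ∀ c : H →L[ℂ] H, Commute c k → Commute c (1 - g) := fun c hc =>
    (Commute.one_right c).sub_right (hgc c hc)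
  have hq1k : Commute q1 k := by rw [commute_iff_eq, hkq, hqk]
  have hq1g : Commute q1 g := hgc q1 hq1k
  have hkg : Commute k g := hgc k (Commute.refl k)
  have hvec : ∀ v : H, 1 / 2 * ‖(1 - g) v‖ ^ 2 ≤ (⟪(1 - g) v, k ((1 - g) v)⟫_ℂ).re := by
    intro v
    set w := (1 - g) v with hw
    have h3 := nc_bl_le_inner h2 w
    have hgg : (1 - g) w = w := congrArg (fun T : H →L[ℂ] H => T v) hp2.isIdempotentElem.eq
    rw [nc_cut_inner_real_smul, nc_bl_proj_norm_sq hp2, hgg] at h3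
    have h4 : (k * (1 - g)) w = k w := by
      change k ((1 - g) w) = _
      rw [hgg]
    rw [h4] at h3
    exact h3
  have hle : q1 * (1 - g) = 1 - g := by
    -- `(1 - q1) (1 - g) = 0`
    have hz : (1 - q1) * (1 - g) = 0 := by
      ext v
      have hcomm : Commute (1 - q1) (1 - g) :=
        ((Commute.one_left _).sub_left ((Commute.one_right q1).sub_right hq1g))
      set u := ((1 - q1) * (1 - g)) v with hu
      have hu1 : u = (1 - g) ((1 - q1) v) := congrArg (fun T : H →L[ℂ] H => T v) hcomm.eq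
      have hu2 : k u = 0 := by
        have : k * ((1 - q1) * (1 - g)) = 0 := by
          have h0 : k * (1 - q1) = 0 := by rw [mul_sub, mul_one, hkq, sub_self]
          rw [← mul_assoc, h0, zero_mul]
        exact congrArg (fun T : H →L[ℂ] H => T v) this
      have h5 := hvec ((1 - q1) v)
      rw [← hu1, hu2, inner_zero_right] at h5
      have h6 : ‖u‖ ^ 2 ≤ 0 := by
        simp only [Complex.zero_re] at h5
        linarith
      have h7 : ‖u‖ = 0 := by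
        have := pow_eq_zero_iff (two_ne_zero) |>.1 (le_antisymm h6 (by positivity))
        exact this
      simpa using norm_eq_zero.1 h7
    have : (1 - q1) * (1 - g) = (1 - g) - q1 * (1 - g) := by rw [sub_mul, one_mul]
    rw [this, sub_eq_zero] at hz
    exact hz.symm
  refine ⟨1 - g, hp2, hc2, hle, hvec, ?_⟩
  -- `k = k g + k (1-g) ≤ g / 2 + (1-g)`, conjugated by `q1`
  have h3 : k * (1 - g) ≤ 1 - g := by
    have h4 : (1 - g) * k * (1 - g) ≤ (1 - g) * q1 * (1 - g) :=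
      hp2.isSelfAdjoint.conjugate_le_conjugate hk1
    have h5 : (1 - g) * k * (1 - g) = k * (1 - g) := by
      rw [((Commute.one_right k).sub_right hkg).eq.symm, mul_assoc, hp2.isIdempotentElem.eq]
    have h6 : (1 - g) * q1 * (1 - g) = 1 - g := by
      rw [mul_assoc, hle, hp2.isIdempotentElem.eq]
    rwa [h5, h6] at h4
  have h7 : k ≤ (1 / 2 : ℝ) • g + (1 - g) := by
    have : k = k * g + k * (1 - g) := by rw [mul_sub, mul_one]; abel
    calc k = k * g + k * (1 - g) := this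
      _ ≤ (1 / 2 : ℝ) • g + (1 - g) := add_le_add h1 h3
  have h8 : q1 * k * q1 ≤ q1 * ((1 / 2 : ℝ) • g + (1 - g)) * q1 :=
    hq1.isSelfAdjoint.conjugate_le_conjugate h7
  have h9 : q1 * k * q1 = k := by rw [hqk, hkq]
  have h10 : q1 * ((1 / 2 : ℝ) • g + (1 - g)) * q1 = (1 / 2 : ℝ) • (q1 - (1 - g)) + (1 - g) := by
    have e1 : q1 * g * q1 = q1 - (1 - g) := by
      rw [hq1g.eq, mul_assoc, hq1.isIdempotentElem.eq, ← hq1g.eq]
      have : q1 * g = q1 - q1 * (1 - g) := by rw [mul_sub, mul_one]; abel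
      rw [this, hle]
    have e2 : q1 * (1 - g) * q1 = 1 - g := by
      rw [hle]
      have := congrArg star hle
      rw [star_mul, hp2.isSelfAdjoint.star_eq, hq1.isSelfAdjoint.star_eq] at this
      exact this
    rw [mul_add, add_mul, mul_smul_comm, smul_mul_assoc, e1, e2]
  rw [h9, h10] at h8
  -- `2 (q1 - k) - (q1 - q2) = 2 ((q1 - q2)/2 + q2 - k)`
  have h11 : (2 : ℝ) • (q1 - k) - (q1 - (1 - g))
      = (2 : ℝ) • ((1 / 2 : ℝ) • (q1 - (1 - g)) + (1 - g) - k) := by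
    simp only [smul_sub, smul_add, smul_smul]
    norm_num
    simp only [two_smul]
    abel
  rw [← sub_nonneg, h11]
  exact smul_nonneg (by norm_num) (sub_nonneg.2 h8)

/-- Cauchy-Schwarz for `chi`. -/
theorem nc_cut_chi_sq_le {ι : Type*} [Fintype ι] (ξ : ι → H) (T : H →L[ℂ] H) :
    (nc_chi ξ T).re ^ 2 ≤ nc_sq ξ T * nc_sq ξ 1 := by
  have h1 : |(nc_chi ξ T).re| ≤ ∑ k, ‖T (ξ k)‖ * ‖ξ k‖ := by
    refine (Complex.abs_re_le_norm _).trans ?_
    unfold nc_chi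
    refine (norm_sum_le _ _).trans (Finset.sum_le_sum fun k _ => ?_)
    rw [mul_comm]
    exact norm_inner_le_norm _ _
  have h2 : (∑ k, ‖T (ξ k)‖ * ‖ξ k‖) ^ 2 ≤ (∑ k, ‖T (ξ k)‖ ^ 2) * ∑ k, ‖ξ k‖ ^ 2 :=
    Finset.sum_mul_sq_le_sq_mul_sq _ _ _
  have h3 : (nc_chi ξ T).re ^ 2 ≤ (∑ k, ‖T (ξ k)‖ * ‖ξ k‖) ^ 2 := by
    rw [← sq_abs]
    exact pow_le_pow_left₀ (abs_nonneg _) h1 2
  refine h3.trans (h2.trans ?_)
  simp [nc_sq]


theorem nc_cut_aux (M : VonNeumannAlgebra H) (h : H →L[ℂ] H) (hh : h ∈ M) (hp : IsStarProjection h)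
    {ι : Type*} [Fintype ι] (ξ : ι → H) (ε : ℝ) (hε : 0 < ε)
    (s : H →L[ℂ] H) (hsM : s ∈ M) (hs0 : 0 ≤ s) (hsh : s ≤ h)
    (y : H →L[ℂ] H) (hyM : y ∈ M) (hys : IsSelfAdjoint y) :
    ∃ q ∈ M, IsStarProjection q ∧ h * q = q ∧ ‖q * y * q‖ ≤ ε ∧ ∃ N c : ℝ, 0 ≤ c ∧
      (ε / 2) ^ 2 * N ≤ nc_sq ξ (s * y * s) ∧
      c ^ 2 ≤ (2 * nc_sq ξ (h - s) + 2 * N) * nc_sq ξ 1 ∧
      nc_sq ξ (h - q) ≤ 2 * nc_sq ξ (h - s) + 4 * N + 16 * c := by
  have hsa : IsSelfAdjoint s := IsSelfAdjoint.of_nonneg hs0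
  obtain ⟨hsh1, hsh2⟩ := hp.mul_right_and_mul_left_of_nonneg_of_le hs0 hsh
  have hs1 : s ≤ 1 := hsh.trans hp.le_one
  have hsn : ‖s‖ ≤ 1 := (CStarAlgebra.norm_le_one_iff_of_nonneg s hs0).2 hs1
  have hhs0 : 0 ≤ h - s := sub_nonneg.2 hsh
  have hhsn : ‖h - s‖ ≤ 1 := by
    refine (CStarAlgebra.norm_le_one_iff_of_nonneg (h - s) hhs0).2 ?_
    exact (sub_le_self h hs0).trans hp.le_one
  set y1 := s * y * s with hy1
  have hy1M : y1 ∈ M := mul_mem (mul_mem hsM hyM) hsM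
  have hy1s : IsSelfAdjoint y1 := hys.conjugate_self hsa
  obtain ⟨g, hgp, hgc, hg1, hg2⟩ := nc_cut_abs y1 hy1s (ε / 2)
  have hgM : g ∈ M := nc_tk_mem_of_bicommute M y1 g hy1M hgc
  have hhy : Commute h y1 := by
    rw [commute_iff_eq, hy1, ← mul_assoc, ← mul_assoc, hsh2, mul_assoc (s * y), hsh1]
  have hhg : Commute h g := hgc h hhy
  set q1 := h * g with hq1
  have hq1p : IsStarProjection q1 := hp.mul hgp hhg
  have hq1M : q1 ∈ M := mul_mem hh hgM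
  have hhq1 : h * q1 = q1 := by rw [hq1, ← mul_assoc, hp.isIdempotentElem.eq]
  have hq1h : q1 * h = q1 := by rw [hq1, hhg.eq, mul_assoc, hp.isIdempotentElem.eq]
  have hgq1 : g * q1 = q1 := by
    rw [hq1, ← mul_assoc, ← hhg.eq, mul_assoc, hgp.isIdempotentElem.eq]
  set k := q1 * (s * s) * q1 with hk
  have hkM : k ∈ M := mul_mem (mul_mem hq1M (mul_mem hsM hsM)) hq1M
  have hss0 : 0 ≤ s * s := by
    have := star_mul_self_nonneg s
    rwa [hsa.star_eq] at this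
  have hss1 : s * s ≤ 1 := (nc_bl_sq_le hs0 hsh hp).trans hs1
  have hk0 : 0 ≤ k := hq1p.isSelfAdjoint.conjugate_nonneg hss0
  have hk1 : k ≤ q1 := by
    have := hq1p.isSelfAdjoint.conjugate_le_conjugate hss1
    rwa [mul_one, hq1p.isIdempotentElem.eq] at this
  obtain ⟨q2, hq2p, hq2c, hq12, hq2v, hq2le⟩ := nc_cut_half k q1 hq1p hk0 hk1
  have hq2M : q2 ∈ M := nc_tk_mem_of_bicommute M k q2 hkM hq2c
  obtain ⟨q, hqM, hqp, hq3, hq4⟩ := nc_tk_range M (s * q2) (mul_mem hsM hq2M)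
  have hcl : ∀ w : H, q w ∈ closure (Set.range (s * q2)) := fun w =>
    hq4 (q w) (congrArg (fun T : H →L[ℂ] H => T w) hqp.isIdempotentElem.eq)
  have hhq : h * q = q := by
    ext w
    have hsub : closure (Set.range (s * q2)) ⊆ {v : H | h v = v} := by
      refine closure_minimal ?_ (isClosed_eq h.continuous continuous_id)
      rintro _ ⟨v, rfl⟩
      exact congrArg (fun T : H →L[ℂ] H => T (q2 v)) hsh2
    exact hsub (hcl w)
  have hqh : q * h = q := by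
    have := congrArg star hhq
    rwa [star_mul, hqp.isSelfAdjoint.star_eq, hp.isSelfAdjoint.star_eq] at this
  have hquad : ∀ u ∈ closure (Set.range (s * q2)), |(⟪y u, u⟫_ℂ).re| ≤ ε * ‖u‖ ^ 2 := by
    have hclosed : IsClosed {u : H | |(⟪y u, u⟫_ℂ).re| ≤ ε * ‖u‖ ^ 2} := by
      refine isClosed_le ?_ ?_
      · fun_prop
      · fun_prop
    refine closure_minimal ?_ hclosed
    rintro _ ⟨v', rfl⟩
    set v := q2 v' with hv
    change |(⟪y (s v), s v⟫_ℂ).re| ≤ ε * ‖s v‖ ^ 2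
    have hq1v : q1 v = v := congrArg (fun T : H →L[ℂ] H => T v') hq12
    have hgv : g v = v := by
      rw [← hq1v]; exact congrArg (fun T : H →L[ℂ] H => T v) hgq1
    have e1 : ⟪y (s v), s v⟫_ℂ = ⟪y1 v, v⟫_ℂ := (nc_bl_inner_sa hsa (y (s v)) v).symm
    have e2 : ‖y1 v‖ ≤ ε / 2 * ‖v‖ := by
      have := hg1 v
      rw [hgv, ← mul_pow] at this
      exact (pow_le_pow_iff_left₀ (norm_nonneg _) (by positivity) two_ne_zero).1 this
    have e3 : 1 / 2 * ‖v‖ ^ 2 ≤ ‖s v‖ ^ 2 := by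
      have h5 := hq2v v'
      have e4 : (⟪v, k v⟫_ℂ).re = ‖s v‖ ^ 2 := by
        have : k v = q1 (s (s v)) := by
          change q1 (s (s (q1 v))) = _
          rw [hq1v]
        rw [this, ← nc_bl_inner_sa hq1p.isSelfAdjoint, hq1v, nc_cut_norm_sq_sa hsa]
      rwa [e4] at h5
    rw [e1]
    calc |(⟪y1 v, v⟫_ℂ).re| ≤ ‖⟪y1 v, v⟫_ℂ‖ := Complex.abs_re_le_norm _
      _ ≤ ‖y1 v‖ * ‖v‖ := norm_inner_le_norm _ _
      _ ≤ ε / 2 * ‖v‖ * ‖v‖ := by gcongr
      _ = ε * (1 / 2 * ‖v‖ ^ 2) := by ring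
      _ ≤ ε * ‖s v‖ ^ 2 := by gcongr
  have hnorm : ‖q * y * q‖ ≤ ε := by
    refine nc_cut_norm_le_of_quad (hys.conjugate_self hqp.isSelfAdjoint) hε.le fun w => ?_
    have e1 : ⟪(q * y * q) w, w⟫_ℂ = ⟪y (q w), q w⟫_ℂ :=
      nc_bl_inner_sa hqp.isSelfAdjoint (y (q w)) w
    rw [e1]
    refine (hquad _ (hcl w)).trans ?_
    gcongr
    exact nc_bl_proj_norm_le hqp w
  refine ⟨q, hqM, hqp, hhq, hnorm, nc_sq ξ (h - q1), (nc_chi ξ (q1 * (h - s) * q1)).re, ?_, ?_, ?_, ?_⟩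
  · exact (Complex.le_def.1 (nc_chi_nonneg ξ (hq1p.isSelfAdjoint.conjugate_nonneg hhs0))).1
  · have e1 : h - q1 = h * (1 - g) := by rw [hq1, mul_sub, mul_one]
    have e2 : nc_sq ξ (h - q1) ≤ nc_sq ξ (1 - g) := by
      rw [e1]; exact nc_sq_mul_le_of_norm_le_one ξ hp.norm_le _
    calc (ε / 2) ^ 2 * nc_sq ξ (h - q1) ≤ (ε / 2) ^ 2 * nc_sq ξ (1 - g) := by gcongr
      _ ≤ nc_sq ξ y1 := by
          rw [nc_sq, nc_sq, Finset.mul_sum]
          exact Finset.sum_le_sum fun i _ => hg2 (ξ i)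
  · refine (nc_cut_chi_sq_le ξ _).trans ?_
    refine mul_le_mul_of_nonneg_right ?_ (nc_sq_nonneg ξ 1)
    have e1 : nc_sq ξ (q1 * (h - s) * q1) ≤ nc_sq ξ ((h - s) * q1) := by
      rw [mul_assoc]; exact nc_sq_mul_le_of_norm_le_one ξ hq1p.norm_le _
    have e2 : (h - s) * q1 = (h - s) - (h - s) * (h - q1) := by
      have : (h - s) * h = h - s := by rw [sub_mul, hp.isIdempotentElem.eq, hsh1]
      rw [mul_sub (h - s) h q1, this]; abel
    refine e1.trans ?_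
    rw [e2]
    refine (nc_sq_sub_le ξ _ _).trans ?_
    have := nc_sq_mul_le_of_norm_le_one ξ hhsn (h - q1)
    linarith
  · have hhqp : IsStarProjection (h - q) := hqp.sub_of_mul_eq_right hp hhq
    have e1 : h - q = (h - q) * (h - s * q2) := by
      have a1 : (h - q) * h = h - q := by rw [sub_mul, hp.isIdempotentElem.eq, hqh]
      have a2 : (h - q) * (s * q2) = 0 := by
        rw [sub_mul, hq3, ← mul_assoc, hsh2, sub_self]
      rw [mul_sub, a1, a2, sub_zero]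
    have e2 : nc_sq ξ (h - q) ≤ nc_sq ξ (h - s * q2) := by
      conv_lhs => rw [e1]
      exact nc_sq_mul_le_of_norm_le_one ξ hhqp.norm_le _
    have e3 : h - s * q2 = (h - s) + s * (h - q2) := by
      rw [mul_sub, hsh1]; abel
    have e4 : nc_sq ξ (h - s * q2) ≤ 2 * nc_sq ξ (h - s) + 2 * nc_sq ξ (h - q2) := by
      rw [e3]
      refine (nc_sq_add_le ξ _ _).trans ?_
      have := nc_sq_mul_le_of_norm_le_one ξ hsn (h - q2)
      linarith
    have e5 : nc_sq ξ (h - q2) ≤ 2 * nc_sq ξ (h - q1) + 2 * nc_sq ξ (q1 - q2) := by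
      have : h - q2 = (h - q1) + (q1 - q2) := by abel
      rw [this]
      exact nc_sq_add_le ξ _ _
    have hq12p : IsStarProjection (q1 - q2) := hq2p.sub_of_mul_eq_right hq1p hq12
    have e6 : q1 - k ≤ (2 : ℝ) • (q1 * (h - s) * q1) := by
      have a1 : h - s * s ≤ (2 : ℝ) • (h - s) := by
        have a2 : (2 : ℝ) • (h - s) - (h - s * s) = star (h - s) * (h - s) := by
          rw [(IsSelfAdjoint.of_nonneg hhs0).star_eq, mul_sub, sub_mul, sub_mul,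
            hp.isIdempotentElem.eq, hsh1, hsh2, two_smul]
          abel
        rw [← sub_nonneg, a2]
        exact star_mul_self_nonneg _
      have a3 := hq1p.isSelfAdjoint.conjugate_le_conjugate a1
      have a4 : q1 * (h - s * s) * q1 = q1 - k := by
        rw [mul_sub, sub_mul, hq1h, hq1p.isIdempotentElem.eq]
      rw [a4, mul_smul_comm, smul_mul_assoc] at a3
      exact a3
    have e7 : nc_sq ξ (q1 - q2) ≤ 4 * (nc_chi ξ (q1 * (h - s) * q1)).re := by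
      have b1 : (nc_chi ξ (q1 - q2)).re = nc_sq ξ (q1 - q2) := by
        rw [nc_chi_proj ξ hq12p]; simp
      have b2 := nc_chi_mono_re ξ hq2le
      have b3 := nc_chi_mono_re ξ e6
      rw [nc_chi_real_smul] at b2 b3
      simp only [Complex.mul_re, Complex.ofReal_re, Complex.ofReal_im, zero_mul, sub_zero] at b2 b3
      rw [b1] at b2
      linarith
    linarith

theorem nc_cut (M : VonNeumannAlgebra H) (h : H →L[ℂ] H) (hh : h ∈ M) (hp : IsStarProjection h)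
    {ι : Type*} [Fintype ι] (ξ : ι → H) (ε ρ : ℝ) (hε : 0 < ε) (hρ : 0 < ρ) :
    ∃ τ : ℝ, 0 < τ ∧ ∀ s ∈ M, 0 ≤ s → s ≤ h → ∀ y ∈ M, IsSelfAdjoint y →
      nc_sq ξ (s * y * s) ≤ τ → nc_sq ξ (h - s) ≤ τ →
        ∃ q ∈ M, IsStarProjection q ∧ h * q = q ∧ ‖q * y * q‖ ≤ ε ∧ nc_sq ξ (h - q) < ρ := by
  set X : ℝ := nc_sq ξ 1 with hX
  have hX0 : 0 ≤ X := nc_sq_nonneg ξ 1
  set K : ℝ := 2 + 16 / ε ^ 2 with hK
  have hKpos : 0 < K := by positivity
  set τ : ℝ := min (ρ / (4 * K)) ((ρ / 64) ^ 2 / (K * (X + 1))) with hτ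
  have hτpos : 0 < τ := lt_min (by positivity) (by positivity)
  have hτ1 : τ * K ≤ ρ / 4 := by
    have : τ ≤ ρ / (4 * K) := min_le_left _ _
    calc τ * K ≤ ρ / (4 * K) * K := by gcongr
      _ = ρ / 4 := by field_simp
  have hτ2 : τ * K * X ≤ (ρ / 64) ^ 2 := by
    have : τ ≤ (ρ / 64) ^ 2 / (K * (X + 1)) := min_le_right _ _
    calc τ * K * X ≤ (ρ / 64) ^ 2 / (K * (X + 1)) * K * X := by gcongr
      _ = (ρ / 64) ^ 2 * (X / (X + 1)) := by field_simp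
      _ ≤ (ρ / 64) ^ 2 * 1 := by
          gcongr
          rw [div_le_one (by positivity)]; linarith
      _ = _ := mul_one _
  refine ⟨τ, hτpos, ?_⟩
  intro s hsM hs0 hsh y hyM hys hy1 hs1
  obtain ⟨q, hqM, hqp, hhq, hnorm, N, c, hc0, hN, hc, hfin⟩ :=
    nc_cut_aux M h hh hp ξ ε hε s hsM hs0 hsh y hyM hys
  refine ⟨q, hqM, hqp, hhq, hnorm, ?_⟩
  have hN' : N ≤ 4 / ε ^ 2 * τ := by
    have h1 : (ε / 2) ^ 2 * N ≤ τ := hN.trans hy1
    have h2 : N = 4 / ε ^ 2 * ((ε / 2) ^ 2 * N) := by field_simp; ring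
    rw [h2]
    gcongr
  have h4 : 2 * nc_sq ξ (h - s) + 4 * N ≤ τ * K := by
    have : τ * K = 2 * τ + 4 * (4 / ε ^ 2 * τ) := by rw [hK]; ring
    rw [this]; linarith
  have h5 : c ^ 2 ≤ (ρ / 64) ^ 2 := by
    refine hc.trans (le_trans ?_ hτ2)
    refine mul_le_mul_of_nonneg_right ?_ hX0
    have : τ * K = 2 * τ + 2 * (4 / ε ^ 2 * τ) + 2 * (4 / ε ^ 2 * τ) := by rw [hK]; ring
    have h6 : 0 ≤ 4 / ε ^ 2 * τ := by positivity
    rw [this]; linarith
  have h6 : c ≤ ρ / 64 := (pow_le_pow_iff_left₀ hc0 (by positivity) two_ne_zero).1 h5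
  linarith

end Claimed.Agent.R302
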