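/-
R302 / NC / L8 : P Lemma 6.2 relative to `h` (NC/Defs.lean header, (P)); paper P, sections/general.tex, Lemma no-central-functional.
u_l := nc_rot P c l (u_l u_l' = u_(l+l'), u_l^* = u_(-l), u_0 = h, u_m = h), b_j := u_j f u_j^*, test families Ξ_j := u_j ξ.
-/
import Claimed.Agent.R302.NC.Tool
import Claimed.Agent.R302.NC.Pinch
import Claimed.Agent.R302.NC.Select
import Claimed.Agent.R302.NC.Chi

set_option autoImplicit false
set_option linter.unusedSectionVars false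

open scoped InnerProductSpace ComplexOrder

-- with `ComplexOrder` in scope this instance hijacks `Inner ℂ H`
attribute [-instance] WithCStarModule.instCStarModuleComplex

namespace Claimed.Agent.R302

variable {H : Type*} [NormedAddCommGroup H] [InnerProductSpace ℂ H] [CompleteSpace H]

universe w

/-- products of linear combinations of the pieces of a partition. -/
theorem nc_cyc_lin_mul (A : StarSubalgebra ℂ (H →L[ℂ] H)) (h : H →L[ℂ] H) {κ : Type*} [Fintype κ]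
    (P : κ → (H →L[ℂ] H)) (hP : nc_IsPart A h P) (a b : κ → ℂ) :
    (∑ i, a i • P i) * (∑ j, b j • P j) = ∑ i, (a i * b i) • P i := by
  rw [Finset.sum_mul]
  refine Finset.sum_congr rfl fun i _ => ?_
  rw [Finset.mul_sum, Finset.sum_eq_single_of_mem i (Finset.mem_univ i)]
  · rw [smul_mul_smul_comm, (hP.1 i).2.isIdempotentElem.eq]
  · intro j _ hj
    rw [smul_mul_smul_comm, hP.2.1 i j hj.symm, smul_zero]

/-- algebra of the rotations. -/
theorem nc_rot_mul (A : StarSubalgebra ℂ (H →L[ℂ] H)) (h : H →L[ℂ] H) {κ : Type*} [Fintype κ]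
    (P : κ → (H →L[ℂ] H)) (hP : nc_IsPart A h P) {m : ℕ} (c : κ → Fin m) (l l' : ℤ) :
    nc_rot P c l * nc_rot P c l' = nc_rot P c (l + l') := by
  unfold nc_rot
  rw [nc_cyc_lin_mul A h P hP]
  refine Finset.sum_congr rfl fun i _ => ?_
  rw [← Complex.exp_add]
  congr 2
  push_cast
  ring

theorem nc_rot_star (A : StarSubalgebra ℂ (H →L[ℂ] H)) (h : H →L[ℂ] H) {κ : Type*} [Fintype κ]
    (P : κ → (H →L[ℂ] H)) (hP : nc_IsPart A h P) {m : ℕ} (c : κ → Fin m) (l : ℤ) :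
    star (nc_rot P c l) = nc_rot P c (-l) := by
  unfold nc_rot
  rw [star_sum]
  refine Finset.sum_congr rfl fun i _ => ?_
  rw [star_smul, (hP.1 i).2.isSelfAdjoint.star_eq, Complex.star_def, ← Complex.exp_conj]
  congr 2
  simp only [map_div₀, map_mul, Complex.conj_I, Complex.conj_ofReal, map_natCast, map_intCast,
    map_ofNat]
  push_cast
  ring

theorem nc_rot_zero (A : StarSubalgebra ℂ (H →L[ℂ] H)) (h : H →L[ℂ] H) {κ : Type*} [Fintype κ]
    (P : κ → (H →L[ℂ] H)) (hP : nc_IsPart A h P) {m : ℕ} (c : κ → Fin m) : nc_rot P c 0 = h := by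
  unfold nc_rot
  simp only [Int.cast_zero, mul_zero, zero_mul, zero_div, Complex.exp_zero, one_smul]
  exact hP.2.2

theorem nc_rot_add_period {κ : Type*} [Fintype κ] (P : κ → (H →L[ℂ] H)) {m : ℕ} (hm : 0 < m)
    (c : κ → Fin m) (l : ℤ) : nc_rot P c (l + m) = nc_rot P c l := by
  unfold nc_rot
  refine Finset.sum_congr rfl fun i _ => ?_
  congr 1
  have hm' : (m : ℂ) ≠ 0 := by exact_mod_cast hm.ne'
  have : 2 * (Real.pi : ℂ) * Complex.I * ((l + (m : ℤ) : ℤ) : ℂ) * ((c i : ℕ) : ℂ) / m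
      = 2 * Real.pi * Complex.I * l * ((c i : ℕ) : ℂ) / m
        + ((c i : ℕ) : ℂ) * (2 * Real.pi * Complex.I) := by
    push_cast
    field_simp
  rw [this, Complex.exp_add, Complex.exp_nat_mul_two_pi_mul_I, mul_one]

theorem nc_rot_mem (A : StarSubalgebra ℂ (H →L[ℂ] H)) (h : H →L[ℂ] H) {κ : Type*} [Fintype κ]
    (P : κ → (H →L[ℂ] H)) (hP : nc_IsPart A h P) {m : ℕ} (c : κ → Fin m) (l : ℤ) :
    nc_rot P c l ∈ A :=
  sum_mem fun i _ => A.smul_mem (hP.1 i).1 _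

/-- a colour class is an eigenprojection of the rotations. -/
theorem nc_class_mul_rot (A : StarSubalgebra ℂ (H →L[ℂ] H)) (h : H →L[ℂ] H) {κ : Type*} [Fintype κ]
    (P : κ → (H →L[ℂ] H)) (hP : nc_IsPart A h P) {m : ℕ} (c : κ → Fin m) (l : ℤ) (k : Fin m) :
    nc_class P c k * nc_rot P c l
      = Complex.exp (2 * Real.pi * Complex.I * l * ((k : ℕ) : ℂ) / m) • nc_class P c k := by
  have h1 : nc_class P c k = ∑ i, (if c i = k then (1 : ℂ) else 0) • P i := by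
    unfold nc_class
    refine Finset.sum_congr rfl fun i _ => ?_
    split_ifs <;> simp
  rw [h1]
  unfold nc_rot
  rw [nc_cyc_lin_mul A h P hP, Finset.smul_sum]
  refine Finset.sum_congr rfl fun i _ => ?_
  by_cases hc : c i = k
  · simp only [hc, if_true, one_mul, one_smul]
  · simp only [hc, if_false, zero_mul, zero_smul, smul_zero]

/-- L8a. choice of the colouring. -/
theorem nc_cyc_choice (A : StarSubalgebra ℂ (H →L[ℂ] H)) (h : H →L[ℂ] H) {κ : Type*} [Fintype κ]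
    (P : κ → (H →L[ℂ] H)) (hP : nc_IsPart A h P) (f : H →L[ℂ] H) {ι : Type*} [Fintype ι] (ξ : ι → H)
    (m : ℕ) (hm : 0 < m) :
    ∃ c : κ → Fin m, ∑ l ∈ Finset.Ico 1 m, nc_sq ξ (f * nc_rot P c (l : ℤ))
      ≤ ((m : ℝ) - 1) * ∑ i, nc_sq ξ (f * P i) := by
  obtain ⟨c, hc⟩ := nc_rootavg (V := PiLp 2 (fun _ : ι => H))
    (fun e : κ => WithLp.toLp 2 (fun k => (f * P e) (ξ k))) m hm
  refine ⟨c, ?_⟩
  have e1 : ∀ e, ‖(WithLp.toLp 2 (fun k => (f * P e) (ξ k)) : PiLp 2 (fun _ : ι => H))‖ ^ 2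
      = nc_sq ξ (f * P e) := by
    intro e
    rw [PiLp.norm_sq_eq_of_L2]
    rfl
  have e2 : ∀ l : ℕ, ‖∑ e, Complex.exp (2 * Real.pi * Complex.I * ((l : ℤ) : ℂ) * ((c e : ℕ) : ℂ) / m)
        • (WithLp.toLp 2 (fun k => (f * P e) (ξ k)) : PiLp 2 (fun _ : ι => H))‖ ^ 2
      = nc_sq ξ (f * nc_rot P c (l : ℤ)) := by
    intro l
    rw [PiLp.norm_sq_eq_of_L2]
    unfold nc_sq
    refine Finset.sum_congr rfl fun k _ => ?_
    congr 2
    unfold nc_rot
    rw [Finset.mul_sum, sum_apply, WithLp.ofLp_sum, Finset.sum_apply]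
    refine Finset.sum_congr rfl fun e _ => ?_
    rw [mul_smul_comm]
    rfl
  simp only [e1, e2] at hc
  exact hc

/-! ### Sequential effects -/

/-- the sequential products `V_0 = h`, `V_{j+1} = (1 - b_j) V_j`. -/
noncomputable def nc_cyc_V (h : H →L[ℂ] H) (b : ℕ → (H →L[ℂ] H)) : ℕ → (H →L[ℂ] H)
  | 0 => h
  | j + 1 => (1 - b j) * nc_cyc_V h b j

theorem nc_cyc_V_mem (M : VonNeumannAlgebra H) (h : H →L[ℂ] H) (hh : h ∈ M)
    (b : ℕ → (H →L[ℂ] H)) (hb : ∀ j, b j ∈ M) (j : ℕ) : nc_cyc_V h b j ∈ M := by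
  induction j with
  | zero => exact hh
  | succ j ih => exact mul_mem (sub_mem (one_mem M) (hb j)) ih

theorem nc_cyc_V_norm_le (h : H →L[ℂ] H) (hp : IsStarProjection h) (b : ℕ → (H →L[ℂ] H))
    (hb : ∀ j, IsStarProjection (b j)) (j : ℕ) (x : H) : ‖nc_cyc_V h b j x‖ ≤ ‖x‖ := by
  induction j with
  | zero => exact nc_proj_norm_apply_le hp x
  | succ j ih => exact le_trans (nc_proj_norm_apply_le (hb j).one_sub _) ih

theorem nc_cyc_V_step (h : H →L[ℂ] H) (b : ℕ → (H →L[ℂ] H)) (hb : ∀ j, IsStarProjection (b j))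
    (j : ℕ) : star (nc_cyc_V h b j) * b j * nc_cyc_V h b j
      = star (nc_cyc_V h b j) * nc_cyc_V h b j
        - star (nc_cyc_V h b (j + 1)) * nc_cyc_V h b (j + 1) := by
  have h1 : star (nc_cyc_V h b (j + 1)) * nc_cyc_V h b (j + 1)
      = star (nc_cyc_V h b j) * (1 - b j) * nc_cyc_V h b j := by
    show star ((1 - b j) * nc_cyc_V h b j) * ((1 - b j) * nc_cyc_V h b j) = _
    rw [star_mul, (hb j).one_sub.isSelfAdjoint.star_eq, mul_assoc, ← mul_assoc (1 - b j),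
      (hb j).one_sub.isIdempotentElem.eq, mul_assoc]
  rw [h1, mul_sub, sub_mul, mul_one]
  abel

theorem nc_cyc_V_sum (h : H →L[ℂ] H) (hp : IsStarProjection h) (b : ℕ → (H →L[ℂ] H))
    (hb : ∀ j, IsStarProjection (b j)) (n : ℕ) :
    ∑ j ∈ Finset.range n, star (nc_cyc_V h b j) * b j * nc_cyc_V h b j
      = h - star (nc_cyc_V h b n) * nc_cyc_V h b n := by
  rw [Finset.sum_congr rfl fun j _ => nc_cyc_V_step h b hb j,
    Finset.sum_range_sub' (fun j => star (nc_cyc_V h b j) * nc_cyc_V h b j)]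
  show star h * h - _ = _
  rw [hp.isSelfAdjoint.star_eq, hp.isIdempotentElem.eq]

theorem nc_cyc_V_sub_le (h : H →L[ℂ] H) (b : ℕ → (H →L[ℂ] H))
    (hb : ∀ j, IsStarProjection (b j)) (hbh : ∀ j, b j * h = b j) (j : ℕ) (x : H) :
    ‖nc_cyc_V h b j x - h x‖ ≤ ∑ k ∈ Finset.range j, ‖b k x‖ := by
  induction j with
  | zero => simp [nc_cyc_V]
  | succ j ih =>
    have h1 : nc_cyc_V h b (j + 1) x - h x = (1 - b j) (nc_cyc_V h b j x - h x) - b j x := by
      have h2 : b j (h x) = b j x := congrArg (fun T : H →L[ℂ] H => T x) (hbh j)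
      show (1 - b j) (nc_cyc_V h b j x) - h x = _
      rw [map_sub]
      simp only [sub_apply, h2]
      abel
    rw [h1, Finset.sum_range_succ]
    calc ‖(1 - b j) (nc_cyc_V h b j x - h x) - b j x‖
        ≤ ‖(1 - b j) (nc_cyc_V h b j x - h x)‖ + ‖b j x‖ := norm_sub_le _ _
      _ ≤ ‖nc_cyc_V h b j x - h x‖ + ‖b j x‖ :=
          add_le_add_left (nc_proj_norm_apply_le (hb j).one_sub _) _
      _ ≤ _ := add_le_add_left ih _

/-- `‖e v‖² = Re ⟨v, e v⟩` for a projection. -/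
theorem nc_cyc_proj_norm_sq {e : H →L[ℂ] H} (he : IsStarProjection e) (v : H) :
    (⟪v, e v⟫_ℂ).re = ‖e v‖ ^ 2 := by
  have h1 : e (e v) = e v := congrArg (fun T : H →L[ℂ] H => T v) he.isIdempotentElem.eq
  have h2 : ⟪e v, e v⟫_ℂ = ⟪v, e v⟫_ℂ := by
    have := ContinuousLinearMap.adjoint_inner_right e v (e v)
    rw [← ContinuousLinearMap.star_eq_adjoint, he.isSelfAdjoint.star_eq, h1] at this
    exact this.symm
  rw [← h2, inner_self_eq_norm_sq_to_K]
  norm_cast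

/-- the vector inequality behind the sequential effects. -/
theorem nc_cyc_vec (h b : H →L[ℂ] H) (hp : IsStarProjection h) (hb : IsStarProjection b)
    (hhb : h * b = b) (v w : H) (δ : ℝ) (hw : ‖w‖ ≤ ‖v‖) (hδ : ‖w - h v‖ ≤ δ) :
    ‖h v‖ ^ 2 - ‖b w‖ ^ 2 ≤ ‖(h - b) v‖ ^ 2 + 2 * ‖v‖ * δ := by
  have hbh : b * h = b := by
    have := congrArg star hhb
    rwa [star_mul, hb.isSelfAdjoint.star_eq, hp.isSelfAdjoint.star_eq] at this
  have hpyth : ‖h v‖ ^ 2 = ‖b v‖ ^ 2 + ‖(h - b) v‖ ^ 2 := by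
    rw [← nc_cyc_proj_norm_sq hp, ← nc_cyc_proj_norm_sq hb,
      ← nc_cyc_proj_norm_sq (hb.sub_of_mul_eq_right hp hhb), sub_apply, inner_sub_right,
      Complex.sub_re]
    ring
  have h1 : b v = b w - b (w - h v) := by
    have h2 : b (h v) = b v := congrArg (fun T : H →L[ℂ] H => T v) hbh
    rw [map_sub, h2]; abel
  have h3 : ‖b v‖ ≤ ‖b w‖ + δ := by
    rw [h1]
    calc ‖b w - b (w - h v)‖ ≤ ‖b w‖ + ‖b (w - h v)‖ := norm_sub_le _ _
      _ ≤ ‖b w‖ + δ := add_le_add_right (le_trans (nc_proj_norm_apply_le hb _) hδ) _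
  have h4 : ‖b v‖ ≤ ‖v‖ := nc_proj_norm_apply_le hb v
  have h5 : ‖b w‖ ≤ ‖v‖ := le_trans (nc_proj_norm_apply_le hb w) hw
  have h6 : 0 ≤ δ := le_trans (norm_nonneg _) hδ
  have h7 : ‖b v‖ ^ 2 - ‖b w‖ ^ 2 ≤ 2 * ‖v‖ * δ := by
    have hx := norm_nonneg (b v)
    have hy := norm_nonneg (b w)
    rcases le_total ‖b v‖ ‖b w‖ with hle | hle
    · have : ‖b v‖ ^ 2 ≤ ‖b w‖ ^ 2 := pow_le_pow_left₀ hx hle 2
      have : 0 ≤ 2 * ‖v‖ * δ := by positivity
      linarith
    · have e1 : ‖b v‖ ^ 2 - ‖b w‖ ^ 2 = (‖b v‖ - ‖b w‖) * (‖b v‖ + ‖b w‖) := by ring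
      rw [e1]
      calc (‖b v‖ - ‖b w‖) * (‖b v‖ + ‖b w‖) ≤ δ * (2 * ‖v‖) :=
            mul_le_mul (by linarith) (by linarith) (by positivity) h6
        _ = 2 * ‖v‖ * δ := by ring
  linarith

/-- the same, summed over a family. -/
theorem nc_cyc_fam (h : H →L[ℂ] H) (hp : IsStarProjection h) (b : ℕ → (H →L[ℂ] H))
    (hb : ∀ j, IsStarProjection (b j)) (hhb : ∀ j, h * b j = b j) {ι : Type*} [Fintype ι]
    (Ξ : ι → H) (j : ℕ) (t : ℝ) (ht : 0 < t) :
    nc_sq Ξ h - nc_sq Ξ (b j * nc_cyc_V h b j)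
      ≤ nc_sq Ξ (h - b j) + ∑ k ∈ Finset.range j, (t * nc_sq Ξ 1 + nc_sq Ξ (b k) / t) := by
  have hbh : ∀ j, b j * h = b j := by
    intro j
    have := congrArg star (hhb j)
    rwa [star_mul, (hb j).isSelfAdjoint.star_eq, hp.isSelfAdjoint.star_eq] at this
  have key : ∀ i : ι, ‖h (Ξ i)‖ ^ 2 - ‖(b j * nc_cyc_V h b j) (Ξ i)‖ ^ 2
      ≤ ‖(h - b j) (Ξ i)‖ ^ 2
        + ∑ k ∈ Finset.range j, (t * ‖(1 : H →L[ℂ] H) (Ξ i)‖ ^ 2 + ‖b k (Ξ i)‖ ^ 2 / t) := by
    intro i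
    have h1 := nc_cyc_vec h (b j) hp (hb j) (hhb j) (Ξ i) (nc_cyc_V h b j (Ξ i)) _
      (nc_cyc_V_norm_le h hp b hb j _) (nc_cyc_V_sub_le h b hb hbh j (Ξ i))
    refine le_trans h1 (add_le_add_right ?_ _)
    rw [Finset.mul_sum]
    refine Finset.sum_le_sum fun k _ => ?_
    rw [one_apply_eq_self]
    have h2 : 0 ≤ (t * ‖Ξ i‖ - ‖b k (Ξ i)‖) ^ 2 / t := by positivity
    have h3 : (t * ‖Ξ i‖ - ‖b k (Ξ i)‖) ^ 2 / t
        = t * ‖Ξ i‖ ^ 2 + ‖b k (Ξ i)‖ ^ 2 / t - 2 * ‖Ξ i‖ * ‖b k (Ξ i)‖ := by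
      field_simp
      ring
    linarith
  have hsum := Finset.sum_le_sum fun (i : ι) (_ : i ∈ Finset.univ) => key i
  rw [Finset.sum_sub_distrib, Finset.sum_add_distrib, Finset.sum_comm] at hsum
  refine le_trans hsum (le_of_eq ?_)
  unfold nc_sq
  congr 1
  refine Finset.sum_congr rfl fun k _ => ?_
  rw [Finset.sum_add_distrib, Finset.mul_sum, Finset.sum_div]

/-- L8b. sequential effects: almost orthogonal projections give positive elements with sum `≤ h`. -/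
theorem nc_effects (M : VonNeumannAlgebra H) (h : H →L[ℂ] H) (hh : h ∈ M) (hp : IsStarProjection h)
    (m : ℕ) (α X : ℝ) (hα : 0 < α) :
    ∃ η : ℝ, 0 < η ∧ ∀ (ι : Type w) [Fintype ι] (Ξ : Fin m → ι → H) (b : Fin m → (H →L[ℂ] H)),
      (∀ j, nc_sq (Ξ j) 1 ≤ X) → (∀ j, b j ∈ M ∧ IsStarProjection (b j) ∧ h * b j = b j) →
      (∀ j, nc_sq (Ξ j) (h - b j) ≤ η) → (∀ j k, j ≠ k → nc_sq (Ξ j) (b k) ≤ η) →
        ∃ s : Fin m → (H →L[ℂ] H), (∀ j, s j ∈ M ∧ 0 ≤ s j) ∧ ∑ j, s j ≤ h ∧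
          ∀ j, (nc_chi (Ξ j) (h - s j)).re ≤ α := by
  set X' : ℝ := |X| + 1 with hX'
  have hX'pos : 0 < X' := by positivity
  set m' : ℝ := (m : ℝ) + 1 with hm'
  have hm'pos : 0 < m' := by positivity
  set t : ℝ := α / (4 * m' * X') with ht
  have htpos : 0 < t := by positivity
  refine ⟨min (α / 4) (α * t / (4 * m')), lt_min (by positivity) (by positivity), ?_⟩
  set η : ℝ := min (α / 4) (α * t / (4 * m')) with hη
  have hη1 : η ≤ α / 4 := min_le_left _ _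
  have hη2 : η ≤ α * t / (4 * m') := min_le_right _ _
  intro ι _ Ξ b hX hb hdiag hoff
  -- extension of `b` to all natural indices
  set bb : ℕ → (H →L[ℂ] H) := fun j => if hj : j < m then b ⟨j, hj⟩ else 0 with hbb
  have hbbv : ∀ j : Fin m, bb j = b j := by
    intro j
    simp only [hbb, j.2, dif_pos, Fin.eta]
  have hbbM : ∀ j, bb j ∈ M := by
    intro j
    simp only [hbb]
    split_ifs with hj
    · exact (hb _).1
    · exact zero_mem M
  have hbbP : ∀ j, IsStarProjection (bb j) := by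
    intro j
    simp only [hbb]
    split_ifs with hj
    · exact (hb _).2.1
    · exact IsStarProjection.zero _
  have hbbh : ∀ j, h * bb j = bb j := by
    intro j
    simp only [hbb]
    split_ifs with hj
    · exact (hb _).2.2
    · exact mul_zero _
  set V := nc_cyc_V h bb with hV
  have hVM : ∀ j, V j ∈ M := nc_cyc_V_mem M h hh bb hbbM
  refine ⟨fun j => star (V j) * bb j * V j, fun j => ⟨?_, ?_⟩, ?_, ?_⟩
  · exact mul_mem (mul_mem (star_mem (hVM j)) (hbbM j)) (hVM j)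
  · exact star_left_conjugate_nonneg (hbbP j).nonneg _
  · rw [Fin.sum_univ_eq_sum_range (fun j => star (V j) * bb j * V j) m,
      nc_cyc_V_sum h hp bb hbbP m]
    exact sub_le_self _ (star_mul_self_nonneg _)
  · intro j
    have e1 : star (V j) * bb j * V j = star (bb j * V j) * (bb j * V j) := by
      rw [star_mul, (hbbP j).isSelfAdjoint.star_eq, mul_assoc, mul_assoc, ← mul_assoc (bb j) (bb j),
        (hbbP j).isIdempotentElem.eq]
    have e2 : (nc_chi (Ξ j) (h - star (V j) * bb j * V j)).re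
        = nc_sq (Ξ j) h - nc_sq (Ξ j) (bb j * V j) := by
      rw [nc_chi_sub, e1, nc_chi_star_mul_self, nc_chi_proj _ hp]
      simp
    rw [e2]
    have h1 := nc_cyc_fam h hp bb hbbP hbbh (Ξ j) j t htpos
    refine le_trans h1 ?_
    have h2 : nc_sq (Ξ j) (h - bb j) ≤ η := by rw [hbbv]; exact hdiag j
    have h3 : ∀ k ∈ Finset.range (j : ℕ), t * nc_sq (Ξ j) 1 + nc_sq (Ξ j) (bb k) / t
        ≤ t * X' + η / t := by
      intro k hk
      have hkj : k < (j : ℕ) := Finset.mem_range.1 hk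
      have hkm : k < m := lt_trans hkj j.2
      have e3 : bb k = b ⟨k, hkm⟩ := hbbv ⟨k, hkm⟩
      have h4 : nc_sq (Ξ j) (bb k) ≤ η := by
        rw [e3]
        refine hoff j ⟨k, hkm⟩ ?_
        intro hjk
        have := congrArg Fin.val hjk
        simp only at this
        omega
      have h5 : nc_sq (Ξ j) 1 ≤ X' := le_trans (hX j) (by rw [hX']; linarith [le_abs_self X])
      exact add_le_add (mul_le_mul_of_nonneg_left h5 htpos.le)
        (div_le_div_of_nonneg_right h4 htpos.le)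
    have h6 := Finset.sum_le_sum h3
    rw [Finset.sum_const, Finset.card_range, nsmul_eq_mul] at h6
    have hηpos : 0 < η := lt_min (by positivity) (by positivity)
    have h7 : ((j : ℕ) : ℝ) * (t * X' + η / t) ≤ m' * (t * X' + η / t) := by
      apply mul_le_mul_of_nonneg_right _ (by positivity)
      have : ((j : ℕ) : ℝ) ≤ (m : ℝ) := by exact_mod_cast j.2.le
      rw [hm']; linarith
    have h8 : m' * (t * X') = α / 4 := by
      rw [ht]; field_simp
    have h9 : m' * (η / t) ≤ α / 4 := by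
      have : η / t ≤ α / (4 * m') := by
        rw [div_le_iff₀ htpos]
        calc η ≤ α * t / (4 * m') := hη2
          _ = α / (4 * m') * t := by ring
      calc m' * (η / t) ≤ m' * (α / (4 * m')) := mul_le_mul_of_nonneg_left this hm'pos.le
        _ = α / 4 := by field_simp
    have h10 : m' * (t * X' + η / t) = m' * (t * X') + m' * (η / t) := by ring
    linarith

/-! ### Assembly -/

theorem nc_cyc_norm_sq_eq (T : H →L[ℂ] H) (x : H) :
    ‖T x‖ ^ 2 = (⟪x, (star T * T) x⟫_ℂ).re := by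
  have h1 : (star T * T) x = (ContinuousLinearMap.adjoint T) (T x) := rfl
  rw [h1, ContinuousLinearMap.adjoint_inner_right, inner_self_eq_norm_sq_to_K]
  norm_cast

/-- an operator with `T^* T` a projection is a contraction. -/
theorem nc_cyc_norm_le_one {T e : H →L[ℂ] H} (he : IsStarProjection e) (hT : star T * T = e) :
    ‖T‖ ≤ 1 := by
  refine ContinuousLinearMap.opNorm_le_bound _ zero_le_one fun x => ?_
  rw [one_mul]
  have h1 : ‖T x‖ ^ 2 = ‖e x‖ ^ 2 := by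
    rw [nc_cyc_norm_sq_eq, hT, nc_cyc_proj_norm_sq he]
  have h2 : ‖e x‖ ≤ ‖x‖ := nc_proj_norm_apply_le he x
  have h3 : ‖T x‖ ^ 2 ≤ ‖x‖ ^ 2 := by rw [h1]; exact pow_le_pow_left₀ (norm_nonneg _) h2 2
  exact (pow_le_pow_iff_left₀ (norm_nonneg _) (norm_nonneg _) (by norm_num)).1 h3

theorem nc_cyc_chi_conj {ι : Type*} [Fintype ι] (ξ : ι → H) (T z : H →L[ℂ] H) :
    nc_chi ξ (star T * z * T) = nc_chi (fun k => T (ξ k)) z := by
  unfold nc_chi
  refine Finset.sum_congr rfl fun k _ => ?_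
  have h1 : (star T * z * T) (ξ k) = (ContinuousLinearMap.adjoint T) (z (T (ξ k))) := rfl
  rw [h1, ContinuousLinearMap.adjoint_inner_right]

/-- L8c. assembly (= `nc_ncp`).  X := nc_sq ξ 1; η from `nc_effects` (α/2, X); f, P from `nc_Sing` with parameter min η (η/m);
c from `nc_cyc_choice`; u l := nc_rot P c l; b j := u j * f * u (-j); Ξ j := fun k => u j (ξ k); s j from `nc_effects`;
s := (1/m) ∑ j, u (-j) * s j * u j;  p := nc_class P c.
p_i u (-j) s_j u j p_i = p_i s_j p_i (`nc_class_mul_rot`), so m p_i s p_i = p_i (∑_j s_j) p_i ≤ p_i.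
nc_sq ξ (h - s) ≤ Re chi (h - s) = (1/m) ∑_j Re nc_chi (Ξ j) (h - s j). -/
theorem nc_cyc_main (M : VonNeumannAlgebra H) (A : StarSubalgebra ℂ (H →L[ℂ] H)) (hA : nc_Masa M A)
    (h : H →L[ℂ] H) (hh : h ∈ A) (hp : IsStarProjection h) {ι : Type*} [Fintype ι] (ξ : ι → H)
    (hs : nc_Sing M A h ξ) (m : ℕ) (hm : 0 < m) (α : ℝ) (hα : 0 < α) :
    ∃ p : Fin m → (H →L[ℂ] H), nc_IsPart A h p ∧
      ∃ s ∈ M, 0 ≤ s ∧ s ≤ h ∧ nc_sq ξ (h - s) < α ∧ ∀ i, p i * s * p i ≤ (1 / (m : ℝ)) • p i := by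
  have hhM : h ∈ M := nc_masa_le M A hA hh
  have hmR : (0 : ℝ) < m := by exact_mod_cast hm
  obtain ⟨η, hη, heff⟩ := nc_effects M h hhM hp m (α / 2) (nc_sq ξ 1) (by positivity)
  obtain ⟨f, hfM, hfP, hhf, hf1, n, P, hP, hf2⟩ := hs (min η (η / m)) (lt_min hη (by positivity))
  obtain ⟨c, hc⟩ := nc_cyc_choice A h P hP f ξ m hm
  obtain ⟨u, hu⟩ : ∃ u : ℤ → (H →L[ℂ] H), u = fun l => nc_rot P c l := ⟨_, rfl⟩
  have umul : ∀ l l', u l * u l' = u (l + l') := by
    intro l l'; rw [hu]; exact nc_rot_mul A h P hP c l l'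
  have ustar : ∀ l, star (u l) = u (-l) := by
    intro l; rw [hu]; exact nc_rot_star A h P hP c l
  have u0 : u 0 = h := by rw [hu]; exact nc_rot_zero A h P hP c
  have uper : ∀ l, u (l + m) = u l := by
    intro l; rw [hu]; exact nc_rot_add_period P hm c l
  have uA : ∀ l, u l ∈ A := by
    intro l; rw [hu]; exact nc_rot_mem A h P hP c l
  have uM : ∀ l, u l ∈ M := fun l => nc_masa_le M A hA (uA l)
  have hul : ∀ l, h * u l = u l := fun l => by rw [← u0, umul, zero_add]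
  have uhl : ∀ l, u l * h = u l := fun l => by rw [← u0, umul, add_zero]
  have uinv : ∀ l, u (-l) * u l = h := fun l => by rw [umul, neg_add_cancel, u0]
  have fh : f * h = f := by
    have := congrArg star hhf
    rwa [star_mul, hfP.isSelfAdjoint.star_eq, hp.isSelfAdjoint.star_eq] at this
  have unorm : ∀ l, ‖u l‖ ≤ 1 := fun l =>
    nc_cyc_norm_le_one hp (by rw [ustar, uinv])
  -- all `f u_l`, `1 ≤ l < m`, are small
  have hsmall : ∀ l ∈ Finset.Ico 1 m, nc_sq ξ (f * u (l : ℤ)) ≤ η := by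
    intro l hl
    have h1 : nc_sq ξ (f * u (l : ℤ)) ≤ ∑ l ∈ Finset.Ico 1 m, nc_sq ξ (f * nc_rot P c (l : ℤ)) := by
      rw [hu]
      exact Finset.single_le_sum (f := fun l : ℕ => nc_sq ξ (f * nc_rot P c (l : ℤ)))
        (fun l _ => nc_sq_nonneg ξ _) hl
    have h2 : ∑ i, nc_sq ξ (f * P i) ≤ η / m := le_trans hf2.le (min_le_right _ _)
    have h3 : (0 : ℝ) ≤ (m : ℝ) - 1 := by
      have : (1 : ℝ) ≤ m := by exact_mod_cast hm
      linarith
    calc nc_sq ξ (f * u (l : ℤ)) ≤ ((m : ℝ) - 1) * ∑ i, nc_sq ξ (f * P i) := le_trans h1 hc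
      _ ≤ ((m : ℝ) - 1) * (η / m) := mul_le_mul_of_nonneg_left h2 h3
      _ ≤ (m : ℝ) * (η / m) := by
          apply mul_le_mul_of_nonneg_right _ (by positivity)
          linarith
      _ = η := by field_simp
  have hsmall' : ∀ j k : Fin m, j ≠ k → nc_sq ξ (f * u (((j : ℕ) : ℤ) - ((k : ℕ) : ℤ))) ≤ η := by
    intro j k hjk
    have hjk' : (j : ℕ) ≠ (k : ℕ) := fun e => hjk (Fin.ext e)
    rcases lt_or_gt_of_ne hjk' with hlt | hgt
    · have e1 : ((j : ℕ) : ℤ) - ((k : ℕ) : ℤ) + (m : ℤ) = (((j : ℕ) + m - (k : ℕ) : ℕ) : ℤ) := by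
        have := k.2
        omega
      rw [← uper, e1]
      apply hsmall
      rw [Finset.mem_Ico]
      have := k.2
      omega
    · have e1 : ((j : ℕ) : ℤ) - ((k : ℕ) : ℤ) = (((j : ℕ) - (k : ℕ) : ℕ) : ℤ) := by omega
      rw [e1]
      apply hsmall
      rw [Finset.mem_Ico]
      have := j.2
      omega
  -- the data for `nc_effects`
  obtain ⟨b, hb⟩ : ∃ b : Fin m → (H →L[ℂ] H),
      b = fun j : Fin m => u ((j : ℕ) : ℤ) * f * u (-((j : ℕ) : ℤ)) := ⟨_, rfl⟩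
  have hbj : ∀ j : Fin m, b j = u ((j : ℕ) : ℤ) * f * u (-((j : ℕ) : ℤ)) := fun j => by rw [hb]
  have hX : ∀ j : Fin m, nc_sq (fun k => u ((j : ℕ) : ℤ) (ξ k)) 1 ≤ nc_sq ξ 1 := by
    intro j
    rw [nc_sq_comp, one_mul, ← mul_one (u ((j : ℕ) : ℤ))]
    exact nc_sq_mul_le_of_norm_le_one ξ (unorm _) 1
  have hbP : ∀ j, b j ∈ M ∧ IsStarProjection (b j) ∧ h * b j = b j := by
    intro j
    rw [hbj]
    refine ⟨mul_mem (mul_mem (uM _) hfM) (uM _), ⟨?_, ?_⟩, ?_⟩
    · show u ((j : ℕ) : ℤ) * f * u (-((j : ℕ) : ℤ)) * (u ((j : ℕ) : ℤ) * f * u (-((j : ℕ) : ℤ))) = _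
      calc u ((j : ℕ) : ℤ) * f * u (-((j : ℕ) : ℤ)) * (u ((j : ℕ) : ℤ) * f * u (-((j : ℕ) : ℤ)))
          = u ((j : ℕ) : ℤ) * (f * (u (-((j : ℕ) : ℤ)) * u ((j : ℕ) : ℤ)) * f) * u (-((j : ℕ) : ℤ)) := by
            simp only [mul_assoc]
        _ = _ := by rw [uinv, fh, hfP.isIdempotentElem.eq]
    · show star (u ((j : ℕ) : ℤ) * f * u (-((j : ℕ) : ℤ))) = _
      rw [star_mul, star_mul, ustar, ustar, neg_neg, hfP.isSelfAdjoint.star_eq, mul_assoc]
    · rw [← mul_assoc, ← mul_assoc, hul]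
  have hdiag : ∀ j : Fin m, nc_sq (fun k => u ((j : ℕ) : ℤ) (ξ k)) (h - b j) ≤ η := by
    intro j
    rw [nc_sq_comp, hbj]
    have e1 : (h - u ((j : ℕ) : ℤ) * f * u (-((j : ℕ) : ℤ))) * u ((j : ℕ) : ℤ)
        = u ((j : ℕ) : ℤ) * (h - f) := by
      rw [sub_mul, hul, mul_assoc, uinv, mul_assoc, fh, mul_sub, uhl]
    rw [e1]
    exact le_trans (nc_sq_mul_le_of_norm_le_one ξ (unorm _) _)
      (le_trans hf1.le (min_le_left _ _))
  have hoff : ∀ j k : Fin m, j ≠ k → nc_sq (fun i => u ((j : ℕ) : ℤ) (ξ i)) (b k) ≤ η := by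
    intro j k hjk
    rw [nc_sq_comp, hbj]
    have e1 : u ((k : ℕ) : ℤ) * f * u (-((k : ℕ) : ℤ)) * u ((j : ℕ) : ℤ)
        = u ((k : ℕ) : ℤ) * (f * u (((j : ℕ) : ℤ) - ((k : ℕ) : ℤ))) := by
      rw [mul_assoc, umul, mul_assoc, neg_add_eq_sub]
    rw [e1]
    exact le_trans (nc_sq_mul_le_of_norm_le_one ξ (unorm _) _) (hsmall' j k hjk)
  obtain ⟨s, hs1, hs2, hs3⟩ := heff ι (fun j k => u ((j : ℕ) : ℤ) (ξ k)) b hX hbP hdiag hoff
  have hsj : ∀ j, s j ≤ h := fun j =>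
    le_trans (Finset.single_le_sum (fun i _ => (hs1 i).2) (Finset.mem_univ j)) hs2
  -- the element `s`
  have hterm : ∀ j : Fin m, u (-((j : ℕ) : ℤ)) * s j * u ((j : ℕ) : ℤ)
      = star (u ((j : ℕ) : ℤ)) * s j * u ((j : ℕ) : ℤ) := fun j => by rw [ustar]
  have hconj_h : ∀ j : Fin m, star (u ((j : ℕ) : ℤ)) * h * u ((j : ℕ) : ℤ) = h := fun j => by
    rw [ustar, uhl, uinv]
  have hmne : (m : ℝ) ≠ 0 := hmR.ne'
  have hsumh : (1 / (m : ℝ)) • ∑ _j : Fin m, h = h := by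
    rw [Finset.sum_const, Finset.card_univ, Fintype.card_fin, ← Nat.cast_smul_eq_nsmul ℝ, smul_smul]
    rw [one_div, inv_mul_cancel₀ hmne, one_smul]
  refine ⟨nc_class P c, (nc_class_isPart A h P hP c).1,
    (1 / (m : ℝ)) • ∑ j : Fin m, u (-((j : ℕ) : ℤ)) * s j * u ((j : ℕ) : ℤ), ?_, ?_, ?_, ?_, ?_⟩
  · rw [← Complex.coe_smul]
    exact M.toStarSubalgebra.smul_mem
      (sum_mem fun j _ => mul_mem (mul_mem (uM _) (hs1 j).1) (uM _)) _
  · refine smul_nonneg (by positivity) (Finset.sum_nonneg fun j _ => ?_)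
    rw [hterm]
    exact star_left_conjugate_nonneg (hs1 j).2 _
  · calc (1 / (m : ℝ)) • ∑ j : Fin m, u (-((j : ℕ) : ℤ)) * s j * u ((j : ℕ) : ℤ)
        ≤ (1 / (m : ℝ)) • ∑ _j : Fin m, h := by
          refine smul_le_smul_of_nonneg_left (Finset.sum_le_sum fun j _ => ?_) (by positivity)
          rw [hterm]
          exact le_trans (star_left_conjugate_le_conjugate (hsj j) _) (le_of_eq (hconj_h j))
      _ = h := hsumh
  · -- accuracy
    have e1 : h - (1 / (m : ℝ)) • ∑ j : Fin m, u (-((j : ℕ) : ℤ)) * s j * u ((j : ℕ) : ℤ)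
        = (1 / (m : ℝ)) • ∑ j : Fin m, star (u ((j : ℕ) : ℤ)) * (h - s j) * u ((j : ℕ) : ℤ) := by
      conv_lhs => rw [← hsumh]
      rw [← smul_sub, ← Finset.sum_sub_distrib]
      congr 1
      refine Finset.sum_congr rfl fun j _ => ?_
      rw [mul_sub, sub_mul, hconj_h, hterm]
    have hpos : 0 ≤ (1 / (m : ℝ)) • ∑ j : Fin m,
        star (u ((j : ℕ) : ℤ)) * (h - s j) * u ((j : ℕ) : ℤ) :=
      smul_nonneg (by positivity) (Finset.sum_nonneg fun j _ =>
        star_left_conjugate_nonneg (sub_nonneg.2 (hsj j)) _)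
    have hle1 : (1 / (m : ℝ)) • ∑ j : Fin m,
        star (u ((j : ℕ) : ℤ)) * (h - s j) * u ((j : ℕ) : ℤ) ≤ 1 := by
      rw [← e1]
      refine le_trans (sub_le_self _ ?_) hp.le_one
      refine smul_nonneg (by positivity) (Finset.sum_nonneg fun j _ => ?_)
      rw [hterm]
      exact star_left_conjugate_nonneg (hs1 j).2 _
    rw [e1]
    refine lt_of_le_of_lt (nc_sq_le_chi ξ hpos hle1) ?_
    rw [nc_chi_real_smul, nc_chi_sum, Complex.re_ofReal_mul, Complex.re_sum]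
    have h4 : ∑ j : Fin m, (nc_chi ξ (star (u ((j : ℕ) : ℤ)) * (h - s j) * u ((j : ℕ) : ℤ))).re
        ≤ ∑ _j : Fin m, α / 2 := by
      refine Finset.sum_le_sum fun j _ => ?_
      rw [nc_cyc_chi_conj]
      exact hs3 j
    rw [Finset.sum_const, Finset.card_univ, Fintype.card_fin, nsmul_eq_mul] at h4
    calc 1 / (m : ℝ) * ∑ j : Fin m,
          (nc_chi ξ (star (u ((j : ℕ) : ℤ)) * (h - s j) * u ((j : ℕ) : ℤ))).re
        ≤ 1 / (m : ℝ) * ((m : ℝ) * (α / 2)) := mul_le_mul_of_nonneg_left h4 (by positivity)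
      _ = α / 2 := by field_simp
      _ < α := by linarith
  · -- compression
    intro i
    have hpi := ((nc_class_isPart A h P hP c).1).1 i
    have hpih : nc_class P c i * h * nc_class P c i = nc_class P c i := by
      rw [nc_part_mul_right A h _ (nc_class_isPart A h P hP c).1 i, hpi.2.isIdempotentElem.eq]
    have e1 : ∀ j : Fin m, nc_class P c i * (u (-((j : ℕ) : ℤ)) * s j * u ((j : ℕ) : ℤ))
        * nc_class P c i = nc_class P c i * s j * nc_class P c i := by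
      intro j
      have a1 : nc_class P c i * u (-((j : ℕ) : ℤ))
          = Complex.exp (2 * Real.pi * Complex.I * ((-((j : ℕ) : ℤ) : ℤ) : ℂ) * ((i : ℕ) : ℂ) / m)
            • nc_class P c i := by
        rw [hu]; exact nc_class_mul_rot A h P hP c _ i
      have a2 : u ((j : ℕ) : ℤ) * nc_class P c i
          = Complex.exp (2 * Real.pi * Complex.I * ((((j : ℕ) : ℤ) : ℤ) : ℂ) * ((i : ℕ) : ℂ) / m)
            • nc_class P c i := by
        rw [(nc_masa_commute M A hA (uA _) hpi.1).eq, hu]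
        exact nc_class_mul_rot A h P hP c _ i
      calc nc_class P c i * (u (-((j : ℕ) : ℤ)) * s j * u ((j : ℕ) : ℤ)) * nc_class P c i
          = (nc_class P c i * u (-((j : ℕ) : ℤ))) * s j * (u ((j : ℕ) : ℤ) * nc_class P c i) := by
            simp only [mul_assoc]
        _ = _ := by
            rw [a1, a2, smul_mul_assoc, smul_mul_assoc, mul_smul_comm, smul_smul,
              ← Complex.exp_add]
            have : 2 * (Real.pi : ℂ) * Complex.I * ((-((j : ℕ) : ℤ) : ℤ) : ℂ) * ((i : ℕ) : ℂ) / m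
                + 2 * Real.pi * Complex.I * ((((j : ℕ) : ℤ) : ℤ) : ℂ) * ((i : ℕ) : ℂ) / m = 0 := by
              push_cast
              ring
            rw [this, Complex.exp_zero, one_smul]
    calc nc_class P c i * ((1 / (m : ℝ)) • ∑ j : Fin m, u (-((j : ℕ) : ℤ)) * s j * u ((j : ℕ) : ℤ))
          * nc_class P c i
        = (1 / (m : ℝ)) • (nc_class P c i * (∑ j, s j) * nc_class P c i) := by
          rw [mul_smul_comm, smul_mul_assoc, Finset.mul_sum, Finset.sum_mul, Finset.mul_sum,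
            Finset.sum_mul]
          congr 1
          exact Finset.sum_congr rfl fun j _ => e1 j
      _ ≤ (1 / (m : ℝ)) • (nc_class P c i * h * nc_class P c i) :=
          smul_le_smul_of_nonneg_left (hpi.2.isSelfAdjoint.conjugate_le_conjugate hs2)
            (by positivity)
      _ = (1 / (m : ℝ)) • nc_class P c i := by rw [hpih]

end Claimed.Agent.R302
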