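/-
R302 / NC / L3 : the normal part of a positive functional `theta` on `B(H)` RELATIVE TO `M`.
Proof (Notes_helper7, (D)): GNS (K, pi, x0) of theta (Mathlib: `PositiveLinearMap.gnsStarAlgHom`, x0 = class of 1).
  K0 := { v : K | ∃ C n (ζ : Fin n → H), ∀ y ∈ M, ‖pi y v‖ ^ 2 ≤ C * ∑ i, ‖y (ζ i)‖ ^ 2 }   (a subspace),
  invariant under pi(M) and under every bounded operator commuting with pi(M);  zz := projection onto closure K0;
  lam z := ⟪zz x0, pi z (zz x0)⟫.
  * normal: zz x0 is a norm limit of v ∈ K0, and for v ∈ K0 the functional x ↦ ⟪v, pi x v⟫ on M factors through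
    x ↦ (x ζ_i)_i  boundedly, so (Riesz) it equals x ↦ ∑ i, ⟪η_i, x ζ_i⟫.
  * centrality: u = 2e-1; V_u : pi(z) x0 ↦ pi(z u) x0 is a selfadjoint unitary commuting with pi(B(H)), pi(u) x0 = V_u x0,
    zz commutes with pi(u) (u ∈ M) and with V_u.
  * absorption: the hypothesis says pi(f) x0 ∈ K0, so ‖pi f x0‖ = ‖zz pi f x0‖ = ‖pi f zz x0‖.
Proved by helper210 (NormalPart1.lean, NormalPart2.lean).
-/
import Claimed.Agent.R302.NC.Defs
import Claimed.Agent.R302.NC.NormalPart2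

set_option autoImplicit false

open scoped InnerProductSpace ComplexOrder

-- with `ComplexOrder` in scope this instance hijacks `Inner ℂ H`
attribute [-instance] WithCStarModule.instCStarModuleComplex

namespace Claimed.Agent.R302

variable {H : Type*} [NormedAddCommGroup H] [InnerProductSpace ℂ H] [CompleteSpace H]

universe v

/-- The projection of the cyclic vector onto the closure of the dominated vectors. -/
noncomputable def nc_np_w (M : VonNeumannAlgebra H) (θ : (H →L[ℂ] H) →ₚ[ℂ] ℂ) : θ.GNS :=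
  (nc_np_K0 M θ).topologicalClosure.starProjection (nc_np_cl θ 1)

theorem nc_np_w_mem (M : VonNeumannAlgebra H) (θ : (H →L[ℂ] H) →ₚ[ℂ] ℂ) :
    nc_np_w M θ ∈ (nc_np_K0 M θ).topologicalClosure :=
  Submodule.starProjection_apply_mem _ _

/-- `π(m) w = P (class of m)` for `m ∈ M`. -/
theorem nc_np_pi_w (M : VonNeumannAlgebra H) (θ : (H →L[ℂ] H) →ₚ[ℂ] ℂ) {m : H →L[ℂ] H}
    (hm : m ∈ M) :
    θ.gnsStarAlgHom m (nc_np_w M θ)
      = (nc_np_K0 M θ).topologicalClosure.starProjection (nc_np_cl θ m) := by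
  unfold nc_np_w
  rw [← nc_np_proj_comm (nc_np_K0 M θ) (θ.gnsStarAlgHom m) (θ.gnsStarAlgHom (star m))
    (fun x y => by rw [← nc_np_inner_pi_star, star_star])
    (fun v hv => nc_np_K0_pi M θ hm hv) (fun v hv => nc_np_K0_pi M θ (star_mem hm) hv),
    nc_np_pi_cl, mul_one]

theorem nc_np_central_symm (M : VonNeumannAlgebra H) (θ : (H →L[ℂ] H) →ₚ[ℂ] ℂ)
    (u : H →L[ℂ] H) (huM : u ∈ M) (hu : star u = u) (hu2 : u * u = 1)
    (hc : ∀ z, θ (u * z) = θ (z * u)) (z : H →L[ℂ] H) :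
    nc_np_vec θ (nc_np_w M θ) (u * z) = nc_np_vec θ (nc_np_w M θ) (z * u) := by
  set w := nc_np_w M θ with hw
  set V := nc_np_V θ u hu hu2 hc with hV
  have h1 : θ.gnsStarAlgHom u w = V w := by
    rw [hw, nc_np_pi_w M θ huM]
    unfold nc_np_w
    rw [← nc_np_proj_comm (nc_np_K0 M θ) V V (nc_np_V_symm θ u hu hu2 hc)
      (fun v hv => nc_np_K0_comm M θ V (fun y _ x => nc_np_V_comm θ u hu hu2 hc y x) hv)
      (fun v hv => nc_np_K0_comm M θ V (fun y _ x => nc_np_V_comm θ u hu hu2 hc y x) hv),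
      hV, nc_np_V_cl, one_mul]
  rw [nc_np_vec_apply, nc_np_vec_apply, nc_np_pi_mul, nc_np_pi_mul, h1]
  have h2 : ⟪w, θ.gnsStarAlgHom u (θ.gnsStarAlgHom z w)⟫_ℂ
      = ⟪θ.gnsStarAlgHom u w, θ.gnsStarAlgHom z w⟫_ℂ := by
    rw [← nc_np_inner_pi_star, hu]
  rw [h2, h1, hV, nc_np_V_symm, nc_np_V_comm]

theorem nc_normal_part (M : VonNeumannAlgebra H) (θ : (H →L[ℂ] H) →ₚ[ℂ] ℂ) :
    ∃ lam : (H →L[ℂ] H) →ₚ[ℂ] ℂ, nc_Normal M lam ∧
      (∀ e ∈ M, IsStarProjection e → (∀ z, θ (e * z) = θ (z * e)) → ∀ z, lam (e * z) = lam (z * e)) ∧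
      (∀ (κ : Type v) [Fintype κ] (ζ : κ → H) (C : ℝ), ∀ f ∈ M,
        (∀ y ∈ M, (θ (star (y * f) * (y * f))).re ≤ C * nc_sq ζ y) →
          lam (star f * f) = θ (star f * f)) := by
  refine ⟨nc_np_vec θ (nc_np_w M θ), nc_np_vec_normal M θ (nc_np_w_mem M θ), ?_, ?_⟩
  · intro e he hpe hc z
    have hee : e * e = e := hpe.isIdempotentElem
    have hes : star e = e := hpe.isSelfAdjoint
    have huM : (2 : ℂ) • e - 1 ∈ M := sub_mem (M.toStarSubalgebra.smul_mem he 2) (one_mem M)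
    have hu : star ((2 : ℂ) • e - 1) = (2 : ℂ) • e - 1 := by
      rw [star_sub, star_smul, hes, star_one]
      simp
    have hu2 : ((2 : ℂ) • e - 1) * ((2 : ℂ) • e - 1) = 1 := by
      rw [sub_mul, mul_sub, mul_sub, smul_mul_smul_comm, hee, mul_one, one_mul, one_mul]
      module
    have hcu : ∀ z, θ (((2 : ℂ) • e - 1) * z) = θ (z * ((2 : ℂ) • e - 1)) := by
      intro z
      rw [sub_mul, mul_sub, smul_mul_assoc, mul_smul_comm, one_mul, mul_one, map_sub, map_sub,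
        map_smul, map_smul, hc]
    have key := nc_np_central_symm M θ _ huM hu hu2 hcu z
    rw [sub_mul, mul_sub, smul_mul_assoc, mul_smul_comm, one_mul, mul_one, map_sub, map_sub,
      map_smul, map_smul] at key
    have h2 : (2 : ℂ) • nc_np_vec θ (nc_np_w M θ) (e * z)
        = (2 : ℂ) • nc_np_vec θ (nc_np_w M θ) (z * e) := sub_left_injective key
    exact smul_right_injective ℂ (two_ne_zero) h2
  · intro κ _ ζ C f hf h
    have hmem := nc_np_cl_mem_K0 M θ ζ C h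
    have h1 : θ.gnsStarAlgHom f (nc_np_w M θ) = nc_np_cl θ f := by
      rw [nc_np_pi_w M θ hf, Submodule.starProjection_eq_self_iff]
      exact (nc_np_K0 M θ).le_topologicalClosure hmem
    rw [nc_np_vec_apply, nc_np_pi_mul, nc_np_inner_pi_star, h1, nc_np_inner_cl]

end Claimed.Agent.R302
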