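/-
R302 / NC / L5 : the corner below `1 - e` is singular.
Proof of `nc_big_null`: S := { w ∈ M | 0 ≤ w ≤ h, C * chi w ≤ theta w }.  Chains have upper bounds (WOT ultralimit; chi is WOT continuous,
theta is monotone).  w0 maximal: C chi(w0) ≤ theta(1).  g := 1_(-∞,1/2](w0) (`nc_tk_spec`), f := h g.  (1/2)(h-f) ≤ w0 and f/2 ≤ h - w0.
For w' ∈ M, 0 ≤ w' ≤ f/2:  w0 + w' ≤ h, so by maximality w' = 0 or theta w' < C chi w'.  Apply to w' = t f y* y f.
-/
import Claimed.Agent.R302.NC.Chi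

set_option autoImplicit false
set_option linter.unusedSectionVars false
set_option linter.style.haveILetI false

open scoped InnerProductSpace ComplexOrder

-- with `ComplexOrder` in scope this instance hijacks `Inner ℂ H`
attribute [-instance] WithCStarModule.instCStarModuleComplex

namespace Claimed.Agent.R302

variable {H : Type*} [NormedAddCommGroup H] [InnerProductSpace ℂ H] [CompleteSpace H]

/-- upper bounds of chains for Zorn arguments on positive elements of `M` below `h`: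
a nonempty chain `c` of elements of `M` in `[0,h]` has an upper bound `b ∈ M ∩ [0,h]` which is a WOT limit of the chain
along an ultrafilter on `c` finer than `atTop`. -/
theorem nc_chain_ub (M : VonNeumannAlgebra H) (h : H →L[ℂ] H) (c : Set (H →L[ℂ] H))
    (hc : IsChain (· ≤ ·) c) (hne : c.Nonempty) (hcM : ∀ w ∈ c, w ∈ M ∧ 0 ≤ w ∧ w ≤ h) :
    ∃ (U : Ultrafilter c) (b : H →L[ℂ] H), b ∈ M ∧ 0 ≤ b ∧ b ≤ h ∧ (∀ w ∈ c, w ≤ b) ∧
      WotTendsto (U : Filter c) (fun w : c => (w : H →L[ℂ] H)) b := by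
  classical
  haveI : Nonempty c := hne.to_subtype
  haveI : IsDirected c (· ≤ ·) := by
    refine ⟨fun x y => ?_⟩
    rcases hc.total x.2 y.2 with hxy | hxy
    · exact ⟨y, hxy, le_rfl⟩
    · exact ⟨x, le_rfl, hxy⟩
  let U : Ultrafilter c := Ultrafilter.of Filter.atTop
  have hU : (U : Filter c) ≤ Filter.atTop := Ultrafilter.of_le _
  have hbd : ∀ w : c, ‖(w : H →L[ℂ] H)‖ ≤ ‖h‖ := fun w =>
    CStarAlgebra.norm_le_norm_of_nonneg_of_le (hcM w w.2).2.1 (hcM w w.2).2.2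
  obtain ⟨b, hb⟩ := vn_exists_wotTendsto U (fun w : c => (w : H →L[ℂ] H))
    (Filter.Eventually.of_forall hbd)
  refine ⟨U, b, hb.mem M (Filter.Eventually.of_forall fun w => (hcM w w.2).1),
    hb.nonneg (Filter.Eventually.of_forall fun w => (hcM w w.2).2.1),
    hb.le_const (Filter.Eventually.of_forall fun w => (hcM w w.2).2.2), ?_, hb⟩
  intro w hw
  refine hb.const_le ?_
  have : ∀ᶠ v : c in Filter.atTop, (⟨w, hw⟩ : c) ≤ v := Filter.eventually_ge_atTop _
  exact hU this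

theorem nc_big_null (M : VonNeumannAlgebra H) (θ : (H →L[ℂ] H) →ₚ[ℂ] ℂ) (h : H →L[ℂ] H) (hh : h ∈ M)
    (hp : IsStarProjection h) {ι : Type*} [Fintype ι] (ξ : ι → H) (C : ℝ) (hC : 0 < C) :
    ∃ f ∈ M, IsStarProjection f ∧ h * f = f ∧ C * nc_sq ξ (h - f) ≤ 2 * (θ 1).re ∧
      ∀ y ∈ M, (θ (star (y * f) * (y * f))).re ≤ C * nc_sq ξ (y * f) := by
  classical
  let S : Set (H →L[ℂ] H) := {w | w ∈ M ∧ 0 ≤ w ∧ w ≤ h ∧ C * (nc_chi ξ w).re ≤ (θ w).re}
  have h0S : (0 : H →L[ℂ] H) ∈ S := ⟨zero_mem M, le_rfl, hp.nonneg, by simp [nc_chi_zero]⟩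
  obtain ⟨w₀, -, hmax⟩ := zorn_le_nonempty₀ S (by
    intro c hcS hc y hy
    obtain ⟨U, b, hbM, hb0, hbh, hub, hlim⟩ := nc_chain_ub M h c hc ⟨y, hy⟩
      (fun w hw => ⟨(hcS hw).1, (hcS hw).2.1, (hcS hw).2.2.1⟩)
    refine ⟨b, ⟨hbM, hb0, hbh, ?_⟩, hub⟩
    have h1 : Filter.Tendsto (fun w : c => C * (nc_chi ξ (w : H →L[ℂ] H)).re) U
        (nhds (C * (nc_chi ξ b).re)) :=
      ((Complex.continuous_re.tendsto _).comp (nc_chi_tendsto ξ hlim)).const_mul C
    refine le_of_tendsto' h1 fun w => ?_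
    exact (hcS w.2).2.2.2.trans (nc_plm_mono_re θ (hub w w.2))) 0 h0S
  obtain ⟨hw₀M, hw₀0, hw₀h, hw₀C⟩ := hmax.prop
  have hw₀sa : IsSelfAdjoint w₀ := IsSelfAdjoint.of_nonneg hw₀0
  obtain ⟨hwh, hhw⟩ := hp.mul_right_and_mul_left_of_nonneg_of_le hw₀0 hw₀h
  obtain ⟨g, hgp, hgc, hg1, hg2⟩ := nc_tk_spec w₀ hw₀sa (1 / 2)
  have hgM : g ∈ M := nc_tk_mem_of_bicommute M w₀ g hw₀M hgc
  have hhg : Commute h g := hgc h (by rw [commute_iff_eq, hhw, hwh])
  have hwg : Commute w₀ g := hgc w₀ (Commute.refl _)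
  set f : H →L[ℂ] H := h * g with hf
  have hfp : IsStarProjection f := hp.mul hgp hhg
  have hfM : f ∈ M := mul_mem hh hgM
  have hhf : h * f = f := by rw [hf, ← mul_assoc, hp.isIdempotentElem.eq]
  have hfh : f * h = f := by rw [hf, mul_assoc, ← hhg.eq, ← mul_assoc, hp.isIdempotentElem.eq]
  -- (1/2) (h - f) ≤ w₀
  have hA1 : (1 / 2 : ℝ) • (h - f) ≤ w₀ := by
    have h1 := hp.isSelfAdjoint.conjugate_le_conjugate hg2
    have h2 : h * ((1 / 2 : ℝ) • (1 - g)) * h = (1 / 2 : ℝ) • (h - f) := by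
      rw [mul_smul_comm, smul_mul_assoc, mul_sub, mul_one, sub_mul, hp.isIdempotentElem.eq, ← hf, hfh]
    have h3 : h * (w₀ * (1 - g)) * h = w₀ - w₀ * g := by
      rw [← mul_assoc, hhw, mul_sub, mul_one, sub_mul, hwh, mul_assoc, ← hhg.eq, ← mul_assoc, hwh]
    rw [h2, h3] at h1
    have h4 : 0 ≤ w₀ * g := by
      have := hgp.isSelfAdjoint.conjugate_nonneg hw₀0
      rwa [← hwg.eq, mul_assoc, hgp.isIdempotentElem.eq] at this
    exact h1.trans (sub_le_self _ h4)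
  -- (1/2) f ≤ h - w₀
  have hA2 : (1 / 2 : ℝ) • f ≤ h - w₀ := by
    have h1 := hp.isSelfAdjoint.conjugate_le_conjugate hg1
    have h2 : h * (w₀ * g) * h = w₀ * g := by
      rw [← mul_assoc, hhw, mul_assoc, ← hhg.eq, ← mul_assoc, hwh]
    have h3 : h * ((1 / 2 : ℝ) • g) * h = (1 / 2 : ℝ) • f := by
      rw [mul_smul_comm, smul_mul_assoc, ← hf, hfh]
    rw [h2, h3] at h1
    have h4 : 0 ≤ (h - w₀) * (1 - g) := by
      have h5 := hgp.one_sub.isSelfAdjoint.conjugate_nonneg (sub_nonneg.2 hw₀h)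
      have h6 : Commute (1 - g) (h - w₀) :=
        ((Commute.one_left _).sub_left (hhg.symm.sub_right hwg.symm))
      rwa [h6.eq, mul_assoc, hgp.one_sub.isIdempotentElem.eq] at h5
    have h7 : h - w₀ = (f - w₀ * g) + (h - w₀) * (1 - g) := by
      rw [hf]; noncomm_ring
    rw [h7]
    have h8 : (1 / 2 : ℝ) • f ≤ f - w₀ * g := by
      have h9 : f - (1 / 2 : ℝ) • f = (1 / 2 : ℝ) • f := by
        rw [← sub_eq_zero]
        have : f - (1 / 2 : ℝ) • f - (1 / 2 : ℝ) • f = (1 - 1 / 2 - 1 / 2 : ℝ) • f := by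
          simp only [sub_smul, one_smul]
        rw [this]; norm_num
      calc (1 / 2 : ℝ) • f = f - (1 / 2 : ℝ) • f := h9.symm
        _ ≤ f - w₀ * g := sub_le_sub_left h1 f
    exact h8.trans (le_add_of_nonneg_right h4)
  refine ⟨f, hfM, hfp, hhf, ?_, ?_⟩
  · have hproj : IsStarProjection (h - f) := hfp.sub_of_mul_eq_right hp hhf
    have h1 : (nc_sq ξ (h - f) : ℂ) = nc_chi ξ (h - f) := (nc_chi_proj ξ hproj).symm
    have h2 := nc_chi_mono_re ξ hA1
    rw [nc_chi_real_smul, ← h1] at h2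
    have h3 : (((1 / 2 : ℝ) : ℂ) * (nc_sq ξ (h - f) : ℂ)).re = 1 / 2 * nc_sq ξ (h - f) := by
      rw [← Complex.ofReal_mul, Complex.ofReal_re]
    rw [h3] at h2
    have h4 : (θ w₀).re ≤ (θ 1).re := nc_plm_mono_re θ (hw₀h.trans hp.le_one)
    nlinarith
  · intro y hy
    set w : H →L[ℂ] H := star (y * f) * (y * f) with hw
    have hw0 : 0 ≤ w := star_mul_self_nonneg _
    have hwM : w ∈ M := mul_mem (star_mem (mul_mem hy hfM)) (mul_mem hy hfM)
    have hwle : w ≤ (‖y‖ ^ 2) • f := by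
      have h1 : star y * y ≤ (‖y‖ ^ 2) • (1 : H →L[ℂ] H) := by
        have := CStarAlgebra.star_mul_le_algebraMap_norm_sq (a := y)
        simpa [Algebra.algebraMap_eq_smul_one] using this
      have h2 := hfp.isSelfAdjoint.conjugate_le_conjugate h1
      have h3 : f * (star y * y) * f = w := by
        rw [hw, star_mul, hfp.isSelfAdjoint.star_eq]; noncomm_ring
      have h4 : f * ((‖y‖ ^ 2) • (1 : H →L[ℂ] H)) * f = (‖y‖ ^ 2) • f := by
        rw [mul_smul_comm, mul_one, smul_mul_assoc, hfp.isIdempotentElem.eq]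
      rwa [h3, h4] at h2
    set t : ℝ := 1 / (2 * (‖y‖ ^ 2 + 1)) with ht
    have htpos : 0 < t := by positivity
    have hw'0 : 0 ≤ t • w := smul_nonneg htpos.le hw0
    have hw'le : t • w ≤ (1 / 2 : ℝ) • f := by
      have h1 : t • w ≤ t • ((‖y‖ ^ 2) • f) := smul_le_smul_of_nonneg_left hwle htpos.le
      rw [smul_smul] at h1
      refine h1.trans ?_
      have h2 : t * ‖y‖ ^ 2 ≤ 1 / 2 := by
        rw [ht, div_mul_eq_mul_div, one_mul, div_le_div_iff₀ (by positivity) (by norm_num)]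
        nlinarith [sq_nonneg ‖y‖]
      exact smul_le_smul_of_nonneg_right h2 hfp.nonneg
    have hkey : (θ (t • w)).re ≤ C * (nc_chi ξ (t • w)).re := by
      by_contra hcon
      rw [not_le] at hcon
      have hin : w₀ + t • w ∈ S := by
        refine ⟨add_mem hw₀M (M.toStarSubalgebra.smul_mem hwM (t : ℂ)), add_nonneg hw₀0 hw'0, ?_, ?_⟩
        · have h10 : w₀ + t • w ≤ w₀ + (h - w₀) := by
            gcongr
            exact hw'le.trans hA2
          simpa using h10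
        · rw [nc_chi_add, map_add, Complex.add_re, Complex.add_re, mul_add]
          linarith
      have h1 : w₀ + t • w ≤ w₀ := hmax.le_of_ge hin (le_add_of_nonneg_right hw'0)
      have h2 : t • w ≤ 0 := by simpa using h1
      have h3 : t • w = 0 := le_antisymm h2 hw'0
      rw [h3, nc_chi_zero, map_zero] at hcon
      simp at hcon
    have h5 : (θ (t • w)).re = t * (θ w).re := by
      have : t • w = (t : ℂ) • w := (Complex.coe_smul t w).symm
      rw [this, map_smul, smul_eq_mul, Complex.re_ofReal_mul]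
    have h6 : (nc_chi ξ (t • w)).re = t * nc_sq ξ (y * f) := by
      rw [nc_chi_real_smul, hw, nc_chi_star_mul_self, ← Complex.ofReal_mul, Complex.ofReal_re]
    rw [h5, h6] at hkey
    have h7 : t * (θ w).re ≤ t * (C * nc_sq ξ (y * f)) := by linarith
    exact le_of_mul_le_mul_left h7 htpos

/-- from `theta f = 0` to a partition of `h`. -/
theorem nc_sing_of_null (M : VonNeumannAlgebra H) (A : StarSubalgebra ℂ (H →L[ℂ] H)) (hA : nc_Masa M A)
    (h : H →L[ℂ] H) (hh : h ∈ A) (hp : IsStarProjection h) {ι : Type*} [Fintype ι] (ξ : ι → H)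
    (θ : (H →L[ℂ] H) →ₚ[ℂ] ℂ)
    (hθ : ∀ (z : H →L[ℂ] H) (α : ℝ), 0 < α → ∃ (n : ℕ) (P : Fin n → (H →L[ℂ] H)), nc_IsPart A 1 P ∧
        ‖nc_chi ξ (nc_pinch P z) - θ z‖ < α)
    (hnull : ∀ α : ℝ, 0 < α → ∃ f ∈ M, IsStarProjection f ∧ h * f = f ∧ nc_sq ξ (h - f) < α ∧ θ f = 0) :
    nc_Sing M A h ξ := by
  intro α hα
  obtain ⟨f, hfM, hfp, hhf, hfs, hf0⟩ := hnull α hα
  obtain ⟨n, P, hP, hPα⟩ := hθ f α hα
  refine ⟨f, hfM, hfp, hhf, hfs, n, fun i => P i * h, nc_part_cut M A hA h hh hp P hP, ?_⟩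
  have hfh : f * h = f := by
    have := congrArg star hhf
    rwa [star_mul, hfp.isSelfAdjoint.star_eq, hp.isSelfAdjoint.star_eq] at this
  have h1 : ∀ i, f * (P i * h) = f * P i := by
    intro i
    rw [(nc_masa_commute M A hA (hP.1 i).1 hh).eq, ← mul_assoc, hfh]
  have h2 : nc_chi ξ (nc_pinch P f) = ((∑ i, nc_sq ξ (f * P i) : ℝ) : ℂ) := by
    rw [nc_pinch, nc_chi_sum, Complex.ofReal_sum]
    refine Finset.sum_congr rfl fun i _ => ?_
    rw [← nc_chi_star_mul_self, star_mul, hfp.isSelfAdjoint.star_eq, (hP.1 i).2.isSelfAdjoint.star_eq]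
    congr 1
    rw [mul_assoc, mul_assoc, ← mul_assoc f f, hfp.isIdempotentElem.eq]
  rw [hf0, sub_zero, h2, Complex.norm_real, Real.norm_eq_abs] at hPα
  simp only [h1]
  exact lt_of_le_of_lt (le_abs_self _) hPα

end Claimed.Agent.R302
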