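/-
R302 / NC / L4, file 1 (helper210): positive functionals on `B(H)`: Cauchy-Schwarz, the null left ideal; normal functionals are
WOT continuous on bounded parts; elementary operator inequalities.
-/
import Claimed.Agent.R302.NC.Tool

set_option autoImplicit false
set_option linter.unusedSectionVars false

open scoped InnerProductSpace ComplexOrder

-- with `ComplexOrder` in scope this instance hijacks `Inner ℂ H`
attribute [-instance] WithCStarModule.instCStarModuleComplex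

namespace Claimed.Agent.R302

variable {H : Type*} [NormedAddCommGroup H] [InnerProductSpace ℂ H] [CompleteSpace H]

section functional

variable (lam : (H →L[ℂ] H) →ₚ[ℂ] ℂ)

theorem nc_sp_cs (a b : H →L[ℂ] H) :
    ‖lam (star a * b)‖ ≤ Real.sqrt (lam (star a * a)).re * Real.sqrt (lam (star b * b)).re := by
  have h := norm_inner_le_norm (𝕜 := ℂ) (lam.toPreGNS a) (lam.toPreGNS b)
  rw [PositiveLinearMap.preGNS_inner_def, PositiveLinearMap.preGNS_norm_def,
    PositiveLinearMap.preGNS_norm_def] at h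
  simpa using h

theorem nc_sp_cs_left {a : H →L[ℂ] H} (h : lam (star a * a) = 0) (b : H →L[ℂ] H) :
    lam (star a * b) = 0 := by
  have := nc_sp_cs lam a b
  rw [h] at this
  simpa using this

theorem nc_sp_cs_right {a : H →L[ℂ] H} (h : lam (star a * a) = 0) (b : H →L[ℂ] H) :
    lam (star b * a) = 0 := by
  have := nc_sp_cs lam b a
  rw [h] at this
  simpa using this

/-- the null space is a left ideal -/
theorem nc_sp_null_mul {a : H →L[ℂ] H} (h : lam (star a * a) = 0) (y : H →L[ℂ] H) :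
    lam (star (y * a) * (y * a)) = 0 := by
  rw [star_mul, mul_assoc]
  exact nc_sp_cs_left lam h _

theorem nc_sp_null_sub {a b : H →L[ℂ] H} (ha : lam (star a * a) = 0) (hb : lam (star b * b) = 0) :
    lam (star (a - b) * (a - b)) = 0 := by
  rw [star_sub, sub_mul, mul_sub, mul_sub, map_sub, map_sub, map_sub, ha, hb,
    nc_sp_cs_left lam ha, nc_sp_cs_left lam hb]
  simp

theorem nc_sp_eq_zero_of_le {z w : H →L[ℂ] H} (hz : 0 ≤ z) (hzw : z ≤ w) (hw : lam w = 0) :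
    lam z = 0 := by
  have h1 : 0 ≤ lam z := map_nonneg lam hz
  have h2 : lam z ≤ lam w := OrderHomClass.mono lam hzw
  rw [hw] at h2
  exact le_antisymm h2 h1

end functional

/-- a normal functional is WOT continuous on bounded parts of `M`. -/
theorem nc_sp_normal_tendsto (M : VonNeumannAlgebra H) (lam : (H →L[ℂ] H) → ℂ)
    (hn : nc_Normal M lam)
    {I : Type*} (U : Filter I) (T : I → (H →L[ℂ] H)) (b : H →L[ℂ] H) (C : ℝ) (hT : ∀ i, T i ∈ M)
    (hC : ∀ i, ‖T i‖ ≤ C) (hbM : b ∈ M)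
    (hb : ∀ v w : H, Filter.Tendsto (fun i => ⟪w, T i v⟫_ℂ) U (nhds ⟪w, b v⟫_ℂ)) :
    Filter.Tendsto (fun i => lam (T i)) U (nhds (lam b)) := by
  rw [Metric.tendsto_nhds]
  intro ε hε
  set D : ℝ := |C| + ‖b‖ + 1 with hD
  have hD0 : 0 < D := by positivity
  obtain ⟨n, ζ, η, h⟩ := hn (ε / (2 * D)) (by positivity)
  have h1 : Filter.Tendsto (fun i => ∑ k, ⟪η k, T i (ζ k)⟫_ℂ) U (nhds (∑ k, ⟪η k, b (ζ k)⟫_ℂ)) :=
    tendsto_finsetSum _ fun k _ => hb (ζ k) (η k)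
  filter_upwards [(Metric.tendsto_nhds.1 h1) (ε / 2) (by positivity)] with i hi
  rw [dist_eq_norm] at hi ⊢
  have h2 := h (T i) (hT i)
  have h3 := h b hbM
  have h4 : ‖T i‖ ≤ |C| := (hC i).trans (le_abs_self C)
  have e : lam (T i) - lam b = (lam (T i) - ∑ k, ⟪η k, T i (ζ k)⟫_ℂ)
      + (∑ k, ⟪η k, T i (ζ k)⟫_ℂ - ∑ k, ⟪η k, b (ζ k)⟫_ℂ)
      - (lam b - ∑ k, ⟪η k, b (ζ k)⟫_ℂ) := by ring
  rw [e]
  have h5 : ε / (2 * D) * ‖T i‖ + ε / (2 * D) * ‖b‖ < ε / 2 := by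
    have : ε / (2 * D) * ‖T i‖ + ε / (2 * D) * ‖b‖ = ε / (2 * D) * (‖T i‖ + ‖b‖) := by ring
    rw [this, div_mul_eq_mul_div, div_lt_iff₀ (by positivity)]
    have h6 : ‖T i‖ + ‖b‖ < D := by rw [hD]; linarith
    nlinarith
  calc _ ≤ ‖lam (T i) - ∑ k, ⟪η k, T i (ζ k)⟫_ℂ‖
        + ‖∑ k, ⟪η k, T i (ζ k)⟫_ℂ - ∑ k, ⟪η k, b (ζ k)⟫_ℂ‖
        + ‖lam b - ∑ k, ⟪η k, b (ζ k)⟫_ℂ‖ :=
        (norm_sub_le _ _).trans (add_le_add_left (norm_add_le _ _) _)
    _ < ε := by linarith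

section order

/-- `w - w² ≥ 0` for `0 ≤ w ≤ 1`. -/
theorem nc_sp_sub_sq_nonneg {w : H →L[ℂ] H} (h0 : 0 ≤ w) (h1 : w ≤ 1) : 0 ≤ w - w * w := by
  have hs : star w = w := (IsSelfAdjoint.of_nonneg h0).star_eq
  have hs' : star (1 - w) = 1 - w := by rw [star_sub, star_one, hs]
  have a1 : 0 ≤ star w * (1 - w) * w := star_left_conjugate_nonneg (sub_nonneg.2 h1) w
  have a2 : 0 ≤ star (1 - w) * w * (1 - w) := star_left_conjugate_nonneg h0 (1 - w)
  rw [hs] at a1
  rw [hs'] at a2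
  have e : w - w * w = w * (1 - w) * w + (1 - w) * w * (1 - w) := by noncomm_ring
  rw [e]
  exact add_nonneg a1 a2

theorem nc_sp_inner_star_mul (y : H →L[ℂ] H) (ξ : H) :
    ⟪ξ, (star y * y) ξ⟫_ℂ = ((‖y ξ‖ ^ 2 : ℝ) : ℂ) := by
  have : (star y * y) ξ = ContinuousLinearMap.adjoint y (y ξ) := rfl
  rw [this, ContinuousLinearMap.adjoint_inner_right, inner_self_eq_norm_sq_to_K]
  norm_cast

theorem nc_sp_proj_eq_star_mul {e : H →L[ℂ] H} (he : IsStarProjection e) : e = star e * e := by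
  rw [he.isSelfAdjoint.star_eq, he.isIdempotentElem.eq]

end order

end Claimed.Agent.R302
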