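/-
R302 / NC / L4 : support projection of a normal positive functional which is central for the projections of the masa;
absolute continuity of vector functionals with respect to it.
Proof of `nc_support`: Z := { w ∈ M | 0 ≤ w ≤ 1, lam w = 0 }.  Chains have upper bounds (Vigier `vn_exists_isLUB_sot`,
lam is WOT continuous on bounded parts of M by `nc_normal_tendsto`).  A maximal w0 satisfies 2 w0 - w0^2 ∈ Z, ≥ w0, so w0 is a projection.
e := 1 - w0.  If y ∈ M, lam (y* y) = 0 and y e ≠ 0 then w0 + t e y* y e ∈ Z: contradiction.  e is the UNIQUE projection of M with the two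
properties, and u e u (u = 2g-1, g a projection of A) has them too; so e commutes with the projections of A, so e ∈ A (`nc_tk_commute_of_proj`).
Proved by helper210 (Support1.lean + this file).
-/
import Claimed.Agent.R302.NC.Tool
import Claimed.Agent.R302.NC.Pinch
import Claimed.Agent.R302.NC.Support1

set_option autoImplicit false

open scoped InnerProductSpace ComplexOrder

-- with `ComplexOrder` in scope this instance hijacks `Inner ℂ H`
attribute [-instance] WithCStarModule.instCStarModuleComplex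

namespace Claimed.Agent.R302

variable {H : Type*} [NormedAddCommGroup H] [InnerProductSpace ℂ H] [CompleteSpace H]

/-- a normal functional is WOT continuous on bounded parts of `M`. -/
theorem nc_normal_tendsto (M : VonNeumannAlgebra H) (lam : (H →L[ℂ] H) → ℂ) (hn : nc_Normal M lam)
    {I : Type*} (U : Filter I) (T : I → (H →L[ℂ] H)) (b : H →L[ℂ] H) (C : ℝ) (hT : ∀ i, T i ∈ M)
    (hC : ∀ i, ‖T i‖ ≤ C) (hbM : b ∈ M)
    (hb : ∀ v w : H, Filter.Tendsto (fun i => ⟪w, T i v⟫_ℂ) U (nhds ⟪w, b v⟫_ℂ)) :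
    Filter.Tendsto (fun i => lam (T i)) U (nhds (lam b)) :=
  nc_sp_normal_tendsto M lam hn U T b C hT hC hbM hb

/-- A maximal null element of the unit interval of `M`. -/
theorem nc_sp_exists_max (M : VonNeumannAlgebra H) (lam : (H →L[ℂ] H) →ₚ[ℂ] ℂ)
    (hn : nc_Normal M lam) :
    ∃ w0 ∈ M, 0 ≤ w0 ∧ w0 ≤ 1 ∧ lam w0 = 0 ∧
      ∀ w ∈ M, w ≤ 1 → lam w = 0 → w0 ≤ w → w = w0 := by
  obtain ⟨m, hm⟩ := zorn_le₀ {w : H →L[ℂ] H | w ∈ M ∧ 0 ≤ w ∧ w ≤ 1 ∧ lam w = 0} (by
    intro c hc hchain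
    rcases c.eq_empty_or_nonempty with rfl | hne
    · exact ⟨0, ⟨zero_mem M, le_rfl, zero_le_one, map_zero lam⟩, by simp⟩
    · haveI : Nonempty c := hne.to_subtype
      have : IsDirected c (· ≤ ·) := ⟨fun a b => by
        rcases hchain.total a.2 b.2 with h | h
        · exact ⟨b, h, le_rfl⟩
        · exact ⟨a, le_rfl, h⟩⟩
      obtain ⟨s, hs, hlim⟩ := vn_exists_isLUB_sot (fun i : c => (i : H →L[ℂ] H))
        (fun i j hij => hij) ⟨1, by rintro _ ⟨i, rfl⟩; exact (hc i.2).2.2.1⟩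
      have hsM : s ∈ M := vn_isLUB_mem M (z := fun i : c => (i : H →L[ℂ] H)) (fun i j hij => hij)
        (fun i => (hc i.2).1) hs
      obtain ⟨w, hw⟩ := hne
      have hws : w ≤ s := hs.1 ⟨⟨w, hw⟩, rfl⟩
      refine ⟨s, ⟨hsM, (hc hw).2.1.trans hws, ?_, ?_⟩, fun z hz => hs.1 ⟨⟨z, hz⟩, rfl⟩⟩
      · exact hs.2 (by rintro _ ⟨i, rfl⟩; exact (hc i.2).2.2.1)
      · have ht := nc_normal_tendsto M lam hn Filter.atTop (fun i : c => (i : H →L[ℂ] H)) s
          ‖(1 : H →L[ℂ] H)‖ (fun i => (hc i.2).1)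
          (fun i => vn_norm_le_norm_of_le (hc i.2).2.1 (hc i.2).2.2.1) hsM
          (fun v w => hlim.wotTendsto v w)
        have h0 : (fun i : c => lam (i : H →L[ℂ] H)) = fun _ => 0 := by
          funext i
          exact (hc i.2).2.2.2
        rw [h0] at ht
        exact tendsto_nhds_unique ht tendsto_const_nhds)
  obtain ⟨⟨hmM, hm0, hm1, hml⟩, hmax⟩ := hm
  refine ⟨m, hmM, hm0, hm1, hml, fun w hwM hw1 hwl hmw => ?_⟩
  exact le_antisymm (hmax ⟨hwM, hm0.trans hmw, hw1, hwl⟩ hmw) hmw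

/-- The support projection of a normal positive functional (no masa). -/
theorem nc_sp_support (M : VonNeumannAlgebra H) (lam : (H →L[ℂ] H) →ₚ[ℂ] ℂ)
    (hn : nc_Normal M lam) :
    ∃ e ∈ M, IsStarProjection e ∧ lam (1 - e) = 0 ∧ ∀ y ∈ M, lam (star y * y) = 0 → y * e = 0 := by
  obtain ⟨w0, hM, h0, h1, hl, hmax⟩ := nc_sp_exists_max M lam hn
  have hs : star w0 = w0 := (IsSelfAdjoint.of_nonneg h0).star_eq
  have hsq := nc_sp_sub_sq_nonneg h0 h1
  have hlsq : lam (w0 * w0) = 0 := by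
    refine nc_sp_eq_zero_of_le lam ?_ (sub_nonneg.1 hsq) hl
    have := star_mul_self_nonneg w0
    rwa [hs] at this
  -- `w0` is idempotent
  have hidem : w0 * w0 = w0 := by
    have hw1 := hmax (w0 + (w0 - w0 * w0)) (add_mem hM (sub_mem hM (mul_mem hM hM))) ?_ ?_ ?_
    · have : w0 - w0 * w0 = 0 := by simpa using hw1
      exact (sub_eq_zero.1 this).symm
    · rw [← sub_nonneg]
      have e : 1 - (w0 + (w0 - w0 * w0)) = star (1 - w0) * (1 - w0) := by
        rw [star_sub, star_one, hs]; noncomm_ring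
      rw [e]
      exact star_mul_self_nonneg _
    · rw [map_add, map_sub, hl, hlsq]; simp
    · exact le_add_of_nonneg_right hsq
  have hp0 : IsStarProjection w0 := ⟨hidem, hs⟩
  have hpe : IsStarProjection (1 - w0) := hp0.one_sub
  refine ⟨1 - w0, sub_mem (one_mem M) hM, hpe, by simpa using hl, fun y hy hly => ?_⟩
  set e := 1 - w0 with he
  have hes : star e = e := hpe.isSelfAdjoint.star_eq
  -- `y e` is null
  have hnull : lam (star (y * e) * (y * e)) = 0 := by
    have e1 : y * e = y - y * w0 := by rw [he, mul_sub, mul_one]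
    rw [e1]
    refine nc_sp_null_sub lam hly (nc_sp_null_mul lam ?_ y)
    rw [hs, hidem, hl]
  set z := star (y * e) * (y * e) with hz
  have hzM : z ∈ M := mul_mem (star_mem (mul_mem hy (sub_mem (one_mem M) hM)))
    (mul_mem hy (sub_mem (one_mem M) hM))
  set t : ℝ := (‖y‖ ^ 2 + 1)⁻¹ with ht
  have ht0 : 0 < t := by positivity
  have hw2 := hmax (w0 + (t : ℂ) • z) (add_mem hM (M.toStarSubalgebra.smul_mem hzM _)) ?_ ?_ ?_
  · have h3 : (t : ℂ) • z = 0 := by simpa using hw2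
    have h4 : z = 0 := by
      rcases smul_eq_zero.1 h3 with h | h
      · exact absurd (by exact_mod_cast h) ht0.ne'
      · exact h
    exact CStarRing.star_mul_self_eq_zero_iff _ |>.1 h4
  · rw [← sub_nonneg, vn_nonneg_iff]
    intro ξ
    have e2 : (1 - (w0 + (t : ℂ) • z)) ξ = (star e * e) ξ - (t : ℂ) • z ξ := by
      rw [← nc_sp_proj_eq_star_mul hpe, he]
      simp only [sub_apply, add_apply, smul_apply]
      abel
    rw [e2, inner_sub_right, inner_smul_right, nc_sp_inner_star_mul, hz, nc_sp_inner_star_mul]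
    have h5 : ‖(y * e) ξ‖ ≤ ‖y‖ * ‖e ξ‖ := y.le_opNorm (e ξ)
    have h6 : ‖(y * e) ξ‖ ^ 2 ≤ ‖y‖ ^ 2 * ‖e ξ‖ ^ 2 := by
      rw [← mul_pow]
      exact pow_le_pow_left₀ (norm_nonneg _) h5 2
    have h7 : t * ‖(y * e) ξ‖ ^ 2 ≤ ‖e ξ‖ ^ 2 := by
      have h8 : t * (‖y‖ ^ 2 * ‖e ξ‖ ^ 2) ≤ ‖e ξ‖ ^ 2 := by
        have h9 : t * ‖y‖ ^ 2 ≤ 1 := by
          rw [ht, inv_mul_le_iff₀ (by positivity)]
          linarith
        calc t * (‖y‖ ^ 2 * ‖e ξ‖ ^ 2) = (t * ‖y‖ ^ 2) * ‖e ξ‖ ^ 2 := by ring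
          _ ≤ 1 * ‖e ξ‖ ^ 2 := mul_le_mul_of_nonneg_right h9 (by positivity)
          _ = ‖e ξ‖ ^ 2 := one_mul _
      exact (mul_le_mul_of_nonneg_left h6 ht0.le).trans h8
    have h10 : (0 : ℝ) ≤ ‖e ξ‖ ^ 2 - t * ‖(y * e) ξ‖ ^ 2 := by linarith
    have h11 := Complex.zero_le_real.2 h10
    push_cast at h11 ⊢
    exact h11
  · rw [map_add, map_smul, hl, hnull]; simp
  · apply le_add_of_nonneg_right
    rw [vn_nonneg_iff]
    intro ξ
    rw [smul_apply, inner_smul_right, hz, nc_sp_inner_star_mul]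
    have h10 : (0 : ℝ) ≤ t * ‖(y * e) ξ‖ ^ 2 := by positivity
    have h11 := Complex.zero_le_real.2 h10
    push_cast at h11 ⊢
    exact h11

/-- The support projection is unique. -/
theorem nc_sp_support_unique (lam : (H →L[ℂ] H) →ₚ[ℂ] ℂ) (M : VonNeumannAlgebra H)
    {e e' : H →L[ℂ] H} (heM : e ∈ M) (he'M : e' ∈ M) (he : IsStarProjection e)
    (he' : IsStarProjection e') (h1 : lam (1 - e) = 0) (h1' : lam (1 - e') = 0)
    (h2 : ∀ y ∈ M, lam (star y * y) = 0 → y * e = 0)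
    (h2' : ∀ y ∈ M, lam (star y * y) = 0 → y * e' = 0) : e = e' := by
  have a1 : (1 - e') * e = 0 := h2 _ (sub_mem (one_mem M) he'M) (by
    rw [← nc_sp_proj_eq_star_mul he'.one_sub]; exact h1')
  have a2 : (1 - e) * e' = 0 := h2' _ (sub_mem (one_mem M) heM) (by
    rw [← nc_sp_proj_eq_star_mul he.one_sub]; exact h1)
  rw [sub_mul, one_mul, sub_eq_zero] at a1 a2
  -- a1 : e = e' * e, a2 : e' = e * e'
  have a3 : star e = star (e' * e) := congrArg star a1
  rw [star_mul, he.isSelfAdjoint.star_eq, he'.isSelfAdjoint.star_eq] at a3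
  rw [a3, ← a2]

theorem nc_support (M : VonNeumannAlgebra H) (A : StarSubalgebra ℂ (H →L[ℂ] H)) (hA : nc_Masa M A)
    (lam : (H →L[ℂ] H) →ₚ[ℂ] ℂ) (hn : nc_Normal M lam)
    (hc : ∀ e ∈ A, IsStarProjection e → ∀ z, lam (e * z) = lam (z * e)) :
    ∃ e ∈ A, IsStarProjection e ∧ lam (1 - e) = 0 ∧ ∀ y ∈ M, lam (star y * y) = 0 → y * e = 0 := by
  obtain ⟨e, heM, hpe, h1, h2⟩ := nc_sp_support M lam hn
  refine ⟨e, ?_, hpe, h1, h2⟩
  rw [hA e]
  refine ⟨heM, nc_tk_commute_of_proj M A hA e fun g hg hpg => ?_⟩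
  have hgM : g ∈ M := ((hA g).1 hg).1
  have hgg : g * g = g := hpg.isIdempotentElem
  have hgs : star g = g := hpg.isSelfAdjoint
  set u : H →L[ℂ] H := (2 : ℂ) • g - 1 with hu
  clear_value u
  have huM : u ∈ M := by
    rw [hu]; exact sub_mem (M.toStarSubalgebra.smul_mem hgM 2) (one_mem M)
  have hus : star u = u := by
    rw [hu, star_sub, star_smul, hgs, star_one]
    simp
  have hu2 : u * u = 1 := by
    rw [hu, sub_mul, mul_sub, mul_sub, smul_mul_smul_comm, hgg, mul_one, one_mul, one_mul]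
    module
  have hcu : ∀ z, lam (u * z) = lam (z * u) := by
    intro z
    rw [hu, sub_mul, mul_sub, smul_mul_assoc, mul_smul_comm, one_mul, mul_one, map_sub, map_sub,
      map_smul, map_smul, hc g hg hpg]
  have hpe' : IsStarProjection (u * e * u) := by
    refine ⟨?_, ?_⟩
    · show u * e * u * (u * e * u) = u * e * u
      have : u * e * u * (u * e * u) = u * (e * (u * u) * e) * u := by noncomm_ring
      rw [this, hu2, mul_one, hpe.isIdempotentElem.eq]
    · show star (u * e * u) = u * e * u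
      rw [star_mul, star_mul, hus, hpe.isSelfAdjoint.star_eq, mul_assoc]
  have key : e = u * e * u := by
    refine nc_sp_support_unique lam M heM (mul_mem (mul_mem huM heM) huM) hpe hpe' h1 ?_ h2 ?_
    · have : 1 - u * e * u = u * ((1 - e) * u) := by
        rw [sub_mul, one_mul, mul_sub, hu2, mul_assoc]
      rw [this, hcu, mul_assoc, hu2, mul_one, h1]
    · intro y hy hly
      have h3 : lam (star (y * u) * (y * u)) = 0 := by
        rw [star_mul, hus, mul_assoc, hcu, mul_assoc, mul_assoc, hu2, mul_one, hly]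
      have h4 := h2 (y * u) (mul_mem hy huM) h3
      rw [← mul_assoc, ← mul_assoc, h4, zero_mul]
  -- `u e = e u`
  have hcomm : u * e = e * u := by
    have : u * e * u * u = e * u := by rw [← key]
    rwa [mul_assoc, hu2, mul_one] at this
  rw [hu, sub_mul, mul_sub, smul_mul_assoc, mul_smul_comm, one_mul, mul_one] at hcomm
  have h5 : (2 : ℂ) • (g * e) = (2 : ℂ) • (e * g) := sub_left_injective hcomm
  exact (smul_right_injective (H →L[ℂ] H) (two_ne_zero' ℂ) h5).symm

/-- centrality for the projections of `A` implies centrality for `A`. -/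
theorem nc_central_of_proj (M : VonNeumannAlgebra H) (A : StarSubalgebra ℂ (H →L[ℂ] H)) (hA : nc_Masa M A)
    (lam : (H →L[ℂ] H) →ₚ[ℂ] ℂ)
    (hc : ∀ e ∈ A, IsStarProjection e → ∀ z, lam (e * z) = lam (z * e)) :
    ∀ a ∈ A, ∀ z, lam (a * z) = lam (z * a) := by
  intro a ha z
  obtain ⟨C, hC⟩ := PositiveLinearMap.exists_norm_apply_le lam
  rw [← sub_eq_zero, ← norm_le_zero_iff]
  refine le_of_forall_pos_le_add fun ε hε => ?_
  obtain ⟨n, d, e, he, hn⟩ := nc_tk_step_approx M A hA a ha (ε / (2 * ((C : ℝ) + 1) * (‖z‖ + 1)))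
    (by positivity)
  set b := ∑ i, d i • e i with hb
  have hbz : lam (b * z) = lam (z * b) := by
    rw [hb, Finset.sum_mul, Finset.mul_sum, map_sum, map_sum]
    refine Finset.sum_congr rfl fun i _ => ?_
    rw [smul_mul_assoc, mul_smul_comm, map_smul, map_smul, hc (e i) (he i).1 (he i).2]
  have e1 : lam (a * z) - lam (z * a) = lam ((a - b) * z) - lam (z * (a - b)) := by
    rw [sub_mul, mul_sub, map_sub, map_sub, hbz]; ring
  rw [e1, zero_add]
  have h1 : ‖lam ((a - b) * z)‖ ≤ (C : ℝ) * (‖a - b‖ * ‖z‖) :=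
    (hC _).trans (mul_le_mul_of_nonneg_left (norm_mul_le _ _) C.2)
  have h2 : ‖lam (z * (a - b))‖ ≤ (C : ℝ) * (‖z‖ * ‖a - b‖) :=
    (hC _).trans (mul_le_mul_of_nonneg_left (norm_mul_le _ _) C.2)
  have hC0 : (0 : ℝ) ≤ C := C.2
  calc ‖lam ((a - b) * z) - lam (z * (a - b))‖
      ≤ (C : ℝ) * (‖a - b‖ * ‖z‖) + (C : ℝ) * (‖z‖ * ‖a - b‖) :=
        (norm_sub_le _ _).trans (add_le_add h1 h2)
    _ = (2 * (C : ℝ) * ‖z‖) * ‖a - b‖ := by ring
    _ ≤ (2 * ((C : ℝ) + 1) * (‖z‖ + 1)) * (ε / (2 * ((C : ℝ) + 1) * (‖z‖ + 1))) := by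
        apply mul_le_mul _ hn (norm_nonneg _) (by positivity)
        have := norm_nonneg z
        nlinarith
    _ = ε := by field_simp

/-- (AC) small `lam`-mass below the support implies small mass for the test vectors. -/
theorem nc_abs_cont (M : VonNeumannAlgebra H) (lam : (H →L[ℂ] H) →ₚ[ℂ] ℂ) (hn : nc_Normal M lam)
    (e : H →L[ℂ] H) (he : e ∈ M) (hf : ∀ y ∈ M, lam (star y * y) = 0 → y * e = 0)
    {ι : Type*} [Fintype ι] (ξ : ι → H) (δ : ℝ) (hδ : 0 < δ) :
    ∃ ρ : ℝ, 0 < ρ ∧ ∀ g ∈ M, IsStarProjection g → e * g = g → (lam g).re < ρ → nc_sq ξ g < δ := by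
  by_contra hcon
  push Not at hcon
  choose g hgM hgp hge hgl hgδ using fun n : ℕ => hcon (1 / ((n : ℝ) + 1)) (by positivity)
  set U : Ultrafilter ℕ := Ultrafilter.of Filter.atTop with hU
  have hUle : (U : Filter ℕ) ≤ Filter.atTop := Ultrafilter.of_le _
  have hg0 : ∀ n, 0 ≤ g n := fun n => by
    rw [nc_sp_proj_eq_star_mul (hgp n)]; exact star_mul_self_nonneg _
  have hg1 : ∀ n, g n ≤ 1 := fun n => by
    rw [← sub_nonneg, nc_sp_proj_eq_star_mul (hgp n).one_sub]; exact star_mul_self_nonneg _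
  have hgn : ∀ n, ‖g n‖ ≤ ‖(1 : H →L[ℂ] H)‖ := fun n => vn_norm_le_norm_of_le (hg0 n) (hg1 n)
  obtain ⟨b, -, hb⟩ := nc_tk_ulim U g _ hgn
  have hbw : WotTendsto (U : Filter ℕ) g b := fun v w => hb v w
  have hbM : b ∈ M := nc_tk_mem_of_wot M U g b hgM hb
  have hb0 : 0 ≤ b := hbw.nonneg (Filter.Eventually.of_forall hg0)
  have hb1 : b ≤ 1 := hbw.le_const (Filter.Eventually.of_forall hg1)
  have hbs : star b = b := (IsSelfAdjoint.of_nonneg hb0).star_eq
  -- `lam b = 0`
  have hlb : lam b = 0 := by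
    have ht := nc_normal_tendsto M lam hn U g b _ hgM hgn hbM hb
    have ht0 : Filter.Tendsto (fun n => lam (g n)) Filter.atTop (nhds 0) := by
      rw [tendsto_zero_iff_norm_tendsto_zero]
      refine squeeze_zero (fun _ => norm_nonneg _) (fun n => ?_)
        tendsto_one_div_add_atTop_nhds_zero_nat
      have h0 : 0 ≤ lam (g n) := map_nonneg lam (hg0 n)
      have h1 : ‖lam (g n)‖ = (lam (g n)).re := by
        obtain ⟨hre, him⟩ := Complex.le_def.1 h0
        have : lam (g n) = (((lam (g n)).re : ℝ) : ℂ) := by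
          apply Complex.ext
          · simp
          · simpa using him.symm
        rw [this, Complex.norm_real, Real.norm_eq_abs, abs_of_nonneg (by simpa using hre)]
        simp
      rw [h1]
      exact (hgl n).le
    exact tendsto_nhds_unique ht (ht0.mono_left hUle)
  -- `b e = 0`
  have hbe : b * e = 0 := by
    apply hf b hbM
    rw [hbs]
    refine nc_sp_eq_zero_of_le lam ?_ (sub_nonneg.1 (nc_sp_sub_sq_nonneg hb0 hb1)) hlb
    have := star_mul_self_nonneg b
    rwa [hbs] at this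
  -- `b g n = 0`, hence `b b = 0`
  have hbb : b * b = 0 := by
    refine (hbw.mul_left b).unique ((WotTendsto.const 0).congr' ?_)
    refine Filter.Eventually.of_forall fun n => ?_
    show (0 : H →L[ℂ] H) = b * g n
    rw [← hge n, ← mul_assoc, hbe, zero_mul]
  have hbz : b = 0 := by
    apply (CStarRing.star_mul_self_eq_zero_iff b).1
    rw [hbs, hbb]
  have ht : Filter.Tendsto (fun n => ∑ k, ⟪ξ k, g n (ξ k)⟫_ℂ) U (nhds (∑ k, ⟪ξ k, b (ξ k)⟫_ℂ)) :=
    tendsto_finsetSum _ fun k _ => hb (ξ k) (ξ k)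
  have e1 : ∀ n, ∑ k, ⟪ξ k, g n (ξ k)⟫_ℂ = ((nc_sq ξ (g n) : ℝ) : ℂ) := by
    intro n
    unfold nc_sq
    push_cast
    refine Finset.sum_congr rfl fun k _ => ?_
    conv_lhs => rw [nc_sp_proj_eq_star_mul (hgp n)]
    rw [nc_sp_inner_star_mul]
    push_cast
    rfl
  simp only [e1, hbz] at ht
  have ht2 : Filter.Tendsto (fun n => nc_sq ξ (g n)) U (nhds 0) := by
    have := (Complex.continuous_re.tendsto _).comp ht
    simpa [Function.comp_def] using this
  have := ge_of_tendsto' ht2 hgδ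
  linarith

end Claimed.Agent.R302
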