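/-
R302 / NC : EXPORTS of the package (consumed by TOP).
  nc_decomp : for test vectors ξ there is a projection e ∈ A with (1) the corner 1-e singular for ξ, (2) a normal A-central positive
              functional lam with support e.
  nc_ncq    : Q Lemma 2.1 on a singular corner (so-paving of x itself with ⌈4/ε⌉ colours).
  nc_ncp    : P Lemma 6.2 on a singular corner (s with p_i s p_i ≤ p_i / m).
  nc_abs_cont (Support.lean) : small lam-mass ⇒ small mass on ξ.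
-/
import Claimed.Agent.R302.NC.Theta
import Claimed.Agent.R302.NC.NormalPart
import Claimed.Agent.R302.NC.Support
import Claimed.Agent.R302.NC.Sing
import Claimed.Agent.R302.NC.SmallDiag
import Claimed.Agent.R302.NC.Block
import Claimed.Agent.R302.NC.Cut
import Claimed.Agent.R302.NC.Cyclic

set_option autoImplicit false

open scoped InnerProductSpace ComplexOrder

-- with `ComplexOrder` in scope this instance hijacks `Inner ℂ H`
attribute [-instance] WithCStarModule.instCStarModuleComplex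

namespace Claimed.Agent.R302

variable {H : Type*} [NormedAddCommGroup H] [InnerProductSpace ℂ H] [CompleteSpace H]

theorem nc_decomp (M : VonNeumannAlgebra H) (A : StarSubalgebra ℂ (H →L[ℂ] H)) (hA : nc_Masa M A)
    {ι : Type*} [Fintype ι] (ξ : ι → H) :
    ∃ e ∈ A, IsStarProjection e ∧ nc_Sing M A (1 - e) ξ ∧
      ∃ lam : (H →L[ℂ] H) →ₚ[ℂ] ℂ, nc_Normal M lam ∧
        (∀ a ∈ A, ∀ z, lam (a * z) = lam (z * a)) ∧ lam (1 - e) = 0 ∧
        (∀ y ∈ M, lam (star y * y) = 0 → y * e = 0) := by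
  obtain ⟨θ, hθc, hθl⟩ := nc_theta_exists M A hA ξ
  obtain ⟨lam, hn, hlc, habs⟩ := nc_normal_part M θ
  have hc : ∀ e ∈ A, IsStarProjection e → ∀ z, lam (e * z) = lam (z * e) := fun e he hp =>
    hlc e (nc_masa_le M A hA he) hp (hθc e he hp)
  obtain ⟨e, heA, hep, he0, hef⟩ := nc_support M A hA lam hn hc
  have hhA : (1 - e) ∈ A := sub_mem (one_mem A) heA
  have hhp : IsStarProjection (1 - e) := hep.one_sub
  refine ⟨e, heA, hep, ?_, lam, hn, nc_central_of_proj M A hA lam hc, he0, hef⟩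
  refine nc_sing_of_null M A hA (1 - e) hhA hhp ξ θ hθl ?_
  intro α hα
  have hθ1 : 0 ≤ (θ 1).re := by
    have : (0 : ℂ) ≤ θ 1 := θ.map_nonneg zero_le_one
    exact (Complex.le_def.1 this).1
  set C : ℝ := 2 * (θ 1).re / α + 1 with hC
  have hCpos : 0 < C := by positivity
  obtain ⟨f, hfM, hfp, hhf, hfs, hfb⟩ :=
    nc_big_null M θ (1 - e) (nc_masa_le M A hA hhA) hhp ξ C hCpos
  refine ⟨f, hfM, hfp, hhf, ?_, ?_⟩
  · -- C * sq ≤ 2 θ(1) < C α
    have h1 : 2 * (θ 1).re < C * α := by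
      rw [hC, add_mul, div_mul_cancel₀ _ hα.ne']; linarith
    have h2 : C * nc_sq ξ (1 - e - f) < C * α := lt_of_le_of_lt hfs h1
    exact lt_of_mul_lt_mul_left h2 hCpos.le
  · have h3 : lam (star f * f) = θ (star f * f) := by
      refine habs ι (fun k => f (ξ k)) C f hfM ?_
      intro y hy
      have := hfb y hy
      simpa [nc_sq] using this
    have hff : star f * f = f := by
      rw [hfp.isSelfAdjoint.star_eq, hfp.isIdempotentElem.eq]
    rw [hff] at h3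
    rw [← h3]
    -- 0 ≤ lam f ≤ lam (1-e) = 0
    have hf0 : (0 : H →L[ℂ] H) ≤ f := hfp.nonneg
    have hfle : f ≤ 1 - e := hfp.le_of_mul_eq_right hhp hhf
    have h4 : lam f ≤ lam (1 - e) := OrderHomClass.mono lam hfle
    have h5 : (0 : ℂ) ≤ lam f := lam.map_nonneg hf0
    rw [he0] at h4
    exact le_antisymm h4 h5

theorem nc_ncq (M : VonNeumannAlgebra H) (A : StarSubalgebra ℂ (H →L[ℂ] H)) (hA : nc_Masa M A)
    (h : H →L[ℂ] H) (hh : h ∈ A) (hp : IsStarProjection h) {ι : Type*} [Fintype ι] (ξ : ι → H)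
    (hs : nc_Sing M A h ξ) (x : H →L[ℂ] H) (hx : x ∈ M) (hxs : IsSelfAdjoint x) (hx1 : ‖x‖ ≤ 1)
    (ε ρ : ℝ) (hε : 0 < ε) (hε1 : ε < 1) (hρ : 0 < ρ) :
    ∃ p : Fin (Nat.ceil (4 / ε)) → (H →L[ℂ] H), nc_IsPart A h p ∧
      ∃ a ∈ A, IsSelfAdjoint a ∧ ‖a‖ ≤ 1 ∧ a * h = a ∧
        ∃ q ∈ M, IsStarProjection q ∧ h * q = q ∧ nc_sq ξ (h - q) < ρ ∧
          ‖q * (nc_pinch p x - a) * q‖ ≤ ε := by
  have hhM : h ∈ M := nc_masa_le M A hA hh
  set r : ℕ := Nat.ceil (4 / ε) with hr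
  have hr4 : 4 / ε ≤ (r : ℝ) := Nat.le_ceil _
  have hrpos : 0 < r := Nat.ceil_pos.2 (by positivity)
  have hrR : (0 : ℝ) < r := by exact_mod_cast hrpos
  have hrinv : 1 / (r : ℝ) ≤ ε / 4 := by
    rw [div_le_div_iff₀ hrR (by norm_num)]
    have := (div_le_iff₀ hε).1 hr4
    linarith
  obtain ⟨τ, hτ, hcut⟩ := nc_cut M h hhM hp ξ (ε / 2) ρ (by positivity) hρ
  obtain ⟨β, hβ, hcol⟩ := nc_color M A hA h hh hp ξ τ hτ
  obtain ⟨n, P, hP, s, hsM, hs0, hsh, hsα, hsβ⟩ := nc_small_diag M A hA h hh hp ξ hs τ β hτ hβ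
  obtain ⟨p, hpp, b, hbA, hbs, hb1, hbh, hsq⟩ :=
    hcol n P hP s hsM hs0 hsh hsβ x hx hxs hx1 r hrpos
  have hpM : ∀ i, p i ∈ M := fun i => nc_masa_le M A hA (hpp.1 i).1
  have hpsa : ∀ i, IsSelfAdjoint (p i) := fun i => (hpp.1 i).2.isSelfAdjoint
  set c1 : ℂ := 1 - 1 / (r : ℂ) with hc1
  set c2 : ℂ := 1 / (r : ℂ) with hc2
  have hc1r : c1 = ((1 - 1 / (r : ℝ) : ℝ) : ℂ) := by rw [hc1]; push_cast; ring
  have hc2r : c2 = ((1 / (r : ℝ) : ℝ) : ℂ) := by rw [hc2]; push_cast; ring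
  have hc1s : star c1 = c1 := by rw [hc1r]; exact Complex.conj_ofReal _
  have hc2s : star c2 = c2 := by rw [hc2r]; exact Complex.conj_ofReal _
  have hsa1 : IsSelfAdjoint (c1 • b) := by
    rw [IsSelfAdjoint, star_smul, hc1s, hbs.star_eq]
  have hsa2 : IsSelfAdjoint (c2 • x) := by
    rw [IsSelfAdjoint, star_smul, hc2s, hxs.star_eq]
  set y : H →L[ℂ] H := nc_pinch p x - c1 • b - c2 • x with hy
  have hyM : y ∈ M := by
    refine sub_mem (sub_mem (nc_pinch_mem M p hpM hx) ?_) ?_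
    · exact M.toStarSubalgebra.smul_mem (nc_masa_le M A hA hbA) c1
    · exact M.toStarSubalgebra.smul_mem hx c2
  have hys : IsSelfAdjoint y := ((nc_pinch_isSelfAdjoint p hpsa hxs).sub hsa1).sub hsa2
  obtain ⟨q, hqM, hqp, hhq, hqn, hqρ⟩ := hcut s hsM hs0 hsh y hyM hys hsq hsα.le
  have hq1 : ‖q‖ ≤ 1 := hqp.norm_le
  have h1r : 0 ≤ 1 / (r : ℝ) := by positivity
  have h1r1 : 1 / (r : ℝ) ≤ 1 := by
    rw [div_le_one hrR]; exact_mod_cast hrpos
  refine ⟨p, hpp, c1 • b, A.smul_mem hbA c1, hsa1, ?_, ?_, q, hqM, hqp, hhq, hqρ, ?_⟩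
  · rw [norm_smul, hc1r, Complex.norm_real, Real.norm_eq_abs, abs_of_nonneg (by linarith)]
    calc (1 - 1 / (r : ℝ)) * ‖b‖ ≤ 1 * 1 := by
          apply mul_le_mul (by linarith) hb1 (norm_nonneg _) (by norm_num)
      _ = 1 := by norm_num
  · rw [smul_mul_assoc, hbh]
  · have hdec : q * (nc_pinch p x - c1 • b) * q = q * y * q + c2 • (q * x * q) := by
      rw [hy]; simp only [mul_sub, sub_mul, mul_smul_comm, smul_mul_assoc]; abel
    rw [hdec]
    have hqxq : ‖q * x * q‖ ≤ 1 := by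
      calc ‖q * x * q‖ ≤ ‖q‖ * ‖x‖ * ‖q‖ := by
            exact (norm_mul_le _ _).trans (mul_le_mul_of_nonneg_right (norm_mul_le _ _) (norm_nonneg _))
        _ ≤ 1 * 1 * 1 := by gcongr
        _ = 1 := by norm_num
    calc ‖q * y * q + c2 • (q * x * q)‖ ≤ ‖q * y * q‖ + ‖c2 • (q * x * q)‖ := norm_add_le _ _
      _ ≤ ε / 2 + (1 / (r : ℝ)) * 1 := by
          refine add_le_add hqn ?_
          rw [norm_smul, hc2r, Complex.norm_real, Real.norm_eq_abs, abs_of_nonneg h1r]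
          exact mul_le_mul_of_nonneg_left hqxq h1r
      _ ≤ ε := by linarith

theorem nc_ncp (M : VonNeumannAlgebra H) (A : StarSubalgebra ℂ (H →L[ℂ] H)) (hA : nc_Masa M A)
    (h : H →L[ℂ] H) (hh : h ∈ A) (hp : IsStarProjection h) {ι : Type*} [Fintype ι] (ξ : ι → H)
    (hs : nc_Sing M A h ξ) (m : ℕ) (hm : 0 < m) (α : ℝ) (hα : 0 < α) :
    ∃ p : Fin m → (H →L[ℂ] H), nc_IsPart A h p ∧
      ∃ s ∈ M, 0 ≤ s ∧ s ≤ h ∧ nc_sq ξ (h - s) < α ∧ ∀ i, p i * s * p i ≤ (1 / (m : ℝ)) • p i :=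
  nc_cyc_main M A hA h hh hp ξ hs m hm α hα

end Claimed.Agent.R302
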