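/-
R302 / NC / L3, file 1 (helper210): generalities used for the normal part.
* GNS: classes `nc_np_cl f a`, inner products, action of the representation, density;
* the right multiplication `nc_np_V` by a symmetry `u` which is central for `f`;
* projections commute with operators leaving the subspace invariant (with their adjoints);
* a functional dominated by `‖T x‖` is `x ↦ ⟪η, T x⟫`.
-/
import Claimed.Agent.R302.NC.Defs

set_option autoImplicit false

open scoped InnerProductSpace ComplexOrder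

-- with `ComplexOrder` in scope this instance hijacks `Inner ℂ H`
attribute [-instance] WithCStarModule.instCStarModuleComplex

namespace Claimed.Agent.R302

section gns

variable {A : Type*} [CStarAlgebra A] [PartialOrder A] [StarOrderedRing A] (f : A →ₚ[ℂ] ℂ)

/-- The class of `a` in the GNS space. -/
noncomputable def nc_np_cl (a : A) : f.GNS := ((f.toPreGNS a : f.PreGNS) : f.GNS)

theorem nc_np_inner_cl (a b : A) : ⟪nc_np_cl f a, nc_np_cl f b⟫_ℂ = f (star a * b) := by
  unfold nc_np_cl
  rw [UniformSpace.Completion.inner_coe, PositiveLinearMap.preGNS_inner_def]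
  simp

theorem nc_np_pi_cl (a b : A) : f.gnsStarAlgHom a (nc_np_cl f b) = nc_np_cl f (a * b) := by
  unfold nc_np_cl
  simp

theorem nc_np_norm_sq_cl (a : A) : ‖nc_np_cl f a‖ ^ 2 = (f (star a * a)).re := by
  rw [← nc_np_inner_cl, inner_self_eq_norm_sq_to_K]
  norm_cast

theorem nc_np_induction {p : f.GNS → Prop} (hp : IsClosed {x | p x}) (h : ∀ a, p (nc_np_cl f a))
    (x : f.GNS) : p x :=
  UniformSpace.Completion.induction_on x hp fun a => h (f.ofPreGNS a)

theorem nc_np_cl_add (a b : A) : nc_np_cl f (a + b) = nc_np_cl f a + nc_np_cl f b := by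
  unfold nc_np_cl
  rw [map_add, UniformSpace.Completion.coe_add]

theorem nc_np_norm_pi_le (a : A) : ‖f.gnsStarAlgHom a‖ ≤ ‖a‖ :=
  NonUnitalStarAlgHom.norm_apply_le f.gnsStarAlgHom a

/-- Right multiplication by `u` on the pre-GNS space; `u` a symmetry, central for `f`. -/
noncomputable def nc_np_Vpre (u : A) (hu : star u = u) (hu2 : u * u = 1)
    (hc : ∀ z, f (u * z) = f (z * u)) : f.PreGNS →L[ℂ] f.PreGNS :=
  (f.toPreGNS.toLinearMap ∘ₗ (LinearMap.mulRight ℂ u) ∘ₗ f.ofPreGNS.toLinearMap).mkContinuous 1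
    fun x => by
      rw [one_mul]
      apply le_of_eq
      rw [PositiveLinearMap.preGNS_norm_def, PositiveLinearMap.preGNS_norm_def]
      congr 2
      simp only [LinearMap.coe_comp, LinearEquiv.coe_coe, Function.comp_apply,
        LinearMap.mulRight_apply, PositiveLinearMap.ofPreGNS_toPreGNS, star_mul, hu]
      rw [mul_assoc, hc, mul_assoc, mul_assoc, hu2, mul_one]

/-- Right multiplication by `u` on the GNS space. -/
noncomputable def nc_np_V (u : A) (hu : star u = u) (hu2 : u * u = 1)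
    (hc : ∀ z, f (u * z) = f (z * u)) : f.GNS →L[ℂ] f.GNS :=
  (nc_np_Vpre f u hu hu2 hc).completion

theorem nc_np_V_cl (u : A) (hu : star u = u) (hu2 : u * u = 1)
    (hc : ∀ z, f (u * z) = f (z * u)) (a : A) :
    nc_np_V f u hu hu2 hc (nc_np_cl f a) = nc_np_cl f (a * u) := by
  unfold nc_np_V nc_np_cl
  rw [ContinuousLinearMap.completion_apply_coe]
  rfl

theorem nc_np_V_comm (u : A) (hu : star u = u) (hu2 : u * u = 1)
    (hc : ∀ z, f (u * z) = f (z * u)) (z : A) (x : f.GNS) :
    nc_np_V f u hu hu2 hc (f.gnsStarAlgHom z x) = f.gnsStarAlgHom z (nc_np_V f u hu hu2 hc x) := by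
  refine nc_np_induction f (p := fun x => nc_np_V f u hu hu2 hc (f.gnsStarAlgHom z x)
    = f.gnsStarAlgHom z (nc_np_V f u hu hu2 hc x)) ?_ ?_ x
  · exact isClosed_eq (by fun_prop) (by fun_prop)
  · intro a
    rw [nc_np_pi_cl, nc_np_V_cl, nc_np_V_cl, nc_np_pi_cl, mul_assoc]

theorem nc_np_V_symm (u : A) (hu : star u = u) (hu2 : u * u = 1)
    (hc : ∀ z, f (u * z) = f (z * u)) (x y : f.GNS) :
    ⟪nc_np_V f u hu hu2 hc x, y⟫_ℂ = ⟪x, nc_np_V f u hu hu2 hc y⟫_ℂ := by
  refine nc_np_induction f (p := fun x => ⟪nc_np_V f u hu hu2 hc x, y⟫_ℂ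
    = ⟪x, nc_np_V f u hu hu2 hc y⟫_ℂ) ?_ ?_ x
  · exact isClosed_eq (by fun_prop) (by fun_prop)
  · intro a
    refine nc_np_induction f (p := fun y => ⟪nc_np_V f u hu hu2 hc (nc_np_cl f a), y⟫_ℂ
      = ⟪nc_np_cl f a, nc_np_V f u hu hu2 hc y⟫_ℂ) ?_ ?_ y
    · exact isClosed_eq (by fun_prop) (by fun_prop)
    · intro b
      rw [nc_np_V_cl, nc_np_V_cl, nc_np_inner_cl, nc_np_inner_cl, star_mul, hu, mul_assoc, hc,
        mul_assoc]

end gns

section hilbert

variable {K : Type*} [NormedAddCommGroup K] [InnerProductSpace ℂ K] [CompleteSpace K]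

/-- The projection onto the closure of `U` commutes with `T` if `U` is invariant under `T` and under an
operator `T'` adjoint to `T`. -/
theorem nc_np_proj_comm (U : Submodule ℂ K) (T T' : K →L[ℂ] K)
    (hadj : ∀ x y, ⟪T' x, y⟫_ℂ = ⟪x, T y⟫_ℂ) (hT : ∀ v ∈ U, T v ∈ U) (hT' : ∀ v ∈ U, T' v ∈ U)
    (x : K) :
    U.topologicalClosure.starProjection (T x) = T (U.topologicalClosure.starProjection x) := by
  have hcl : ∀ S : K →L[ℂ] K, (∀ v ∈ U, S v ∈ U) →
      ∀ v ∈ U.topologicalClosure, S v ∈ U.topologicalClosure := by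
    intro S hS v hv
    have h1 : Set.MapsTo S (U : Set K) (U : Set K) := fun v hv => hS v hv
    exact h1.closure S.continuous hv
  apply Submodule.eq_starProjection_of_mem_orthogonal
  · exact hcl T hT _ (Submodule.starProjection_apply_mem _ _)
  · rw [← map_sub, Submodule.mem_orthogonal]
    intro w hw
    rw [← hadj]
    have h2 := hcl T' hT' w hw
    have h3 := Submodule.starProjection_inner_eq_zero (K := U.topologicalClosure) x (T' w) h2
    rw [← inner_conj_symm, h3, map_zero]

/-- A linear functional dominated by `c ‖T x‖` is of the form `x ↦ ⟪η, T x⟫`. -/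
theorem nc_np_riesz {E : Type*} [AddCommGroup E] [Module ℂ E] (T : E →ₗ[ℂ] K) (φ : E →ₗ[ℂ] ℂ)
    (c : ℝ) (h : ∀ x, ‖φ x‖ ≤ c * ‖T x‖) : ∃ η : K, ∀ x, φ x = ⟪η, T x⟫_ℂ := by
  obtain ⟨g, hg⟩ := LinearMap.exists_rightInverse_of_surjective T.rangeRestrict
    (LinearMap.range_rangeRestrict T)
  have hg' : ∀ u : LinearMap.range T, T (g u) = u := by
    intro u
    have := congrArg (fun F => ((F u : LinearMap.range T) : K)) hg
    simpa using this
  have hker : ∀ x, T x = 0 → φ x = 0 := by
    intro x hx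
    have := h x
    rw [hx, norm_zero, mul_zero] at this
    exact norm_le_zero_iff.1 this
  let ψ : LinearMap.range T →L[ℂ] ℂ := (φ ∘ₗ g).mkContinuous c (by
    intro u
    have := h (g u)
    rw [hg' u] at this
    simpa using this)
  obtain ⟨G, hG, -⟩ := exists_extension_norm_eq (LinearMap.range T) ψ
  refine ⟨(InnerProductSpace.toDual ℂ K).symm G, fun x => ?_⟩
  rw [InnerProductSpace.toDual_symm_apply]
  have h1 := hG ⟨T x, LinearMap.mem_range_self T x⟩
  simp only at h1
  rw [h1]
  have h2 : ψ ⟨T x, LinearMap.mem_range_self T x⟩ = φ (g ⟨T x, LinearMap.mem_range_self T x⟩) := rfl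
  rw [h2]
  have h3 : φ (x - g ⟨T x, LinearMap.mem_range_self T x⟩) = 0 := by
    apply hker
    rw [map_sub, hg']
    simp
  rw [map_sub, sub_eq_zero] at h3
  exact h3

end hilbert

end Claimed.Agent.R302
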