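/-
R302 / NC / L3, file 2 (helper210): the dominated vectors `nc_np_K0` of the GNS space of `θ`, vector functionals,
normality of the vector functionals of vectors in the closure of `nc_np_K0`.
-/
import Claimed.Agent.R302.NC.NormalPart1

set_option autoImplicit false
set_option linter.unusedSectionVars false

open scoped InnerProductSpace ComplexOrder

-- with `ComplexOrder` in scope this instance hijacks `Inner ℂ H`
attribute [-instance] WithCStarModule.instCStarModuleComplex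

namespace Claimed.Agent.R302

variable {H : Type*} [NormedAddCommGroup H] [InnerProductSpace ℂ H] [CompleteSpace H]

theorem nc_np_sq_nonneg {ι : Type*} [Fintype ι] (ξ : ι → H) (z : H →L[ℂ] H) : 0 ≤ nc_sq ξ z :=
  Finset.sum_nonneg fun _ _ => by positivity

theorem nc_np_sq_append {n m : ℕ} (ζ : Fin n → H) (ζ' : Fin m → H) (y : H →L[ℂ] H) :
    nc_sq (Fin.append ζ ζ') y = nc_sq ζ y + nc_sq ζ' y := by
  unfold nc_sq
  rw [Fin.sum_univ_add]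
  simp [Fin.append_left, Fin.append_right]

variable (M : VonNeumannAlgebra H) (θ : (H →L[ℂ] H) →ₚ[ℂ] ℂ)

/-- The vectors of the GNS space whose orbit map on `M` is dominated by finitely many vectors of `H`. -/
def nc_np_K0 : Submodule ℂ θ.GNS where
  carrier := {v | ∃ (C : ℝ) (n : ℕ) (ζ : Fin n → H), 0 ≤ C ∧
    ∀ y ∈ M, ‖θ.gnsStarAlgHom y v‖ ^ 2 ≤ C * nc_sq ζ y}
  zero_mem' := ⟨0, 0, fun _ => 0, le_rfl, fun y _ => by simp⟩
  add_mem' := by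
    rintro v w ⟨C, n, ζ, hC, h⟩ ⟨C', m, ζ', hC', h'⟩
    refine ⟨2 * C + 2 * C', n + m, Fin.append ζ ζ', by positivity, fun y hy => ?_⟩
    rw [map_add, nc_np_sq_append]
    have h1 := h y hy
    have h2 := h' y hy
    have h3 := norm_add_le (θ.gnsStarAlgHom y v) (θ.gnsStarAlgHom y w)
    have h4 := nc_np_sq_nonneg ζ y
    have h5 := nc_np_sq_nonneg ζ' y
    have h6 : ‖θ.gnsStarAlgHom y v + θ.gnsStarAlgHom y w‖ ^ 2
        ≤ 2 * ‖θ.gnsStarAlgHom y v‖ ^ 2 + 2 * ‖θ.gnsStarAlgHom y w‖ ^ 2 := by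
      have h7 : ‖θ.gnsStarAlgHom y v + θ.gnsStarAlgHom y w‖ ^ 2
          ≤ (‖θ.gnsStarAlgHom y v‖ + ‖θ.gnsStarAlgHom y w‖) ^ 2 :=
        pow_le_pow_left₀ (norm_nonneg _) h3 2
      nlinarith [sq_nonneg (‖θ.gnsStarAlgHom y v‖ - ‖θ.gnsStarAlgHom y w‖)]
    have h8 : 0 ≤ C * nc_sq ζ' y := mul_nonneg hC h5
    have h9 : 0 ≤ C' * nc_sq ζ y := mul_nonneg hC' h4
    nlinarith
  smul_mem' := by
    rintro c v ⟨C, n, ζ, hC, h⟩
    refine ⟨‖c‖ ^ 2 * C, n, ζ, by positivity, fun y hy => ?_⟩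
    rw [map_smul, norm_smul, mul_pow, mul_assoc]
    exact mul_le_mul_of_nonneg_left (h y hy) (by positivity)

theorem nc_np_mem_K0 {v : θ.GNS} : v ∈ nc_np_K0 M θ ↔ ∃ (C : ℝ) (n : ℕ) (ζ : Fin n → H), 0 ≤ C ∧
    ∀ y ∈ M, ‖θ.gnsStarAlgHom y v‖ ^ 2 ≤ C * nc_sq ζ y := Iff.rfl

/-- `nc_np_K0` is invariant under `π(M)`. -/
theorem nc_np_K0_pi {m : H →L[ℂ] H} (hm : m ∈ M) {v : θ.GNS} (hv : v ∈ nc_np_K0 M θ) :
    θ.gnsStarAlgHom m v ∈ nc_np_K0 M θ := by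
  obtain ⟨C, n, ζ, hC, h⟩ := hv
  refine ⟨C, n, fun i => m (ζ i), hC, fun y hy => ?_⟩
  have h1 := h (y * m) (mul_mem hy hm)
  rw [map_mul] at h1
  exact h1

/-- `nc_np_K0` is invariant under the commutant of `π(M)`. -/
theorem nc_np_K0_comm (T : θ.GNS →L[ℂ] θ.GNS)
    (hT : ∀ y ∈ M, ∀ x, T (θ.gnsStarAlgHom y x) = θ.gnsStarAlgHom y (T x)) {v : θ.GNS}
    (hv : v ∈ nc_np_K0 M θ) : T v ∈ nc_np_K0 M θ := by
  obtain ⟨C, n, ζ, hC, h⟩ := hv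
  refine ⟨‖T‖ ^ 2 * C, n, ζ, by positivity, fun y hy => ?_⟩
  rw [← hT y hy, mul_assoc]
  have h1 : ‖T (θ.gnsStarAlgHom y v)‖ ^ 2 ≤ (‖T‖ * ‖θ.gnsStarAlgHom y v‖) ^ 2 :=
    pow_le_pow_left₀ (norm_nonneg _) (T.le_opNorm _) 2
  rw [mul_pow] at h1
  exact h1.trans (mul_le_mul_of_nonneg_left (h y hy) (by positivity))

/-- Membership from a domination by an arbitrary finite family. -/
theorem nc_np_cl_mem_K0 {κ : Type*} [Fintype κ] (ζ : κ → H) (C : ℝ) {f : H →L[ℂ] H}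
    (h : ∀ y ∈ M, (θ (star (y * f) * (y * f))).re ≤ C * nc_sq ζ y) :
    nc_np_cl θ f ∈ nc_np_K0 M θ := by
  refine ⟨max C 0, Fintype.card κ, fun i => ζ ((Fintype.equivFin κ).symm i), le_max_right _ _,
    fun y hy => ?_⟩
  rw [nc_np_pi_cl, nc_np_norm_sq_cl]
  have e : nc_sq (fun i => ζ ((Fintype.equivFin κ).symm i)) y = nc_sq ζ y := by
    unfold nc_sq
    exact Equiv.sum_comp (Fintype.equivFin κ).symm (fun k => ‖y (ζ k)‖ ^ 2)
  rw [e]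
  exact (h y hy).trans (mul_le_mul_of_nonneg_right (le_max_left _ _) (nc_np_sq_nonneg ζ y))

theorem nc_np_inner_pi_star (a : H →L[ℂ] H) (x y : θ.GNS) :
    ⟪x, θ.gnsStarAlgHom (star a) y⟫_ℂ = ⟪θ.gnsStarAlgHom a x, y⟫_ℂ := by
  rw [map_star, ContinuousLinearMap.star_eq_adjoint, ContinuousLinearMap.adjoint_inner_right]

theorem nc_np_pi_mul (a b : H →L[ℂ] H) (x : θ.GNS) :
    θ.gnsStarAlgHom (a * b) x = θ.gnsStarAlgHom a (θ.gnsStarAlgHom b x) := by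
  rw [map_mul]
  rfl

/-- The vector functional `z ↦ ⟪w, π z w⟫`. -/
noncomputable def nc_np_vec (w : θ.GNS) : (H →L[ℂ] H) →ₚ[ℂ] ℂ :=
  PositiveLinearMap.mk₀
    ((innerSL ℂ w).toLinearMap ∘ₗ (ContinuousLinearMap.apply ℂ θ.GNS w).toLinearMap ∘ₗ
      θ.gnsStarAlgHom.toAlgHom.toLinearMap)
    (by
      intro z hz
      obtain ⟨b, rfl⟩ := CStarAlgebra.nonneg_iff_eq_star_mul_self.1 hz
      have : ((innerSL ℂ w).toLinearMap ∘ₗ (ContinuousLinearMap.apply ℂ θ.GNS w).toLinearMap ∘ₗ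
          θ.gnsStarAlgHom.toAlgHom.toLinearMap) (star b * b)
          = ⟪θ.gnsStarAlgHom b w, θ.gnsStarAlgHom b w⟫_ℂ := by
        rw [← nc_np_inner_pi_star, ← nc_np_pi_mul]
        rfl
      rw [this, inner_self_eq_norm_sq_to_K]
      rw [← RCLike.ofReal_pow]
      exact RCLike.ofReal_nonneg.2 (sq_nonneg _))

theorem nc_np_vec_apply (w : θ.GNS) (z : H →L[ℂ] H) :
    nc_np_vec θ w z = ⟪w, θ.gnsStarAlgHom z w⟫_ℂ := rfl

/-- The vector functional of a dominated vector is WOT-continuous on `M`. -/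
theorem nc_np_vec_wot {v : θ.GNS} (hv : v ∈ nc_np_K0 M θ) :
    ∃ (n : ℕ) (ζ η : Fin n → H), ∀ x ∈ M, nc_np_vec θ v x = ∑ i, ⟪η i, x (ζ i)⟫_ℂ := by
  obtain ⟨C, n, ζ, hC, h⟩ := hv
  let E : Submodule ℂ (H →L[ℂ] H) := Subalgebra.toSubmodule M.toStarSubalgebra.toSubalgebra
  let T : E →ₗ[ℂ] PiLp 2 (fun _ : Fin n => H) :=
    ((WithLp.linearEquiv 2 ℂ (Fin n → H)).symm.toLinearMap) ∘ₗ
      (LinearMap.pi fun i => (ContinuousLinearMap.apply ℂ H (ζ i)).toLinearMap) ∘ₗ E.subtype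
  have hT : ∀ (x : E) (i : Fin n), (T x).ofLp i = (x : H →L[ℂ] H) (ζ i) := fun x i => rfl
  have hTn : ∀ x : E, ‖T x‖ ^ 2 = nc_sq ζ (x : H →L[ℂ] H) := by
    intro x
    rw [PiLp.norm_sq_eq_of_L2]
    rfl
  obtain ⟨η, hη⟩ := nc_np_riesz T ((nc_np_vec θ v).toLinearMap ∘ₗ E.subtype) (‖v‖ * Real.sqrt C) (by
    intro x
    have hx : (x : H →L[ℂ] H) ∈ M := x.2
    have h1 : ‖θ.gnsStarAlgHom (x : H →L[ℂ] H) v‖ ≤ Real.sqrt C * ‖T x‖ := by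
      rw [← Real.sqrt_sq (norm_nonneg (T x)), ← Real.sqrt_mul hC, hTn]
      exact Real.le_sqrt_of_sq_le (h _ hx)
    calc ‖((nc_np_vec θ v).toLinearMap ∘ₗ E.subtype) x‖
        = ‖⟪v, θ.gnsStarAlgHom (x : H →L[ℂ] H) v⟫_ℂ‖ := rfl
      _ ≤ ‖v‖ * ‖θ.gnsStarAlgHom (x : H →L[ℂ] H) v‖ := norm_inner_le_norm _ _
      _ ≤ ‖v‖ * (Real.sqrt C * ‖T x‖) := mul_le_mul_of_nonneg_left h1 (norm_nonneg _)
      _ = ‖v‖ * Real.sqrt C * ‖T x‖ := by ring)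
  refine ⟨n, ζ, fun i => η.ofLp i, fun x hx => ?_⟩
  have h2 := hη ⟨x, hx⟩
  rw [PiLp.inner_apply] at h2
  exact h2

/-- The vector functional of a vector in the closure of the dominated vectors is normal on `M`. -/
theorem nc_np_vec_normal {w : θ.GNS} (hw : w ∈ (nc_np_K0 M θ).topologicalClosure) :
    nc_Normal M (nc_np_vec θ w) := by
  intro ε hε
  set δ : ℝ := min 1 (ε / (2 * ‖w‖ + 1)) with hδ
  have hδ0 : 0 < δ := lt_min one_pos (by positivity)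
  have hw' : w ∈ closure ((nc_np_K0 M θ : Submodule ℂ θ.GNS) : Set θ.GNS) := hw
  obtain ⟨v, hv, hwv⟩ := Metric.mem_closure_iff.1 hw' δ hδ0
  obtain ⟨n, ζ, η, h⟩ := nc_np_vec_wot M θ hv
  refine ⟨n, ζ, η, fun x hx => ?_⟩
  rw [← h x hx, nc_np_vec_apply, nc_np_vec_apply]
  rw [dist_eq_norm] at hwv
  have hπ : ‖θ.gnsStarAlgHom x‖ ≤ ‖x‖ := nc_np_norm_pi_le θ x
  have e : ⟪w, θ.gnsStarAlgHom x w⟫_ℂ - ⟪v, θ.gnsStarAlgHom x v⟫_ℂ
      = ⟪w - v, θ.gnsStarAlgHom x w⟫_ℂ + ⟪v, θ.gnsStarAlgHom x (w - v)⟫_ℂ := by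
    rw [inner_sub_left, map_sub, inner_sub_right]
    ring
  rw [e]
  have hv' : ‖v‖ ≤ ‖w‖ + δ := by
    have : ‖v‖ ≤ ‖w‖ + ‖w - v‖ := by
      have := norm_sub_le w (w - v)
      simpa using this
    linarith
  have h1 : ‖⟪w - v, θ.gnsStarAlgHom x w⟫_ℂ‖ ≤ δ * (‖x‖ * ‖w‖) := by
    refine (norm_inner_le_norm _ _).trans ?_
    apply mul_le_mul hwv.le _ (norm_nonneg _) hδ0.le
    exact ((θ.gnsStarAlgHom x).le_opNorm w).trans (mul_le_mul_of_nonneg_right hπ (norm_nonneg _))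
  have h2 : ‖⟪v, θ.gnsStarAlgHom x (w - v)⟫_ℂ‖ ≤ (‖w‖ + δ) * (‖x‖ * δ) := by
    refine (norm_inner_le_norm _ _).trans ?_
    apply mul_le_mul hv' _ (norm_nonneg _) (by positivity)
    exact ((θ.gnsStarAlgHom x).le_opNorm (w - v)).trans
      (mul_le_mul hπ hwv.le (norm_nonneg _) (norm_nonneg _))
  have h3 : δ * (2 * ‖w‖ + 1) ≤ ε := by
    have : δ ≤ ε / (2 * ‖w‖ + 1) := min_le_right _ _
    rwa [le_div_iff₀ (by positivity)] at this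
  have h4 : δ ≤ 1 := min_le_left _ _
  calc ‖⟪w - v, θ.gnsStarAlgHom x w⟫_ℂ + ⟪v, θ.gnsStarAlgHom x (w - v)⟫_ℂ‖
      ≤ δ * (‖x‖ * ‖w‖) + (‖w‖ + δ) * (‖x‖ * δ) := (norm_add_le _ _).trans (add_le_add h1 h2)
    _ = (δ * (2 * ‖w‖ + δ)) * ‖x‖ := by ring
    _ ≤ ε * ‖x‖ := by
        apply mul_le_mul_of_nonneg_right _ (norm_nonneg _)
        refine le_trans ?_ h3
        apply mul_le_mul_of_nonneg_left _ hδ0.le
        linarith

end Claimed.Agent.R302
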